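import Vale.Agent.P226.Small

/-!
Properties of a maximiser of `J` exceeding `c2`, for a minimal number of vectors.
-/

open MeasureTheory ProbabilityTheory Filter Set Function
open scoped RealInnerProductSpace

namespace Vale.Agent.P226

variable {n k : ℕ} [NeZero k]

/-- A maximiser of `J` above `c2` with the fewest possible vectors. -/
structure Bad (v : Fin k → Space n) : Prop where
  isMax : ∀ w : Fin k → Space n, J w ≤ J v
  gt : c2 < J v
  smaller : ∀ m, m + 1 < k → ∀ w : Fin (m + 1) → Space n, J w ≤ c2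

variable {v : Fin k → Space n}

lemma Bad.smaller' (hv : Bad v) {κ : Type*} [Fintype κ] [Nonempty κ] (hκ : Fintype.card κ < k)
    (w : κ → Space n) : J w ≤ c2 := by
  obtain ⟨m, hm⟩ := Nat.exists_eq_succ_of_ne_zero (Fintype.card_ne_zero (α := κ))
  have e : Fin (m + 1) ≃ κ := (Fintype.equivFinOfCardEq hm).symm
  rw [← J_reindex w e]
  exact hv.smaller m (by omega) _

/-- `F`, the sum of squared norms. -/
noncomputable def sumSq (v : Fin k → Space n) : ℝ := ∑ i, ‖v i‖ ^ 2

lemma Bad.four_le (hv : Bad v) : 4 ≤ k := by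
  by_contra h
  have h3 : Fintype.card (Fin k) ≤ 3 := by simp; omega
  exact absurd hv.gt (not_lt.2 (J_le_of_card_le_three h3 v))

lemma Bad.moment_eq (hv : Bad v) {A : Fin k → Set (Space n)} (hA : ∀ i, MeasurableSet (A i))
    (hd : Pairwise (Disjoint on A)) (hu : (⋃ i, A i) = univ)
    (hmax : ∀ i, ∀ x ∈ A i, ⟪v i, x⟫ = maxOver (fun j => ⟪v j, x⟫)) (i : Fin k) :
    moment (A i) = v i := by
  have h1 := sum_sq_moment_le_J hA hd hu
  have h2 := hv.isMax fun i => moment (A i)
  have h3 := sum_inner_moment_eq v hA hd hu hmax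
  have h4 : ∑ i, ‖moment (A i) - v i‖ ^ 2 =
      ∑ i, ‖moment (A i)‖ ^ 2 - 2 * ∑ i, ⟪v i, moment (A i)⟫ + ∑ i, ‖v i‖ ^ 2 := by
    rw [Finset.mul_sum, ← Finset.sum_sub_distrib, ← Finset.sum_add_distrib]
    refine Finset.sum_congr rfl fun i _ => ?_
    rw [norm_sub_sq_real, real_inner_comm (v i)]
  have h5 : ∑ i, ‖moment (A i) - v i‖ ^ 2 ≤ 0 := by
    rw [h4, h3]
    simp only [J] at h1 h2 ⊢
    linarith
  have h6 := (Finset.sum_eq_zero_iff_of_nonneg fun j _ => sq_nonneg ‖moment (A j) - v j‖).1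
    (le_antisymm h5 (Finset.sum_nonneg fun j _ => sq_nonneg _)) i (Finset.mem_univ i)
  simpa [sub_eq_zero] using h6

lemma Bad.psi_eq (hv : Bad v) : psi v = sumSq v := by
  obtain ⟨A, hA, hd, hu, hmax⟩ := exists_argmax_cells v
  rw [← sum_inner_moment_eq v hA hd hu hmax, sumSq]
  exact Finset.sum_congr rfl fun i _ => by
    rw [hv.moment_eq hA hd hu hmax, real_inner_self_eq_norm_sq]

lemma Bad.J_eq (hv : Bad v) : J v = sumSq v := by
  rw [J, hv.psi_eq, sumSq]; ring

lemma Bad.c2_lt (hv : Bad v) : c2 < sumSq v := hv.J_eq ▸ hv.gt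

lemma Bad.sum_eq_zero (hv : Bad v) : ∑ i, v i = 0 := by
  obtain ⟨A, hA, hd, hu, hmax⟩ := exists_argmax_cells v
  simp only [← hv.moment_eq hA hd hu hmax, moment]
  rw [← integral_iUnion_fintype hA hd
    (fun i => (IsGaussian.integrable_fun_id (μ := gauss n)).integrableOn), hu, setIntegral_univ]
  exact integral_id_stdGaussian

lemma Bad.inner_neg (hv : Bad v) {a b : Fin k} (hab : a ≠ b) : ⟪v a, v b⟫ < 0 := by
  classical
  obtain ⟨A, hA, hd, hu, hmax⟩ := exists_argmax_cells v
  -- merge cell `b` into cell `a`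
  let κ := {i : Fin k // i ≠ b}
  haveI : Nonempty κ := ⟨⟨a, hab⟩⟩
  let w : κ → Space n := fun i => if i.1 = a then v a + v b else v i
  have hκ : Fintype.card κ < k := by
    have h := Fintype.card_subtype_lt (p := fun i : Fin k => i ≠ b) (x := b) (by simp)
    rw [Fintype.card_fin] at h
    exact h
  have h1 := hv.smaller' hκ w
  let f : Fin k → κ := fun i => if h : i = b then ⟨a, hab⟩ else ⟨i, h⟩
  have h2 := sum_inner_moment_le f w hA hd hu
  simp only [hv.moment_eq hA hd hu hmax] at h2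
  have hf : ∀ i, w (f i) = if i = a ∨ i = b then v a + v b else v i := by
    intro i
    by_cases hb : i = b
    · simp [f, w, hb]
    · by_cases ha : i = a <;> simp [f, w, hb, ha, hab]
  have h3 : ∑ i, ⟪w (f i), v i⟫ = sumSq v + 2 * ⟪v a, v b⟫ := by
    have e1 : ∀ i, ⟪w (f i), v i⟫ =
        ‖v i‖ ^ 2 + ((if i = a then ⟪v b, v a⟫ else 0) + if i = b then ⟪v a, v b⟫ else 0) := by
      intro i
      rw [hf]
      by_cases ha : i = a
      · subst ha; simp [hab, inner_add_left, real_inner_self_eq_norm_sq]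
      · by_cases hb : i = b
        · subst hb; simp [ha, inner_add_left, real_inner_self_eq_norm_sq]; ring
        · simp [ha, hb, real_inner_self_eq_norm_sq]
    simp only [e1, Finset.sum_add_distrib, Finset.sum_ite_eq', Finset.mem_univ, if_true, sumSq,
      real_inner_comm (v a) (v b)]
    ring
  have h4 : ∑ i, ‖w i‖ ^ 2 = sumSq v + 2 * ⟪v a, v b⟫ := by
    have e1 : ∑ i : κ, ‖w i‖ ^ 2 =
        ∑ i ∈ Finset.univ.erase b, ‖if i = a then v a + v b else v i‖ ^ 2 :=
      (Finset.sum_subtype (p := fun i : Fin k => i ≠ b) (Finset.univ.erase b) (fun i => by simp)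
        fun i : Fin k => ‖if i = a then v a + v b else v i‖ ^ 2).symm
    have e2 : sumSq v = ‖v b‖ ^ 2 + (‖v a‖ ^ 2 + ∑ i ∈ (Finset.univ.erase b).erase a, ‖v i‖ ^ 2) := by
      rw [Finset.add_sum_erase (a := a) _ (fun i => ‖v i‖ ^ 2) (by simp [hab]),
        Finset.add_sum_erase (a := b) _ (fun i => ‖v i‖ ^ 2) (Finset.mem_univ b), sumSq]
    rw [e1, ← Finset.add_sum_erase (a := a) _ _ (by simp [hab]), if_pos rfl,
      Finset.sum_congr rfl (fun i hi => by rw [if_neg (Finset.ne_of_mem_erase hi)]), e2,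
      norm_add_sq_real]
    ring
  simp only [J] at h1
  have := hv.c2_lt
  linarith

lemma Bad.inner_le_zero (hv : Bad v) {a b : Fin k} (hab : a ≠ b) : ⟪v a, v b⟫ ≤ 0 :=
  (hv.inner_neg hab).le

lemma Bad.inj (hv : Bad v) {a b : Fin k} (hab : a ≠ b) : v a ≠ v b := by
  intro h
  have := hv.inner_neg hab
  rw [h, real_inner_self_eq_norm_sq] at this
  nlinarith [norm_nonneg (v b)]

lemma Bad.ne_zero (hv : Bad v) (a : Fin k) : v a ≠ 0 := by
  intro h
  obtain ⟨b, hb⟩ : ∃ b, b ≠ a := by
    have := hv.four_le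
    exact Fintype.exists_ne_of_one_lt_card (by simp; omega) a
  have := hv.inner_neg hb
  rw [h, inner_zero_right] at this
  exact lt_irrefl _ this

lemma Bad.coeff_eq (hv : Bad v) {c : Fin k → ℝ} (hc : ∑ i, c i • v i = 0) (a b : Fin k) :
    c a = c b := by
  classical
  have h0 : ∑ i, ∑ j, c i * c j * ⟪v i, v j⟫ = 0 := by
    have : ⟪∑ i, c i • v i, ∑ j, c j • v j⟫ = (0 : ℝ) := by rw [hc, inner_zero_left]
    simp only [sum_inner, inner_sum, real_inner_smul_left, real_inner_smul_right] at this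
    rw [← this]
    exact Finset.sum_congr rfl fun i _ => Finset.sum_congr rfl fun j _ => by
      rw [real_inner_comm (v j) (v i)]; ring
  have hrow : ∀ i, ∑ j, ⟪v i, v j⟫ = 0 := fun i => by rw [← inner_sum, hv.sum_eq_zero, inner_zero_right]
  have hcol : ∀ j, ∑ i, ⟪v i, v j⟫ = 0 := fun j => by rw [← sum_inner, hv.sum_eq_zero, inner_zero_left]
  have h1 : ∑ i, ∑ j, (c i - c j) ^ 2 * -⟪v i, v j⟫ = 0 := by
    have e : ∀ i j, (c i - c j) ^ 2 * -⟪v i, v j⟫ =
        2 * (c i * c j * ⟪v i, v j⟫) - (c i ^ 2 * ⟪v i, v j⟫ + c j ^ 2 * ⟪v i, v j⟫) := by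
      intros; ring
    simp only [e, Finset.sum_sub_distrib, Finset.sum_add_distrib, ← Finset.mul_sum, h0, hrow]
    rw [Finset.sum_comm (f := fun i j => c j ^ 2 * ⟪v i, v j⟫)]
    simp only [← Finset.mul_sum, hcol, mul_zero, Finset.sum_const_zero]
    simp
  by_contra h
  have hnn : ∀ i j, 0 ≤ (c i - c j) ^ 2 * -⟪v i, v j⟫ := by
    intro i j
    by_cases hij : i = j
    · simp [hij]
    · have := hv.inner_le_zero hij; nlinarith [sq_nonneg (c i - c j)]
  have hab : a ≠ b := fun e => h (e ▸ rfl)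
  have h2 := Finset.single_le_sum (f := fun i => ∑ j, (c i - c j) ^ 2 * -⟪v i, v j⟫)
    (fun i _ => Finset.sum_nonneg fun j _ => hnn i j) (Finset.mem_univ a)
  have h3 := Finset.single_le_sum (f := fun j => (c a - c j) ^ 2 * -⟪v a, v j⟫)
    (fun j _ => hnn a j) (Finset.mem_univ b)
  have h4 : 0 < (c a - c b) ^ 2 * -⟪v a, v b⟫ :=
    mul_pos (by positivity [sub_ne_zero.2 h]) (neg_pos.2 (hv.inner_neg hab))
  linarith

/-- The dual vector of `v a`. -/
lemma Bad.exists_dual (hv : Bad v) (a : Fin k) :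
    ∃ u : Space n, ∀ j, ⟪u, v j⟫ = (if j = a then 1 else 0) - 1 / k := by
  classical
  let T : (Fin k → ℝ) →ₗ[ℝ] (Fin k → ℝ) :=
    { toFun := fun c j => ⟪∑ i, c i • v i, v j⟫ + ∑ i, c i
      map_add' := fun c d => by
        funext j
        simp only [Pi.add_apply, add_smul, Finset.sum_add_distrib, inner_add_left]
        ring
      map_smul' := fun r c => by
        funext j
        simp only [Pi.smul_apply, smul_eq_mul, RingHom.id_apply, mul_smul, ← Finset.smul_sum,
          real_inner_smul_left, ← Finset.mul_sum]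
        ring }
  have hk : (0 : ℝ) < k := by exact_mod_cast Nat.pos_of_ne_zero (NeZero.ne k)
  have hsum : ∀ c, ∑ j, T c j = k * ∑ i, c i := by
    intro c
    simp only [T, LinearMap.coe_mk, AddHom.coe_mk, Finset.sum_add_distrib, ← inner_sum,
      hv.sum_eq_zero, inner_zero_right, zero_add, Finset.sum_const, Finset.card_univ,
      Fintype.card_fin, nsmul_eq_mul]
  have hinj : Injective T := by
    rw [← LinearMap.ker_eq_bot, LinearMap.ker_eq_bot']
    intro c hc
    have h1 : ∑ i, c i = 0 := by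
      have := hsum c
      simp only [hc, Pi.zero_apply, Finset.sum_const_zero] at this
      nlinarith
    have h2 : ∀ j, ⟪∑ i, c i • v i, v j⟫ = 0 := by
      intro j
      have := congrFun hc j
      simpa [T, h1] using this
    have h3 : ∑ i, c i • v i = 0 := by
      rw [← inner_self_eq_zero (𝕜 := ℝ), inner_sum]
      exact Finset.sum_eq_zero fun j _ => by rw [real_inner_smul_right, h2 j, mul_zero]
    funext j
    have h4 : ∑ i, c i = k * c j := by
      rw [Finset.sum_congr rfl fun i _ => hv.coeff_eq h3 i j]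
      simp
    rw [h1] at h4
    rcases mul_eq_zero.1 h4.symm with h | h
    · linarith
    · exact h
  obtain ⟨c, hc⟩ := (LinearMap.injective_iff_surjective.1 hinj) fun j => (if j = a then 1 else 0) - 1 / k
  refine ⟨∑ i, c i • v i, fun j => ?_⟩
  have h0 : ∑ i, c i = 0 := by
    have := hsum c
    rw [hc] at this
    simp [Finset.sum_sub_distrib, hk.ne'] at this
    exact this
  have := congrFun hc j
  simpa [T, h0] using this

/-- Removing one vector, by induction: `(F - e)² ≤ c2 (F - γ σ²)`. -/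
lemma Bad.removal (hv : Bad v) (a : Fin k) [Nonempty {i : Fin k // i ≠ a}] {e : ℝ}
    (he : psi v ≤ psi (fun i : {i : Fin k // i ≠ a} => v i) + e)
    (he0 : e ≤ sumSq v) :
    (sumSq v - e) ^ 2 ≤ c2 * (sumSq v - k / (k - 1) * ‖v a‖ ^ 2) := by
  classical
  let κ := {i : Fin k // i ≠ a}
  have hk4 : (4 : ℝ) ≤ k := by exact_mod_cast hv.four_le
  have hκ : Fintype.card κ < k := by
    have h := Fintype.card_subtype_lt (p := fun i : Fin k => i ≠ a) (x := a) (by simp)
    rw [Fintype.card_fin] at h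
    exact h
  set m : Space n := (-1 / ((k : ℝ) - 1)) • v a with hm
  let w : κ → Space n := fun i => v i - m
  have hpsi : psi w = psi (fun i : κ => v i) := psi_sub (fun i : κ => v i) m
  have hS : ∑ i, ‖w i‖ ^ 2 = sumSq v - k / (k - 1) * ‖v a‖ ^ 2 := by
    have e1 : ∑ i : κ, ‖w i‖ ^ 2 = ∑ i ∈ Finset.univ.erase a, ‖v i - m‖ ^ 2 :=
      (Finset.sum_subtype (p := fun i : Fin k => i ≠ a) (Finset.univ.erase a) (fun i => by simp)
        fun i : Fin k => ‖v i - m‖ ^ 2).symm
    have e2 : ∑ i, ‖v i - m‖ ^ 2 = sumSq v + k * ‖m‖ ^ 2 := by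
      simp only [norm_sub_sq_real, Finset.sum_add_distrib, Finset.sum_sub_distrib, ← Finset.mul_sum,
        ← sum_inner, hv.sum_eq_zero, inner_zero_left, sumSq, Finset.sum_const, Finset.card_univ,
        Fintype.card_fin, nsmul_eq_mul]
      ring
    rw [e1, Finset.sum_erase_eq_sub (Finset.mem_univ a), e2]
    have e3 : v a - m = (1 + 1 / ((k : ℝ) - 1)) • v a := by rw [hm, add_smul, one_smul]; module
    rw [e3, hm, norm_smul, norm_smul, mul_pow, mul_pow, Real.norm_eq_abs, sq_abs, Real.norm_eq_abs,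
      sq_abs]
    have : (k : ℝ) - 1 ≠ 0 := by linarith
    field_simp
    ring
  set S := ∑ i, ‖w i‖ ^ 2 with hSdef
  set P := sumSq v - e with hP
  have hPle : P ≤ psi w := by rw [hpsi, hP, ← hv.psi_eq]; linarith
  -- scale the family
  have hscale : ∀ t : ℝ, 0 ≤ t → 2 * (t * psi w) - t ^ 2 * S ≤ c2 := by
    intro t ht
    have h := hv.smaller' hκ fun i => t • w i
    have hp : psi (fun i => t • w i) = t * psi w := by
      unfold psi
      rw [← integral_const_mul]
      congr 1
      funext x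
      obtain ⟨i, hi⟩ := exists_eq_maxOver fun i => ⟪w i, x⟫
      apply le_antisymm
      · refine maxOver_le fun j => ?_
        rw [real_inner_smul_left]
        exact mul_le_mul_of_nonneg_left (le_maxOver (fun i => ⟪w i, x⟫) j) ht
      · rw [← hi, ← real_inner_smul_left]
        exact le_maxOver (fun i => ⟪t • w i, x⟫) i
    simp only [J, hp, norm_smul, Real.norm_eq_abs, mul_pow, sq_abs, ← Finset.mul_sum] at h
    exact h
  have hc : 0 < c2 := by unfold c2; positivity
  have hS0 : 0 ≤ S := Finset.sum_nonneg fun i _ => sq_nonneg _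
  rw [← hS]
  rcases eq_or_lt_of_le (sub_nonneg.2 he0 : 0 ≤ P) with h0 | hpos
  · rw [show P = 0 from h0.symm]; nlinarith [mul_nonneg hc.le hS0]
  · have h := hscale (c2 / P) (by positivity)
    have h' : 2 * (c2 / P * P) - (c2 / P) ^ 2 * S ≤ c2 := by
      have : c2 / P * P ≤ c2 / P * psi w := mul_le_mul_of_nonneg_left hPle (by positivity)
      linarith
    field_simp at h'
    rw [div_le_iff₀ (by positivity)] at h'
    nlinarith

end Vale.Agent.P226
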