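import Vale.Agent.P226.CapThree

/-!
Cap lemma for four points.
-/

open MeasureTheory ProbabilityTheory Set
open scoped RealInnerProductSpace ENNReal

namespace Vale.Agent.P226

namespace CapLemma

/-- Argmax cell of index `b`, ties broken towards the smaller index. -/
def cell {n : ℕ} (u : Fin 4 → Space n) (b : Fin 4) : Set (Space n) :=
  {x | ∀ j, (j < b → ⟪u j, x⟫ < ⟪u b, x⟫) ∧ (b < j → ⟪u j, x⟫ ≤ ⟪u b, x⟫)}

lemma measurableSet_cell {n : ℕ} (u : Fin 4 → Space n) (b : Fin 4) : MeasurableSet (cell u b) := by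
  have h : cell u b = ⋂ j, ({x | j < b → ⟪u j, x⟫ < ⟪u b, x⟫} ∩ {x | b < j → ⟪u j, x⟫ ≤ ⟪u b, x⟫}) := by
    ext x; simp [cell]
  rw [h]
  refine MeasurableSet.iInter fun j => MeasurableSet.inter ?_ ?_
  · by_cases hj : j < b
    · simpa [hj] using measurableSet_lt (by fun_prop : Measurable fun x : Space n => ⟪u j, x⟫)
        (by fun_prop : Measurable fun x : Space n => ⟪u b, x⟫)
    · simp [hj]
  · by_cases hj : b < j
    · simpa [hj] using measurableSet_le (by fun_prop : Measurable fun x : Space n => ⟪u j, x⟫)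
        (by fun_prop : Measurable fun x : Space n => ⟪u b, x⟫)
    · simp [hj]

lemma exists_cell {n : ℕ} (u : Fin 4 → Space n) (x : Space n) : ∃ b, x ∈ cell u b := by
  obtain ⟨m, _, hm⟩ := Finset.exists_max_image (Finset.univ : Finset (Fin 4)) (fun j => ⟪u j, x⟫)
    Finset.univ_nonempty
  have hne : (Finset.univ.filter fun j => ⟪u j, x⟫ = ⟪u m, x⟫).Nonempty := ⟨m, by simp⟩
  obtain ⟨hb1, hb2⟩ := Finset.isLeast_min' _ hne
  set b := (Finset.univ.filter fun j => ⟪u j, x⟫ = ⟪u m, x⟫).min' hne
  have hb : ⟪u b, x⟫ = ⟪u m, x⟫ := by simpa using hb1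
  refine ⟨b, fun j => ⟨fun hj => lt_of_le_of_ne (hb ▸ hm j (Finset.mem_univ j)) fun h => ?_,
    fun _ => hb ▸ hm j (Finset.mem_univ j)⟩⟩
  exact absurd (hb2 (by simp [h, hb])) (not_le.2 hj)

lemma cell_unique {n : ℕ} {u : Fin 4 → Space n} {x : Space n} {b b' : Fin 4}
    (h : x ∈ cell u b) (h' : x ∈ cell u b') : b = b' := by
  rcases lt_trichotomy b b' with hl | he | hg
  · exact absurd ((h b').2 hl) (not_le.2 ((h' b).1 hl))
  · exact he
  · exact absurd ((h' b).2 hg) (not_le.2 ((h b').1 hg))

lemma cell_smul {n : ℕ} (u : Fin 4 → Space n) (b : Fin 4) (c : ℝ) (x : Space n) (hc : 0 < c) :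
    c • x ∈ cell u b ↔ x ∈ cell u b := by
  simp only [cell, Set.mem_ofPred_eq, real_inner_smul_right, mul_lt_mul_iff_right₀ hc, mul_le_mul_iff_right₀ hc]

lemma exists_finrank_eq {E : Type*} [AddCommGroup E] [Module ℝ E] [FiniteDimensional ℝ E]
    (W : Submodule ℝ E) {k : ℕ} (h1 : Module.finrank ℝ W ≤ k) (h2 : k ≤ Module.finrank ℝ E) :
    ∃ P : Submodule ℝ E, W ≤ P ∧ Module.finrank ℝ P = k := by
  induction k, h1 using Nat.le_induction with
  | base => exact ⟨W, le_rfl, rfl⟩
  | succ k _ ih =>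
    obtain ⟨P, hWP, hP⟩ := ih (by omega)
    have hne : P ≠ ⊤ := by
      rintro rfl
      rw [finrank_top] at hP
      omega
    obtain ⟨v, hv⟩ := SetLike.exists_not_mem_of_ne_top P hne
    refine ⟨P ⊔ Submodule.span ℝ {v}, hWP.trans le_sup_left, ?_⟩
    have hd : P ⊓ Submodule.span ℝ {v} = ⊥ := by
      rw [Submodule.eq_bot_iff]
      intro x hx
      obtain ⟨hxP, hxv⟩ := Submodule.mem_inf.1 hx
      obtain ⟨a, rfl⟩ := Submodule.mem_span_singleton.1 hxv
      rcases eq_or_ne a 0 with rfl | ha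
      · simp
      · exact absurd ((Submodule.smul_mem_iff _ ha).1 hxP) hv
    have hv0 : v ≠ 0 := fun h => hv (h ▸ P.zero_mem)
    have := Submodule.finrank_sup_add_finrank_inf_eq P (Submodule.span ℝ {v})
    rw [hd, finrank_bot, finrank_span_singleton hv0, hP] at this
    omega

/-- Coordinates along three vectors. -/
noncomputable def coord {n : ℕ} (B : Fin 3 → Space n) (x : Space n) : Space 3 :=
  WithLp.toLp 2 fun i => ⟪B i, x⟫

lemma coord_inner {n : ℕ} (B : Fin 3 → Space n) (x : Space n) (t : Space 3) :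
    ⟪coord B x, t⟫ = ⟪x, ∑ i, t i • B i⟫ := by
  rw [PiLp.inner_apply, inner_sum]
  refine Finset.sum_congr rfl fun i _ => ?_
  rw [real_inner_smul_right]
  simp only [coord, RCLike.inner_apply, RCLike.conj_to_real, real_inner_comm (B i) x]

lemma coord_measurePreserving {n : ℕ} {B : Fin 3 → Space n} (hB : Orthonormal ℝ B) :
    MeasurePreserving (coord B) (stdGaussian (Space n)) (stdGaussian (Space 3)) := by
  have hm : Measurable (coord B) := by unfold coord; fun_prop
  refine ⟨hm, Measure.ext_of_charFun (funext fun t => ?_)⟩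
  rw [charFun_apply, integral_map hm.aemeasurable (by fun_prop), charFun_stdGaussian]
  simp only [coord_inner]
  rw [← charFun_apply, charFun_stdGaussian]
  have h : ‖∑ i, t i • B i‖ ^ 2 = ‖t‖ ^ 2 := by
    rw [← real_inner_self_eq_norm_sq, hB.inner_sum, EuclideanSpace.real_norm_sq_eq]
    exact Finset.sum_congr rfl fun i _ => by rw [RCLike.conj_to_real]; ring
  rw [← Complex.ofReal_pow, ← Complex.ofReal_pow, h]

lemma cell_bound {n : ℕ} (hn : 3 ≤ n) (u : Fin 4 → Space n) (hu : ∑ b, u b = 0) (b : Fin 4) :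
    ∫ x in cell u b, ⟪u b, x⟫ ∂(stdGaussian (Space n)) ≤ ‖u b‖ * (Real.sqrt (8 / Real.pi)
      * ((stdGaussian (Space n)).real (cell u b) * (1 - (stdGaussian (Space n)).real (cell u b)))) := by
  by_cases hb : u b = 0
  · simp [hb]
  set W : Submodule ℝ (Space n) := Submodule.span ℝ (range u) with hW
  have hW3 : Module.finrank ℝ W ≤ 3 := by
    have hsub : W ≤ Submodule.span ℝ (range fun j : Fin 3 => u j.castSucc) := by
      rw [hW, Submodule.span_le]
      rintro _ ⟨j, rfl⟩
      refine Fin.lastCases ?_ ?_ j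
      · rw [Fin.sum_univ_castSucc] at hu
        rw [show u (Fin.last 3) = -∑ i : Fin 3, u i.castSucc from eq_neg_of_add_eq_zero_right hu]
        exact Submodule.neg_mem _ (Submodule.sum_mem _ fun i _ => Submodule.subset_span ⟨i, rfl⟩)
      · exact fun i => Submodule.subset_span ⟨i, rfl⟩
    refine (Submodule.finrank_mono hsub).trans ?_
    exact (finrank_range_le_card _).trans (by simp)
  obtain ⟨P, hWP, hP⟩ := exists_finrank_eq W hW3 (by simpa using hn)
  have hmem : ∀ j, u j ∈ P := fun j => hWP (Submodule.subset_span ⟨j, rfl⟩)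
  set e : P := ⟨‖u b‖⁻¹ • u b, P.smul_mem _ (hmem b)⟩ with he
  have hon : Orthonormal ℝ (({0} : Set (Fin 3)).domRestrict fun _ => e) := by
    constructor
    · intro i
      change ‖(e : Space n)‖ = 1
      simp [he, norm_smul, hb]
    · intro i j hij
      exact absurd (Subtype.ext (by rw [show (i : Fin 3) = 0 from i.2, show (j : Fin 3) = 0 from j.2])) hij
  obtain ⟨bb, hbb⟩ := hon.exists_orthonormalBasis_extension_of_card_eq (by simpa using hP)
  set B : Fin 3 → Space n := fun i => (bb i : Space n)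
  have hB : Orthonormal ℝ B := bb.orthonormal.comp_linearIsometry P.subtypeₗᵢ
  have hexp : ∀ j, ∑ i, (coord B (u j)) i • B i = u j := by
    intro j
    have := congrArg (fun z : P => (z : Space n)) (bb.sum_repr' ⟨u j, hmem j⟩)
    simpa [coord, B, Submodule.coe_sum] using this
  have hinner : ∀ j x, ⟪u j, x⟫ = ⟪coord B (u j), coord B x⟫ := by
    intro j x
    rw [real_inner_comm (coord B x) (coord B (u j)), coord_inner, hexp, real_inner_comm]
  have hpre : coord B ⁻¹' cell (fun j => coord B (u j)) b = cell u b := by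
    ext x; simp [cell, ← hinner]
  have h0 : ∀ x, ⟪u b, x⟫ = ‖u b‖ * (coord B x) 0 := by
    intro x
    have hB0 : B 0 = ‖u b‖⁻¹ • u b := by simp [B, hbb 0 rfl, he]
    simp [coord, hB0, real_inner_smul_left, hb]
  have hp := coord_measurePreserving hB
  have hD := measurableSet_cell (fun j => coord B (u j)) b
  have hint : ∫ x in cell u b, ⟪u b, x⟫ ∂(stdGaussian (Space n))
      = ‖u b‖ * ∫ y in cell (fun j => coord B (u j)) b, y 0 ∂(stdGaussian (Space 3)) := by
    simp only [h0, integral_const_mul, ← hpre]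
    congr 1
    rw [← hp.map_eq, setIntegral_map hD (by fun_prop) hp.measurable.aemeasurable]
  have hmeas : (stdGaussian (Space 3)).real (cell (fun j => coord B (u j)) b)
      = (stdGaussian (Space n)).real (cell u b) := by
    rw [← hpre, measureReal_def, measureReal_def, hp.measure_preimage hD.nullMeasurableSet]
  rw [hint, ← hmeas]
  exact mul_le_mul_of_nonneg_left (cap_three _ hD (cell_smul _ _)) (norm_nonneg _)

end CapLemma

open CapLemma in
/-- Four vectors with zero sum: `J` is bounded by the cap bounds of their argmax cells. -/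
theorem cap_four {n : ℕ} (hn : 3 ≤ n) (u : Fin 4 → Space n) (hu : ∑ b, u b = 0) :
    ∃ p : Fin 4 → ℝ, (∀ b, 0 ≤ p b) ∧ ∑ b, p b = 1 ∧
      (∀ b (s : Set (Space n)), MeasurableSet s → (∀ x ∈ s, ∀ j, j ≠ b → ⟪u j, x⟫ < ⟪u b, x⟫) →
        (stdGaussian (Space n)).real s ≤ p b) ∧
      J u ≤ ∑ b, capBound (p b) := by
  set γ := stdGaussian (Space n)
  have hpair : Pairwise (Function.onFun Disjoint (cell u)) := fun i j hij =>
    disjoint_left.2 fun x hi hj => hij (cell_unique hi hj)
  have hcover : (⋃ b, cell u b) = univ :=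
    eq_univ_of_forall fun x => mem_iUnion.2 (exists_cell u x)
  refine ⟨fun b => γ.real (cell u b), fun b => measureReal_nonneg, ?_, ?_, ?_⟩
  · rw [← measureReal_iUnion_fintype hpair (fun b => measurableSet_cell u b), hcover]
    simp
  · intro b s _ hs
    refine measureReal_mono fun x hx j => ⟨fun hj => hs x hx j hj.ne, fun hj => (hs x hx j hj.ne').le⟩
  · have hint : ∀ j, Integrable (fun x : Space n => ⟪u j, x⟫) γ := fun j =>
      (IsGaussian.integrable_id (μ := γ)).const_inner (u j)
    have hmax : ∀ b, ∀ x ∈ cell u b, maxOver (fun i => ⟪u i, x⟫) = ⟪u b, x⟫ := by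
      intro b x hx
      refine le_antisymm (Finset.sup'_le _ _ fun j _ => ?_)
        (Finset.le_sup' (fun i => ⟪u i, x⟫) (Finset.mem_univ b))
      rcases lt_trichotomy j b with hj | rfl | hj
      · exact ((hx j).1 hj).le
      · exact le_rfl
      · exact (hx j).2 hj
    have hi : ∀ b, IntegrableOn (fun x => maxOver (fun i => ⟪u i, x⟫)) (cell u b) γ := fun b =>
      ((hint b).integrableOn).congr_fun (fun x hx => (hmax b x hx).symm) (measurableSet_cell u b)
    have hpsi : psi u = ∑ b, ∫ x in cell u b, ⟪u b, x⟫ ∂γ := by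
      calc psi u = ∫ x in ⋃ b, cell u b, maxOver (fun i => ⟪u i, x⟫) ∂γ := by
            rw [hcover, setIntegral_univ]; rfl
        _ = _ := by
            rw [integral_iUnion_fintype (fun b => measurableSet_cell u b) hpair hi]
            exact Finset.sum_congr rfl fun b _ =>
              setIntegral_congr_fun (measurableSet_cell u b) (hmax b)
    rw [J, hpsi, Finset.mul_sum, ← Finset.sum_sub_distrib]
    refine Finset.sum_le_sum fun b _ => ?_
    have hb := cell_bound hn u hu b
    set q := γ.real (cell u b)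
    have hs : Real.sqrt (8 / Real.pi) ^ 2 = 8 / Real.pi := Real.sq_sqrt (by positivity)
    have : capBound q = (Real.sqrt (8 / Real.pi) * (q * (1 - q))) ^ 2 := by
      rw [capBound, mul_pow, hs]; ring
    rw [this]
    nlinarith [sq_nonneg (‖u b‖ - Real.sqrt (8 / Real.pi) * (q * (1 - q)))]

end Vale.Agent.P226
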