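import Vale.Agent.P226.Defs

/-!
Cap lemma in three dimensions: for a cone `D` of Gaussian measure `p`,
`∫_D x₀ ≤ √(8/π) p (1 - p)`.
-/

open MeasureTheory ProbabilityTheory Set
open scoped RealInnerProductSpace ENNReal

namespace Vale.Agent.P226

namespace CapLemma

/-- Assemble three coordinates. -/
noncomputable def mk3 (p : ℝ × ℝ × ℝ) : Space 3 := WithLp.toLp 2 ![p.1, p.2.1, p.2.2]

lemma mk3_pres (μ : Measure ℝ) [SigmaFinite μ] :
    MeasurePreserving (fun p : ℝ × ℝ × ℝ => ![p.1, p.2.1, p.2.2]) (μ.prod (μ.prod μ))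
      (Measure.pi fun _ : Fin 3 => μ) := by
  have h1 : MeasurePreserving (MeasurableEquiv.finTwoArrow (α := ℝ)).symm (μ.prod μ)
      (Measure.pi fun _ : Fin 2 => μ) := (measurePreserving_finTwoArrow μ).symm _
  have h2 := (measurePreserving_piFinSuccAbove (fun _ : Fin 3 => μ) 0).symm _
  have h := h2.comp ((MeasurePreserving.id μ).prod h1)
  convert h using 1
  funext p i
  fin_cases i <;> simp [MeasurableEquiv.piFinSuccAbove, MeasurableEquiv.finTwoArrow,
    MeasurableEquiv.piFinTwo]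

lemma mk3_gauss : MeasurePreserving mk3
    ((gaussianReal 0 1).prod ((gaussianReal 0 1).prod (gaussianReal 0 1))) (stdGaussian (Space 3)) := by
  have h : MeasurePreserving (WithLp.toLp 2) (Measure.pi fun _ : Fin 3 => gaussianReal 0 1)
      (stdGaussian (Space 3)) := ⟨by fun_prop, map_pi_eq_stdGaussian⟩
  exact h.comp (mk3_pres _)

lemma mk3_vol : MeasurePreserving mk3 (volume.prod (volume.prod volume)) (volume : Measure (Space 3)) :=
  (PiLp.volume_preserving_toLp (Fin 3)).comp (mk3_pres volume)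

lemma norm_mk3_sq (p : ℝ × ℝ × ℝ) : ‖mk3 p‖ ^ 2 = p.1 ^ 2 + (p.2.1 ^ 2 + p.2.2 ^ 2) := by
  rw [EuclideanSpace.real_norm_sq_eq, Fin.sum_univ_three]
  simp [mk3]
  ring

/-- Normalising constant in three dimensions. -/
noncomputable def cst : ℝ := ((Real.sqrt (2 * Real.pi))⁻¹) ^ 3

lemma cst_pos : 0 < cst := by unfold cst; positivity

lemma lintegral_gauss (F : Space 3 → ℝ≥0∞) (hF : Measurable F) :
    ∫⁻ x, F x ∂(stdGaussian (Space 3))
      = ∫⁻ x, ENNReal.ofReal (cst * Real.exp (-‖x‖ ^ 2 / 2)) * F x := by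
  rw [← mk3_gauss.lintegral_comp hF, ← mk3_vol.lintegral_comp (by fun_prop),
    gaussianReal_of_var_ne_zero 0 one_ne_zero, prod_withDensity (by fun_prop) (by fun_prop),
    prod_withDensity (by fun_prop) (by fun_prop),
    lintegral_withDensity_eq_lintegral_mul (g := fun a => F (mk3 a)) _ (by fun_prop)
      (hF.comp mk3_gauss.measurable)]
  refine lintegral_congr fun p => ?_
  simp only [Pi.mul_apply]
  congr 1
  simp only [gaussianPDF]
  rw [← ENNReal.ofReal_mul (gaussianPDFReal_nonneg _ _ _),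
    ← ENNReal.ofReal_mul (gaussianPDFReal_nonneg _ _ _)]
  congr 1
  simp only [gaussianPDFReal, NNReal.coe_one, mul_one, sub_zero, cst, norm_mk3_sq]
  rw [show -(p.1 ^ 2 + (p.2.1 ^ 2 + p.2.2 ^ 2)) / 2
    = -p.1 ^ 2 / 2 + (-p.2.1 ^ 2 / 2 + -p.2.2 ^ 2 / 2) by ring, Real.exp_add, Real.exp_add]
  ring

/-- The radial function weighted by the Gaussian density. -/
noncomputable def radial (g : ℝ → ℝ≥0∞) : ℝ≥0∞ :=
  ∫⁻ r : Ioi (0 : ℝ), ENNReal.ofReal (cst * Real.exp (-r.1 ^ 2 / 2)) * g r.1 ∂(Measure.volumeIoiPow 2)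

lemma cone_split (D : Set (Space 3)) (hD : MeasurableSet D)
    (hcone : ∀ (c : ℝ) x, 0 < c → (c • x ∈ D ↔ x ∈ D)) (g : ℝ → ℝ≥0∞) (hg : Measurable g) :
    ∫⁻ x in D, g ‖x‖ ∂(stdGaussian (Space 3))
      = (volume : Measure (Space 3)).toSphere {θ | (θ : Space 3) ∈ D} * radial g := by
  rw [← lintegral_indicator hD, lintegral_gauss _ (Measurable.indicator (by fun_prop) hD)]
  set G : Space 3 → ℝ≥0∞ := fun x =>
    ENNReal.ofReal (cst * Real.exp (-‖x‖ ^ 2 / 2)) * D.indicator (fun x => g ‖x‖) x with hG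
  have hGm : Measurable G := (by fun_prop : Measurable fun x : Space 3 =>
    ENNReal.ofReal (cst * Real.exp (-‖x‖ ^ 2 / 2))).mul (Measurable.indicator (by fun_prop) hD)
  have h0 : ∫⁻ x, G x = ∫⁻ x in ({0}ᶜ : Set (Space 3)), G x := by
    rw [restrict_compl_singleton]
  rw [h0, ← lintegral_subtype_comap (measurableSet_singleton _).compl]
  have hp := Measure.measurePreserving_homeomorphUnitSphereProd (volume : Measure (Space 3))
  have hfin : Module.finrank ℝ (Space 3) = 3 := by simp
  set S : Set (Metric.sphere (0 : Space 3) 1) := {θ | (θ : Space 3) ∈ D}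
  have hS : MeasurableSet S := measurable_subtype_coe hD
  let K : Metric.sphere (0 : Space 3) 1 → ℝ≥0∞ := S.indicator 1
  let H : Ioi (0 : ℝ) → ℝ≥0∞ := fun r => ENNReal.ofReal (cst * Real.exp (-r.1 ^ 2 / 2)) * g r.1
  have hK : Measurable K := measurable_one.indicator hS
  have hH : Measurable H := by fun_prop
  have key : ∀ x : ({0}ᶜ : Set (Space 3)), G x
      = (fun q : Metric.sphere (0 : Space 3) 1 × Ioi (0 : ℝ) => K q.1 * H q.2)
        (homeomorphUnitSphereProd (Space 3) x) := by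
    intro x
    have hx : (x : Space 3) ≠ 0 := x.2
    have hc : (‖(x : Space 3)‖⁻¹ • (x : Space 3) ∈ D) ↔ (x : Space 3) ∈ D :=
      hcone _ _ (inv_pos.2 (norm_pos_iff.2 hx))
    by_cases h : (x : Space 3) ∈ D
    · simp [G, K, H, S, h, hc.2 h, homeomorphUnitSphereProd_apply_fst_coe,
        homeomorphUnitSphereProd_apply_snd_coe]
    · have : ¬ (‖(x : Space 3)‖⁻¹ • (x : Space 3) ∈ D) := fun h' => h (hc.1 h')
      simp [G, K, S, h, this, homeomorphUnitSphereProd_apply_fst_coe]
  calc _ = ∫⁻ q, K q.1 * H q.2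
        ∂((volume : Measure (Space 3)).toSphere.prod (Measure.volumeIoiPow (Module.finrank ℝ (Space 3) - 1))) := by
        rw [← hp.lintegral_comp (by fun_prop)]
        exact lintegral_congr key
    _ = (∫⁻ θ, K θ ∂(volume : Measure (Space 3)).toSphere) * ∫⁻ r, H r ∂(Measure.volumeIoiPow 2) := by
        rw [hfin]
        exact lintegral_prod_mul hK.aemeasurable hH.aemeasurable
    _ = _ := by rw [lintegral_indicator_one hS]; rfl

/-- Over a cone, `‖x‖` is independent of the cone. -/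
lemma cone_norm (D : Set (Space 3)) (hD : MeasurableSet D)
    (hcone : ∀ (c : ℝ) x, 0 < c → (c • x ∈ D ↔ x ∈ D)) :
    ∫⁻ x in D, ENNReal.ofReal ‖x‖ ∂(stdGaussian (Space 3))
      = stdGaussian (Space 3) D * ∫⁻ x, ENNReal.ofReal ‖x‖ ∂(stdGaussian (Space 3)) := by
  set T := (volume : Measure (Space 3)).toSphere
  have a := cone_split D hD hcone (fun r => ENNReal.ofReal r) (by fun_prop)
  have b := cone_split D hD hcone (fun _ => 1) measurable_const
  have c := cone_split univ MeasurableSet.univ (by simp) (fun r => ENNReal.ofReal r) (by fun_prop)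
  have d := cone_split univ MeasurableSet.univ (by simp) (fun _ => 1) measurable_const
  simp only [setLIntegral_univ, Measure.restrict_apply_univ, lintegral_one, measure_univ, mem_univ,
    Set.ofPred_true] at b c d
  rw [a, b, c]
  calc _ = T {θ | (θ : Space 3) ∈ D} * radial (fun r => ENNReal.ofReal r) * (T univ * radial fun _ => 1) := by
        rw [← d, mul_one]
    _ = _ := by ring

lemma lintegral_radius (x : ℝ) (g : ℝ → ℝ≥0∞) :
    ∫⁻ r in Ioi (0 : ℝ), ENNReal.ofReal r * g (Real.sqrt (x ^ 2 + r ^ 2))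
      = ∫⁻ R in Ioi |x|, ENNReal.ofReal R * g R := by
  have himg : (fun r => Real.sqrt (x ^ 2 + r ^ 2)) '' Ioi (0 : ℝ) = Ioi |x| := by
    ext R
    simp only [mem_image, mem_Ioi]
    constructor
    · rintro ⟨r, hr, rfl⟩
      rw [← Real.sqrt_sq_eq_abs]
      exact Real.sqrt_lt_sqrt (sq_nonneg x) (by nlinarith)
    · intro hR
      have h0 : 0 < R ^ 2 - x ^ 2 := by nlinarith [sq_abs x, abs_nonneg x]
      refine ⟨Real.sqrt (R ^ 2 - x ^ 2), Real.sqrt_pos.2 h0, ?_⟩
      rw [Real.sq_sqrt h0.le, show x ^ 2 + (R ^ 2 - x ^ 2) = R ^ 2 by ring,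
        Real.sqrt_sq ((abs_nonneg x).trans hR.le)]
  have hd : ∀ r ∈ Ioi (0 : ℝ), HasDerivWithinAt (fun r => Real.sqrt (x ^ 2 + r ^ 2))
      (r / Real.sqrt (x ^ 2 + r ^ 2)) (Ioi 0) r := by
    intro r hr
    have hpos : 0 < x ^ 2 + r ^ 2 := by nlinarith [mem_Ioi.1 hr]
    have := (((hasDerivAt_pow 2 r).const_add (x ^ 2)).sqrt hpos.ne').hasDerivWithinAt (s := Ioi 0)
    refine this.congr_deriv ?_
    push_cast
    field_simp
  have hm : MonotoneOn (fun r => Real.sqrt (x ^ 2 + r ^ 2)) (Ioi (0 : ℝ)) := by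
    intro a ha b _ hab
    exact Real.sqrt_le_sqrt (by nlinarith [mem_Ioi.1 ha])
  rw [← himg, lintegral_image_eq_lintegral_deriv_mul_of_monotoneOn measurableSet_Ioi hd hm]
  refine setLIntegral_congr_fun measurableSet_Ioi fun r hr => ?_
  have hr' : (0 : ℝ) < r := hr
  have hpos : 0 < Real.sqrt (x ^ 2 + r ^ 2) := Real.sqrt_pos.2 (by nlinarith)
  rw [← mul_assoc, ← ENNReal.ofReal_mul (by positivity), div_mul_cancel₀ _ hpos.ne']

lemma inner_integral {R τ : ℝ} (hR : 0 < R) (h1 : -1 ≤ τ) (h2 : τ ≤ 1) :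
    ∫⁻ x in Ioo (-R) R, ENNReal.ofReal (x - τ * R) = ENNReal.ofReal (R ^ 2 * (1 - τ) ^ 2 / 2) := by
  have e : ∫⁻ x in Ioo (-R) R, ENNReal.ofReal (x - τ * R)
      = ∫⁻ x in Ioc (τ * R) R, ENNReal.ofReal (x - τ * R) := by
    rw [← lintegral_indicator measurableSet_Ioo, ← lintegral_indicator measurableSet_Ioc]
    refine lintegral_congr_ae ?_
    filter_upwards [(Measure.ae_ne volume R : ∀ᵐ x : ℝ, x ≠ R)] with x hx
    have hl : -R ≤ τ * R := by nlinarith
    by_cases hτ : τ * R < x
    · by_cases hxr : x < R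
      · rw [indicator_of_mem (s := Ioo (-R) R) ⟨by linarith, hxr⟩,
          indicator_of_mem (s := Ioc (τ * R) R) ⟨hτ, hxr.le⟩]
      · rw [indicator_of_notMem (s := Ioo (-R) R) (fun h => hxr h.2),
          indicator_of_notMem (s := Ioc (τ * R) R)
            (fun h => hxr (lt_of_le_of_ne h.2 hx))]
    · rw [indicator_of_notMem (s := Ioc (τ * R) R) (fun h => hτ h.1)]
      by_cases hm : x ∈ Ioo (-R) R
      · rw [indicator_of_mem hm, ENNReal.ofReal_of_nonpos (by linarith)]
      · rw [indicator_of_notMem hm]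
  have hle : τ * R ≤ R := by nlinarith
  rw [e, ← ofReal_integral_eq_lintegral_ofReal]
  · rw [← intervalIntegral.integral_of_le hle, intervalIntegral.integral_comp_sub_right (fun x => x),
      integral_id]
    congr 1; ring
  · exact (intervalIntegrable_iff_integrableOn_Ioc_of_le hle).1
      (Continuous.intervalIntegrable (by fun_prop) _ _)
  · filter_upwards [ae_restrict_mem measurableSet_Ioc] with x hx
    simp only [Pi.zero_apply]
    linarith [hx.1]

lemma lintegral_r3_exp :
    ∫⁻ R in Ioi (0 : ℝ), ENNReal.ofReal (R ^ 3 * Real.exp (-R ^ 2 / 2)) = ENNReal.ofReal 2 := by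
  have hd : ∀ R ∈ Ici (0 : ℝ), HasDerivAt (fun R => -((R ^ 2 + 2) * Real.exp (-R ^ 2 / 2)))
      (R ^ 3 * Real.exp (-R ^ 2 / 2)) R := by
    intro R _
    have h1 : HasDerivAt (fun R : ℝ => -R ^ 2 / 2) (-R) R := by
      have := ((hasDerivAt_pow 2 R).neg).div_const 2
      convert this using 1
      all_goals first | rfl | (push_cast; ring)
    have h2 := (((hasDerivAt_pow 2 R).add_const (2 : ℝ)).mul h1.exp).neg
    convert h2 using 1
    all_goals first | rfl | (push_cast; ring)
  have hnn : ∀ R ∈ Ioi (0 : ℝ), (0 : ℝ) ≤ R ^ 3 * Real.exp (-R ^ 2 / 2) :=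
    fun R hR => mul_nonneg (pow_nonneg (le_of_lt hR) 3) (Real.exp_nonneg _)
  have hu : Filter.Tendsto (fun R : ℝ => R ^ 2 / 2) Filter.atTop Filter.atTop :=
    (Filter.tendsto_pow_atTop two_ne_zero).atTop_div_const two_pos
  have ht : Filter.Tendsto (fun R => -((R ^ 2 + 2) * Real.exp (-R ^ 2 / 2))) Filter.atTop (nhds 0) := by
    have a := (Real.tendsto_pow_mul_exp_neg_atTop_nhds_zero 1).comp hu
    have b := (Real.tendsto_pow_mul_exp_neg_atTop_nhds_zero 0).comp hu
    have c := ((a.const_mul 2).add (b.const_mul 2)).neg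
    simp only [mul_zero, add_zero, neg_zero] at c
    refine c.congr fun R => ?_
    simp only [Function.comp_apply, pow_one, pow_zero, one_mul, neg_div]
    ring
  have hint := integrableOn_Ioi_deriv_of_nonneg' hd hnn ht
  have hval := integral_Ioi_of_hasDerivAt_of_nonneg' hd hnn ht
  rw [← ofReal_integral_eq_lintegral_ofReal hint ((ae_restrict_iff' measurableSet_Ioi).2
    (Filter.Eventually.of_forall hnn)), hval]
  congr 1
  norm_num

lemma lintegral_cap {τ : ℝ} (h1 : -1 ≤ τ) (h2 : τ ≤ 1) :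
    ∫⁻ y, ENNReal.ofReal (y 0 - τ * ‖y‖) ∂(stdGaussian (Space 3))
      = ENNReal.ofReal ((1 - τ) ^ 2 / Real.sqrt (2 * Real.pi)) := by
  set F : ℝ → ℝ → ℝ≥0∞ := fun x R =>
    ENNReal.ofReal (cst * Real.exp (-R ^ 2 / 2)) * ENNReal.ofReal (x - τ * R) with hF
  have hmeas : Measurable fun y : Space 3 => ENNReal.ofReal (y 0 - τ * ‖y‖) := by fun_prop
  rw [lintegral_gauss _ hmeas, ← mk3_vol.lintegral_comp (by fun_prop)]
  have e : ∀ p : ℝ × ℝ × ℝ, ENNReal.ofReal (cst * Real.exp (-‖mk3 p‖ ^ 2 / 2))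
        * ENNReal.ofReal ((mk3 p) 0 - τ * ‖mk3 p‖)
      = F p.1 (Real.sqrt (p.1 ^ 2 + (p.2.1 ^ 2 + p.2.2 ^ 2))) := by
    intro p
    rw [← norm_mk3_sq, Real.sqrt_sq (norm_nonneg _)]
    rfl
  simp only [e]
  have hFm : Measurable fun q : ℝ × ℝ => F q.1 q.2 := by fun_prop
  rw [lintegral_prod _ (by fun_prop)]
  -- integrate out the two orthogonal coordinates
  have step : ∀ x : ℝ, ∫⁻ q : ℝ × ℝ, F x (Real.sqrt (x ^ 2 + (q.1 ^ 2 + q.2 ^ 2)))
      ∂(volume.prod volume)
      = ENNReal.ofReal (2 * Real.pi) * ∫⁻ R in Ioi |x|, ENNReal.ofReal R * F x R := by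
    intro x
    rw [← Measure.volume_eq_prod, ← lintegral_comp_polarCoord_symm, polarCoord_target]
    have e2 : ∀ p : ℝ × ℝ, x ^ 2 + ((polarCoord.symm p).1 ^ 2 + (polarCoord.symm p).2 ^ 2)
        = x ^ 2 + p.1 ^ 2 := by
      intro p
      simp only [polarCoord_symm_apply]
      linear_combination p.1 ^ 2 * Real.cos_sq_add_sin_sq p.2
    simp only [e2, smul_eq_mul]
    rw [Measure.volume_eq_prod, ← Measure.prod_restrict, lintegral_prod _ (by fun_prop)]
    simp only [lintegral_const, Measure.restrict_apply_univ, Real.volume_Ioo]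
    rw [lintegral_mul_const _ (by fun_prop), lintegral_radius x (F x), mul_comm]
    congr 2; ring
  simp only [step]
  have hG : Measurable fun q : ℝ × ℝ => (Ioi |q.1|).indicator (fun R => ENNReal.ofReal R * F q.1 R) q.2 := by
    have : (fun q : ℝ × ℝ => (Ioi |q.1|).indicator (fun R => ENNReal.ofReal R * F q.1 R) q.2)
        = {q : ℝ × ℝ | |q.1| < q.2}.indicator (fun q => ENNReal.ofReal q.2 * F q.1 q.2) := by
      funext q; simp [indicator_apply]
    rw [this]
    exact Measurable.indicator (by fun_prop) (measurableSet_lt (by fun_prop) (by fun_prop))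
  simp only [← lintegral_indicator measurableSet_Ioi]
  rw [lintegral_const_mul _ hG.lintegral_prod_right', lintegral_lintegral_swap hG.aemeasurable]
  have inner : ∀ R : ℝ, ∫⁻ x, (Ioi |x|).indicator (fun R => ENNReal.ofReal R * F x R) R
      = (Ioi (0 : ℝ)).indicator (fun R => ENNReal.ofReal (cst * (1 - τ) ^ 2 / 2)
          * ENNReal.ofReal (R ^ 3 * Real.exp (-R ^ 2 / 2))) R := by
    intro R
    by_cases hR : 0 < R
    · rw [indicator_of_mem (s := Ioi (0 : ℝ)) hR]
      have e3 : ∀ x, (Ioi |x|).indicator (fun R => ENNReal.ofReal R * F x R) R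
          = (Ioo (-R) R).indicator (fun x => ENNReal.ofReal R * ENNReal.ofReal (cst * Real.exp (-R ^ 2 / 2))
              * ENNReal.ofReal (x - τ * R)) x := by
        intro x
        simp only [indicator_apply, mem_Ioi, abs_lt, mem_Ioo, hF, mul_assoc]
      simp only [e3]
      rw [lintegral_indicator measurableSet_Ioo, lintegral_const_mul _ (by fun_prop),
        inner_integral hR h1 h2, ← ENNReal.ofReal_mul hR.le, ← ENNReal.ofReal_mul
          (by have := cst_pos; positivity), ← ENNReal.ofReal_mul (by have := cst_pos; positivity)]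
      congr 1; ring
    · rw [indicator_of_notMem (s := Ioi (0 : ℝ)) hR]
      have : ∀ x, (Ioi |x|).indicator (fun R => ENNReal.ofReal R * F x R) R = 0 := fun x =>
        indicator_of_notMem (fun h => hR ((abs_nonneg x).trans_lt h)) _
      simp [this]
  simp only [inner]
  rw [lintegral_indicator measurableSet_Ioi, lintegral_const_mul _ (by fun_prop), lintegral_r3_exp,
    ← ENNReal.ofReal_mul (by have := cst_pos; positivity), ← ENNReal.ofReal_mul (by positivity)]
  congr 1
  simp only [cst]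
  have hs : Real.sqrt (2 * Real.pi) ≠ 0 := by positivity
  have hs2 : Real.sqrt (2 * Real.pi) ^ 2 = 2 * Real.pi := Real.sq_sqrt (by positivity)
  field_simp
  rw [hs2]

lemma lintegral_norm : ∫⁻ y, ENNReal.ofReal ‖y‖ ∂(stdGaussian (Space 3))
    = ENNReal.ofReal (Real.sqrt (8 / Real.pi)) := by
  have hi : Integrable (fun y : Space 3 => y 0) (stdGaussian (Space 3)) :=
    (IsGaussian.integrable_id (μ := stdGaussian (Space 3))).norm.mono' (by fun_prop)
      (Filter.Eventually.of_forall fun y => by simpa using PiLp.norm_apply_le y (0 : Fin 3))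
  have hn : Integrable (fun y : Space 3 => ‖y‖) (stdGaussian (Space 3)) :=
    IsGaussian.integrable_id.norm
  have hs : ∀ y : Space 3, -‖y‖ ≤ y 0 := fun y => by
    have := (abs_le.1 ((Real.norm_eq_abs _).symm.le.trans (PiLp.norm_apply_le y 0))).1
    linarith
  have h := lintegral_cap (τ := -1) le_rfl (by norm_num)
  have hi' : Integrable (fun y : Space 3 => y 0 - -1 * ‖y‖) (stdGaussian (Space 3)) := by
    refine (hi.add hn).congr (Filter.Eventually.of_forall fun y => ?_)
    simp only [Pi.add_apply]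
    ring
  rw [← ofReal_integral_eq_lintegral_ofReal hi'
    (Filter.Eventually.of_forall fun y => by simp only [Pi.zero_apply]; linarith [hs y])] at h
  rw [← ofReal_integral_eq_lintegral_ofReal hn (Filter.Eventually.of_forall fun y => norm_nonneg y)]
  have h0 : ∫ y, y 0 ∂(stdGaussian (Space 3)) = 0 :=
    integral_strongDual_stdGaussian (EuclideanSpace.proj (0 : Fin 3))
  have e : ∫ y, (y 0 - -1 * ‖y‖) ∂(stdGaussian (Space 3)) = ∫ y, ‖y‖ ∂(stdGaussian (Space 3)) := by
    simp only [neg_mul, one_mul, sub_neg_eq_add]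
    rw [integral_add hi hn, h0, zero_add]
  rw [e] at h
  rw [h]
  congr 1
  rw [show (1 : ℝ) - -1 = 2 by norm_num, eq_comm, Real.sqrt_eq_iff_eq_sq (by positivity) (by positivity),
    div_pow, Real.sq_sqrt (by positivity)]
  field_simp
  ring

/-- The cap bound on a cone. -/
theorem cap_three (D : Set (Space 3)) (hD : MeasurableSet D)
    (hcone : ∀ (c : ℝ) x, 0 < c → (c • x ∈ D ↔ x ∈ D)) :
    ∫ y in D, y 0 ∂(stdGaussian (Space 3)) ≤ Real.sqrt (8 / Real.pi)
      * ((stdGaussian (Space 3)).real D * (1 - (stdGaussian (Space 3)).real D)) := by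
  set γ := stdGaussian (Space 3)
  set p := γ.real D
  have hp0 : 0 ≤ p := measureReal_nonneg
  have hp1 : p ≤ 1 := measureReal_le_one
  set τ := 1 - 2 * p with hτ
  have hi : Integrable (fun y : Space 3 => y 0) γ :=
    (IsGaussian.integrable_id (μ := stdGaussian (Space 3))).norm.mono' (by fun_prop)
      (Filter.Eventually.of_forall fun y => by simpa using PiLp.norm_apply_le y (0 : Fin 3))
  have hn : Integrable (fun y : Space 3 => ‖y‖) γ := IsGaussian.integrable_id.norm
  have hg : Integrable (fun y : Space 3 => max (y 0 - τ * ‖y‖) 0) γ := (hi.sub (hn.const_mul τ)).pos_part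
  have hnorm : ∫ y in D, ‖y‖ ∂γ = p * Real.sqrt (8 / Real.pi) := by
    rw [integral_eq_lintegral_of_nonneg_ae (Filter.Eventually.of_forall fun y => norm_nonneg y)
      hn.aestronglyMeasurable.restrict, cone_norm D hD hcone, lintegral_norm, ENNReal.toReal_mul,
      ENNReal.toReal_ofReal (Real.sqrt_nonneg _)]
    rfl
  have hcap : ∫ y, max (y 0 - τ * ‖y‖) 0 ∂γ = (1 - τ) ^ 2 / Real.sqrt (2 * Real.pi) := by
    rw [integral_eq_lintegral_of_nonneg_ae (f := fun y : Space 3 => max (y 0 - τ * ‖y‖) 0)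
      (Filter.Eventually.of_forall fun y => by simp only [Pi.zero_apply]; exact le_max_right _ _)
      hg.aestronglyMeasurable]
    have e : ∀ y : Space 3, ENNReal.ofReal (max (y 0 - τ * ‖y‖) 0) = ENNReal.ofReal (y 0 - τ * ‖y‖) := by
      intro y
      rcases le_total (y 0 - τ * ‖y‖) 0 with h | h
      · rw [max_eq_right h, ENNReal.ofReal_of_nonpos h, ENNReal.ofReal_zero]
      · rw [max_eq_left h]
    simp only [e]
    rw [lintegral_cap (by linarith) (by linarith), ENNReal.toReal_ofReal (by positivity)]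
  calc ∫ y in D, y 0 ∂γ ≤ ∫ y in D, (max (y 0 - τ * ‖y‖) 0 + τ * ‖y‖) ∂γ :=
        setIntegral_mono_on hi.integrableOn (hg.add (hn.const_mul τ)).integrableOn hD
          fun y _ => by linarith [le_max_left (y 0 - τ * ‖y‖) 0]
    _ = ∫ y in D, max (y 0 - τ * ‖y‖) 0 ∂γ + τ * ∫ y in D, ‖y‖ ∂γ := by
        rw [integral_add hg.integrableOn (hn.const_mul τ).integrableOn, integral_const_mul]
    _ ≤ ∫ y, max (y 0 - τ * ‖y‖) 0 ∂γ + τ * ∫ y in D, ‖y‖ ∂γ := by
        have := setIntegral_le_integral (s := D) hg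
          (Filter.Eventually.of_forall fun y => by simp only [Pi.zero_apply]; exact le_max_right _ _)
        linarith
    _ = _ := by
        rw [hcap, hnorm, hτ]
        have hs : Real.sqrt (2 * Real.pi) * Real.sqrt (8 / Real.pi) = 4 := by
          rw [← Real.sqrt_mul (by positivity), show 2 * Real.pi * (8 / Real.pi) = (4 : ℝ) ^ 2 by
            field_simp; ring, Real.sqrt_sq (by norm_num)]
        have hne : Real.sqrt (2 * Real.pi) ≠ 0 := by positivity
        field_simp
        linear_combination -p ^ 2 * hs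

end CapLemma

end Vale.Agent.P226
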