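import Vale.Agent.P226.EhrhardHeat

/-!
The functional Ehrhard inequality for Lipschitz functions: a maximum principle for the heat
flow in one dimension, then induction on the dimension.
-/

open MeasureTheory ProbabilityTheory Filter Set
open scoped Topology NNReal

namespace Vale.Agent.P226.Ehr

lemma continuous_of_abs_sub_le {f : ℝ → ℝ} {L : ℝ} (hL : 0 ≤ L)
    (hfL : ∀ a b, |f a - f b| ≤ L * |a - b|) : Continuous f :=
  (LipschitzWith.of_dist_le_mul (K := L.toNNReal) fun a b => by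
    simpa [Real.dist_eq, Real.coe_toNNReal L hL] using hfL a b).continuous

/-- Second derivative test, necessary condition. -/
lemma second_deriv_nonneg {h h' : ℝ → ℝ} {c : ℝ} (hd : ∀ t, HasDerivAt h (h' t) t)
    (hd' : HasDerivAt h' c 0) (h0 : h' 0 = 0) (hmin : ∀ t, h 0 ≤ h t) : 0 ≤ c := by
  by_contra hc
  have hc' : c < 0 := not_le.1 hc
  have ht := (hasDerivAt_iff_tendsto_slope.1 hd').eventually (eventually_lt_nhds hc')
  have ht' : ∀ᶠ t in 𝓝[>] (0 : ℝ), slope h' 0 t < 0 :=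
    ht.filter_mono (nhdsWithin_mono _ fun t ht => ne_of_gt ht)
  obtain ⟨δ, hδ, hsub⟩ := mem_nhdsGT_iff_exists_Ioc_subset.1 ht'
  have hneg : ∀ t ∈ Ioc (0 : ℝ) δ, h' t < 0 := by
    intro t htI
    have h1 : slope h' 0 t < 0 := hsub htI
    rw [slope_def_field, h0, sub_zero, sub_zero] at h1
    by_contra h2
    exact h1.not_ge (div_nonneg (not_lt.1 h2) htI.1.le)
  have hanti : StrictAntiOn h (Icc 0 δ) := by
    refine strictAntiOn_of_hasDerivWithinAt_neg (convex_Icc 0 δ)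
      (continuousOn_of_forall_continuousAt fun t _ => (hd t).continuousAt)
      (fun t _ => (hd t).hasDerivWithinAt) ?_
    intro t ht
    rw [interior_Icc] at ht
    exact hneg t ⟨ht.1, ht.2.le⟩
  have h3 := hanti (left_mem_Icc.2 hδ.le) (right_mem_Icc.2 hδ.le) hδ
  exact absurd (hmin δ) (not_le.2 h3)

/-- The derivative at a right endpoint minimum is nonpositive. -/
lemma deriv_nonpos_of_min_left {h : ℝ → ℝ} {d s : ℝ} (hs : 0 < s) (hd : HasDerivAt h d s)
    (hmin : ∀ r ∈ Icc 0 s, h s ≤ h r) : d ≤ 0 := by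
  have ht : Tendsto (slope h s) (𝓝[<] s) (𝓝 d) :=
    (hasDerivAt_iff_tendsto_slope.1 hd).mono_left (nhdsWithin_mono _ fun t ht => ne_of_lt ht)
  refine le_of_tendsto ht ?_
  filter_upwards [Ioo_mem_nhdsLT hs] with r hr
  rw [slope_def_field]
  exact div_nonpos_of_nonneg_of_nonpos (by linarith [hmin r ⟨hr.1.le, hr.2.le⟩])
    (by linarith [hr.2])

section oneDim

lemma final_arith {X Y Z v v0 v1 g g0 g1 e M A Q a b lam mu P0 P1 : ℝ} (he : 0 < e)
    (k0 : lam * v0 * g0 ^ 2 = lam * v0 * g ^ 2 + P0)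
    (k1 : mu * v1 * g1 ^ 2 = mu * v1 * g ^ 2 + P1)
    (b0 : -(4 * M * e * (1 + a ^ 2)) ≤ P0) (b1 : -(4 * M * e * (1 + b ^ 2)) ≤ P1)
    (hC2 : (v - lam * v0 - mu * v1) * g ^ 2 ≤ 0)
    (hdd : 0 ≤ X - lam * Y - mu * Z + e * 4)
    (hds : (X - v * g ^ 2) / 2 - lam * ((Y - v0 * g0 ^ 2) / 2) - mu * ((Z - v1 * g1 ^ 2) / 2)
      + e * A * Q ≤ 0)
    (hT : 3 * e + 4 * M * e * (2 + a ^ 2 + b ^ 2) / 2 ≤ e * A * Q) : False := by
  linarith

variable {f0 f1 f : ℝ → ℝ} {L lam : ℝ}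

lemma err_bound {L K e v p g x : ℝ} (hL : 0 ≤ L) (hK : 0 ≤ K) (he : 0 < e)
    (hv : |v| ≤ K + L * |x|) (hp : |p| ≤ L) (hg : |g| ≤ L) :
    -(4 * (L * (K + L)) * e * (1 + x ^ 2)) ≤ v * (2 * e * x) * (p + g) := by
  have h2 : |v * (2 * e * x) * (p + g)| ≤ (K + L * |x|) * (2 * e * |x|) * (2 * L) := by
    rw [abs_mul, abs_mul, abs_mul, abs_mul, abs_two, abs_of_pos he]
    have h2L : |p + g| ≤ 2 * L := (abs_add_le _ _).trans (by linarith)
    gcongr
  have h3 : (K + L * |x|) * |x| ≤ (K + L) * (1 + x ^ 2) := by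
    nlinarith [sq_nonneg (|x| - 1), sq_abs x, abs_nonneg x]
  have h4 := mul_le_mul_of_nonneg_left h3 (by positivity : 0 ≤ 4 * L * e)
  linarith [neg_abs_le (v * (2 * e * x) * (p + g))]

lemma barrier_bound {L K e A a b : ℝ} (hL : 0 ≤ L) (hK : 0 ≤ K) (he : 0 < e)
    (hA : A = 3 + 4 * L * (K + L)) :
    3 * e + 4 * (L * (K + L)) * e * (2 + a ^ 2 + b ^ 2) / 2 ≤ e * A * (1 + a ^ 2 + b ^ 2) := by
  have h5 : 0 ≤ L * (K + L) * e := by positivity
  have h6 : 0 ≤ e * (a ^ 2 + b ^ 2) := by positivity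
  have h7 : 0 ≤ L * (K + L) * e * (a ^ 2 + b ^ 2) := by positivity
  rw [hA]
  linarith

lemma neg_part {C e Q : ℝ} (he : 0 < e) (hQ : 0 < Q) (h : C + e * Q < 0) (g : ℝ) :
    C * g ^ 2 ≤ 0 :=
  mul_nonpos_of_nonpos_of_nonneg (by linarith [mul_pos he hQ]) (sq_nonneg g)

lemma outside_arith {η K L m lam E a b w w0 w1 y : ℝ} (hη : 0 < η) (hK : 0 ≤ K) (hL : 0 ≤ L)
    (hE : η ≤ E) (hm : 1 ≤ m) (hm' : 3 * K + 4 * L + 1 ≤ η * m) (hl0 : 0 < lam) (hl1 : lam < 1)
    (ha : |a| ≤ m) (hb : |b| ≤ m) (hq : m ^ 2 ≤ a ^ 2 + b ^ 2) (hy : |y| ≤ m)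
    (hw : |w| ≤ K + L * |y|) (hw0 : |w0| ≤ K + L * |a|) (hw1 : |w1| ≤ K + L * |b|) :
    0 < w - lam * w0 - (1 - lam) * w1 + E * (1 + a ^ 2 + b ^ 2) := by
  have h6 : η * m ^ 2 ≤ E * (1 + a ^ 2 + b ^ 2) :=
    mul_le_mul hE (by linarith) (by positivity) (by linarith)
  have hy' := mul_le_mul_of_nonneg_left hy hL
  have ha' := mul_le_mul_of_nonneg_left ha hL
  have hb' := mul_le_mul_of_nonneg_left hb hL
  have A0 : lam * w0 ≤ lam * (K + L * m) :=
    mul_le_mul_of_nonneg_left (by linarith [le_abs_self w0]) hl0.le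
  have A1 : (1 - lam) * w1 ≤ (1 - lam) * (K + L * m) :=
    mul_le_mul_of_nonneg_left (by linarith [le_abs_self w1]) (by linarith)
  have h7 : (3 * K + 4 * L + 1) * m ≤ η * m * m :=
    mul_le_mul_of_nonneg_right hm' (by linarith)
  have h8 : K ≤ K * m := le_mul_of_one_le_right hK hm
  have h9 : 0 ≤ L * m := by positivity
  linarith [neg_abs_le w]

lemma exists_growth {f : ℝ → ℝ} (hL : 0 ≤ L) (h : ∀ a b, |f a - f b| ≤ L * |a - b|) :
    ∃ K, 0 ≤ K ∧ ∀ s ∈ Icc (0 : ℝ) 1, ∀ y, |W f s y| ≤ K + L * |y| := by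
  have hc := continuous_of_abs_sub_le hL h
  have hKc : Continuous fun s : ℝ => |W f s 0| :=
    ((continuous_W hc).comp (continuous_id.prodMk continuous_const)).abs
  obtain ⟨K, hK⟩ := (isCompact_Icc (a := (0 : ℝ)) (b := 1)).bddAbove_image hKc.continuousOn
  refine ⟨K, le_trans (abs_nonneg _) (hK (mem_image_of_mem _ (left_mem_Icc.2 zero_le_one))),
    fun s hs y => ?_⟩
  have hb : |W f s 0| ≤ K := hK (mem_image_of_mem _ hs)
  have q := abs_W_sub hc hL h s y 0
  rw [sub_zero] at q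
  have r := abs_sub_abs_le_abs_sub (W f s y) (W f s 0)
  linarith

/-- The barrier function of the maximum principle. -/
noncomputable def D (f0 f1 f : ℝ → ℝ) (lam η A s a b : ℝ) : ℝ :=
  W f s (lam * a + (1 - lam) * b) - lam * W f0 s a - (1 - lam) * W f1 s b
    + η * Real.exp (A * s) * (1 + a ^ 2 + b ^ 2)

lemma no_negative_min (hc0 : Continuous f0) (hc1 : Continuous f1) (hc : Continuous f)
    (hL : 0 ≤ L) (h0 : ∀ a b, |f0 a - f0 b| ≤ L * |a - b|)
    (h1 : ∀ a b, |f1 a - f1 b| ≤ L * |a - b|) (h : ∀ a b, |f a - f b| ≤ L * |a - b|)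
    {η K A s a b : ℝ} (hη : 0 < η) (hK0 : 0 ≤ K) (hA : A = 3 + 4 * L * (K + L))
    (hs0 : 0 < s) (hsI : s ∈ Icc (0 : ℝ) 1)
    (hgrow : ∀ y, |W f s y| ≤ K + L * |y| ∧ |W f0 s y| ≤ K + L * |y| ∧ |W f1 s y| ≤ K + L * |y|)
    (hglob : ∀ s' ∈ Icc (0 : ℝ) 1, ∀ a' b',
      D f0 f1 f lam η A s a b ≤ D f0 f1 f lam η A s' a' b')
    (hneg' : D f0 f1 f lam η A s a b < 0) : False := by
  have hmu : (1 - lam : ℝ) = 1 - lam := rfl
  set mu := 1 - lam with hmu'
  set w := W f s (lam * a + mu * b) with hw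
  set w0 := W f0 s a with hw0
  set w1 := W f1 s b with hw1
  set g := W1 f s (lam * a + mu * b) with hg
  set g0 := W1 f0 s a with hg0
  set g1 := W1 f1 s b with hg1
  set e := η * Real.exp (A * s) with he
  have hepos : 0 < e := mul_pos hη (Real.exp_pos _)
  set Q := 1 + a ^ 2 + b ^ 2 with hQ
  -- derivatives along the two axes
  have hea : lam * g - lam * g0 + e * (2 * a) = 0 := by
    have hlin : HasDerivAt (fun x => lam * x + mu * b) lam a := by
      simpa using ((hasDerivAt_id a).const_mul lam).add_const (mu * b)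
    have hd : HasDerivAt (fun x => D f0 f1 f lam η A s x b) (g * lam - lam * g0 + e * (2 * a)) a := by
      have hp : HasDerivAt (fun x : ℝ => 1 + x ^ 2 + b ^ 2) (2 * a) a := by
        simpa using ((hasDerivAt_pow 2 a).const_add 1).add_const (b ^ 2)
      exact ((((hasDerivAt_W_y hc hs0 _).comp a hlin).sub
        ((hasDerivAt_W_y hc0 hs0 a).const_mul lam)).sub_const _).add (hp.const_mul e)
    have := IsLocalMin.hasDerivAt_eq_zero
      (Eventually.of_forall fun x => hglob s hsI x b) hd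
    linear_combination this
  have heb : mu * g - mu * g1 + e * (2 * b) = 0 := by
    have hlin : HasDerivAt (fun x => lam * a + mu * x) mu b := by
      simpa using ((hasDerivAt_id b).const_mul mu).const_add (lam * a)
    have hd : HasDerivAt (fun x => D f0 f1 f lam η A s a x) (g * mu - mu * g1 + e * (2 * b)) b := by
      have hp : HasDerivAt (fun x : ℝ => 1 + a ^ 2 + x ^ 2) (2 * b) b := by
        simpa using (hasDerivAt_pow 2 b).const_add (1 + a ^ 2)
      exact ((((hasDerivAt_W_y hc hs0 _).comp b hlin).sub_const _).sub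
        ((hasDerivAt_W_y hc1 hs0 b).const_mul mu)).add (hp.const_mul e)
    have := IsLocalMin.hasDerivAt_eq_zero
      (Eventually.of_forall fun x => hglob s hsI a x) hd
    linear_combination this
  -- second derivative along the diagonal
  have hdd : 0 ≤ W2 f s (lam * a + mu * b) - lam * W2 f0 s a - mu * W2 f1 s b + e * 4 := by
    set c := lam * a + mu * b with hcdef
    refine second_deriv_nonneg (h := fun t => D f0 f1 f lam η A s (a + t) (b + t))
      (h' := fun t => W1 f s (c + t) - lam * W1 f0 s (a + t) - mu * W1 f1 s (b + t)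
        + e * (2 * (a + t) + 2 * (b + t))) (fun t => ?_) ?_ ?_ (fun t => ?_)
    · have e1 : ∀ t, lam * (a + t) + (1 - lam) * (b + t) = c + t := fun t => by
        rw [hcdef, hmu']; ring
      have hp : HasDerivAt (fun t : ℝ => 1 + (a + t) ^ 2 + (b + t) ^ 2)
          (2 * (a + t) + 2 * (b + t)) t := by
        simpa using ((((hasDerivAt_id t).const_add a).pow 2).const_add 1).fun_add
          (((hasDerivAt_id t).const_add b).pow 2)
      simp only [D, e1]
      exact ((((hasDerivAt_W_y hc hs0 _).comp_const_add c t).sub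
        (((hasDerivAt_W_y hc0 hs0 _).comp_const_add a t).const_mul lam)).sub
        (((hasDerivAt_W_y hc1 hs0 _).comp_const_add b t).const_mul mu)).add (hp.const_mul e)
    · have hp : HasDerivAt (fun t : ℝ => 2 * (a + t) + 2 * (b + t)) 4 0 := by
        refine ((((hasDerivAt_id (0 : ℝ)).const_add a).const_mul 2).fun_add
          (((hasDerivAt_id (0 : ℝ)).const_add b).const_mul 2)).congr_deriv ?_
        norm_num
      have hW : HasDerivAt (fun t => W1 f s (c + t)) (W2 f s c) 0 :=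
        HasDerivAt.comp_const_add c 0 (by simpa using hasDerivAt_W1_y hc hs0 c)
      have hW0 : HasDerivAt (fun t => W1 f0 s (a + t)) (W2 f0 s a) 0 :=
        HasDerivAt.comp_const_add a 0 (by simpa using hasDerivAt_W1_y hc0 hs0 a)
      have hW1 : HasDerivAt (fun t => W1 f1 s (b + t)) (W2 f1 s b) 0 :=
        HasDerivAt.comp_const_add b 0 (by simpa using hasDerivAt_W1_y hc1 hs0 b)
      exact ((hW.sub (hW0.const_mul lam)).sub (hW1.const_mul mu)).add (hp.const_mul e)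
    · simp only [add_zero, ← hg, ← hg0, ← hg1]
      linear_combination hea + heb + g * hmu
    · simpa using hglob s hsI (a + t) (b + t)
  -- time derivative
  have hds : (W2 f s (lam * a + mu * b) - w * g ^ 2) / 2 - lam * ((W2 f0 s a - w0 * g0 ^ 2) / 2)
      - mu * ((W2 f1 s b - w1 * g1 ^ 2) / 2) + e * A * Q ≤ 0 := by
    have hp : HasDerivAt (fun r => η * Real.exp (A * r)) (e * A) s := by
      refine (((hasDerivAt_id s).const_mul A).exp.const_mul η).congr_deriv ?_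
      simp only [he, id]
      ring
    refine deriv_nonpos_of_min_left hs0 (h := fun r => D f0 f1 f lam η A r a b) ?_ fun r hr =>
      hglob r ⟨hr.1, hr.2.trans hsI.2⟩ a b
    exact ((((hasDerivAt_W_s hc hs0 _)).sub ((hasDerivAt_W_s hc0 hs0 a).const_mul lam)).sub
      ((hasDerivAt_W_s hc1 hs0 b).const_mul mu)).add (hp.mul_const Q)
  -- the error terms
  have hg' : |g| ≤ L := abs_W1_le hc hL h hs0 _
  have b0 := err_bound hL hK0 hepos (hgrow a).2.1 (abs_W1_le hc0 hL h0 hs0 a) hg'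
  have b1 := err_bound hL hK0 hepos (hgrow b).2.2 (abs_W1_le hc1 hL h1 hs0 b) hg'
  have hC2 : (w - lam * w0 - mu * w1) * g ^ 2 ≤ 0 :=
    neg_part hepos (show 0 < Q by positivity) hneg' g
  have k0 : lam * w0 * g0 ^ 2 = lam * w0 * g ^ 2 + w0 * (2 * e * a) * (g0 + g) := by
    linear_combination (-(w0 * (g0 + g))) * hea
  have k1 : mu * w1 * g1 ^ 2 = mu * w1 * g ^ 2 + w1 * (2 * e * b) * (g1 + g) := by
    linear_combination (-(w1 * (g1 + g))) * heb
  have hT := barrier_bound (a := a) (b := b) hL hK0 hepos hA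
  exact final_arith hepos k0 k1 b0 b1 hC2 hdd hds hT

lemma continuous_D (hc0 : Continuous f0) (hc1 : Continuous f1) (hc : Continuous f) (η A : ℝ) :
    Continuous fun q : ℝ × ℝ × ℝ => D f0 f1 f lam η A q.1 q.2.1 q.2.2 := by
  have e : Continuous fun q : ℝ × ℝ × ℝ => W f q.1 (lam * q.2.1 + (1 - lam) * q.2.2) :=
    Continuous.comp (g := fun p : ℝ × ℝ => W f p.1 p.2)
      (f := fun q : ℝ × ℝ × ℝ => (q.1, lam * q.2.1 + (1 - lam) * q.2.2)) (continuous_W hc)
      (by fun_prop)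
  have e0 : Continuous fun q : ℝ × ℝ × ℝ => W f0 q.1 q.2.1 :=
    Continuous.comp (g := fun p : ℝ × ℝ => W f0 p.1 p.2)
      (f := fun q : ℝ × ℝ × ℝ => (q.1, q.2.1)) (continuous_W hc0) (by fun_prop)
  have e1 : Continuous fun q : ℝ × ℝ × ℝ => W f1 q.1 q.2.2 :=
    Continuous.comp (g := fun p : ℝ × ℝ => W f1 p.1 p.2)
      (f := fun q : ℝ × ℝ × ℝ => (q.1, q.2.2)) (continuous_W hc1) (by fun_prop)
  unfold D
  fun_prop

lemma outside_pos {η K A R s a b : ℝ} (hη : 0 < η) (hK : 0 ≤ K) (hL : 0 ≤ L) (hA : 0 ≤ A)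
    (hR : R = 1 + (3 * K + 4 * L + 1) / η) (hl0 : 0 < lam) (hl1 : lam < 1) (hs : 0 ≤ s)
    (hgrow : ∀ y, |W f s y| ≤ K + L * |y| ∧ |W f0 s y| ≤ K + L * |y| ∧ |W f1 s y| ≤ K + L * |y|)
    (hab : R ≤ max |a| |b|) : 0 < D f0 f1 f lam η A s a b := by
  set m := max |a| |b| with hm
  have hE : η ≤ η * Real.exp (A * s) :=
    le_mul_of_one_le_right hη.le (Real.one_le_exp (mul_nonneg hA hs))
  have h5 : (3 * K + 4 * L + 1) / η ≤ m := by linarith
  have hm' : 3 * K + 4 * L + 1 ≤ η * m := by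
    rw [div_le_iff₀ hη] at h5
    linarith
  have hm1 : 1 ≤ m := by
    have : 0 ≤ (3 * K + 4 * L + 1) / η := by positivity
    linarith
  have hq : m ^ 2 ≤ a ^ 2 + b ^ 2 := by
    rcases max_cases |a| |b| with ⟨e, -⟩ | ⟨e, -⟩ <;> rw [hm, e, sq_abs] <;>
      linarith [sq_nonneg a, sq_nonneg b]
  have hy : |lam * a + (1 - lam) * b| ≤ m := by
    refine (abs_add_le _ _).trans ?_
    rw [abs_mul, abs_mul, abs_of_pos hl0, abs_of_pos (by linarith : (0 : ℝ) < 1 - lam)]
    have p0 : lam * |a| ≤ lam * m := mul_le_mul_of_nonneg_left (le_max_left _ _) hl0.le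
    have p1 : (1 - lam) * |b| ≤ (1 - lam) * m :=
      mul_le_mul_of_nonneg_left (le_max_right _ _) (by linarith)
    linarith
  exact outside_arith hη hK hL hE hm1 hm' hl0 hl1 (le_max_left _ _) (le_max_right _ _) hq hy
    (hgrow _).1 (hgrow a).2.1 (hgrow b).2.2

lemma barrier_nonneg (hL : 0 ≤ L) (h0 : ∀ a b, |f0 a - f0 b| ≤ L * |a - b|)
    (h1 : ∀ a b, |f1 a - f1 b| ≤ L * |a - b|) (h : ∀ a b, |f a - f b| ≤ L * |a - b|)
    (hl0 : 0 < lam) (hl1 : lam < 1)
    (hsup : ∀ a b, lam * f0 a + (1 - lam) * f1 b ≤ f (lam * a + (1 - lam) * b))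
    {η K A : ℝ} (hη : 0 < η) (hK : 0 ≤ K) (hA : A = 3 + 4 * L * (K + L))
    (hgrow : ∀ s ∈ Icc (0 : ℝ) 1, ∀ y,
      |W f s y| ≤ K + L * |y| ∧ |W f0 s y| ≤ K + L * |y| ∧ |W f1 s y| ≤ K + L * |y|) :
    0 ≤ D f0 f1 f lam η A 1 0 0 := by
  have hc0 := continuous_of_abs_sub_le hL h0
  have hc1 := continuous_of_abs_sub_le hL h1
  have hc := continuous_of_abs_sub_le hL h
  have hA0 : 0 ≤ A := by rw [hA]; positivity
  obtain ⟨R, hR⟩ : ∃ R : ℝ, R = 1 + (3 * K + 4 * L + 1) / η := ⟨_, rfl⟩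
  have hR0 : 0 ≤ R := by rw [hR]; positivity
  have hbox : ((1 : ℝ), (0 : ℝ), (0 : ℝ)) ∈ Icc (0 : ℝ) 1 ×ˢ (Icc (-R) R ×ˢ Icc (-R) R) :=
    ⟨right_mem_Icc.2 zero_le_one, ⟨by linarith, by linarith⟩, ⟨by linarith, by linarith⟩⟩
  obtain ⟨⟨s, a, b⟩, hq, hmin⟩ :=
    (isCompact_Icc.prod (isCompact_Icc.prod isCompact_Icc)).exists_isMinOn ⟨_, hbox⟩
      (continuous_D (lam := lam) hc0 hc1 hc η A).continuousOn
  have hmin' := isMinOn_iff.1 hmin
  have h10 := hmin' _ hbox
  dsimp only at h10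
  refine le_trans ?_ h10
  by_contra hneg
  have hneg' : D f0 f1 f lam η A s a b < 0 := not_le.1 hneg
  have hsI : s ∈ Icc (0 : ℝ) 1 := hq.1
  have hglob : ∀ s' ∈ Icc (0 : ℝ) 1, ∀ a' b',
      D f0 f1 f lam η A s a b ≤ D f0 f1 f lam η A s' a' b' := by
    intro s' hs' a' b'
    by_cases hcase : R ≤ max |a'| |b'|
    · exact hneg'.le.trans (outside_pos hη hK hL hA0 hR hl0 hl1 hs'.1 (hgrow s' hs') hcase).le
    · rw [not_le, max_lt_iff, abs_lt, abs_lt] at hcase
      have h11 := hmin' (s', a', b')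
        ⟨hs', ⟨hcase.1.1.le, hcase.1.2.le⟩, ⟨hcase.2.1.le, hcase.2.2.le⟩⟩
      dsimp only at h11
      exact h11
  rcases hsI.1.eq_or_lt with e | e
  · subst e
    have h2 := hsup a b
    have h3 : 0 ≤ η * Real.exp (A * 0) * (1 + a ^ 2 + b ^ 2) := by positivity
    simp only [D, W_zero] at hneg'
    linarith
  · exact no_negative_min hc0 hc1 hc hL h0 h1 h hη hK hA e hsI (hgrow s hsI) hglob hneg'

lemma ehrhard_one (hL : 0 ≤ L) (h0 : ∀ a b, |f0 a - f0 b| ≤ L * |a - b|)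
    (h1 : ∀ a b, |f1 a - f1 b| ≤ L * |a - b|) (h : ∀ a b, |f a - f b| ≤ L * |a - b|)
    (hl0 : 0 < lam) (hl1 : lam < 1)
    (hsup : ∀ a b, lam * f0 a + (1 - lam) * f1 b ≤ f (lam * a + (1 - lam) * b)) :
    lam * avg (gaussianReal 0 1) f0 + (1 - lam) * avg (gaussianReal 0 1) f1 ≤
      avg (gaussianReal 0 1) f := by
  obtain ⟨K, hK, gK⟩ := exists_growth hL h
  obtain ⟨K', hK', gK'⟩ := exists_growth hL h0
  obtain ⟨K'', hK'', gK''⟩ := exists_growth hL h1
  have hgrow : ∀ s ∈ Icc (0 : ℝ) 1, ∀ y, |W f s y| ≤ K + K' + K'' + L * |y| ∧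
      |W f0 s y| ≤ K + K' + K'' + L * |y| ∧ |W f1 s y| ≤ K + K' + K'' + L * |y| :=
    fun s hs y => ⟨(gK s hs y).trans (by linarith), (gK' s hs y).trans (by linarith),
      (gK'' s hs y).trans (by linarith)⟩
  have e : ∀ g : ℝ → ℝ, W g 1 0 = avg (gaussianReal 0 1) g := fun g => by simp [W]
  have key : 0 ≤ W f 1 0 - lam * W f0 1 0 - (1 - lam) * W f1 1 0 := by
    refine le_of_forall_pos_le_add fun ε hε => ?_
    set A := 3 + 4 * L * (K + K' + K'' + L)
    have := barrier_nonneg (A := A) hL h0 h1 h hl0 hl1 hsup (div_pos hε (Real.exp_pos A))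
      (by positivity) rfl hgrow
    simpa [D, div_mul_cancel₀ _ (Real.exp_pos A).ne'] using this
  rw [e, e, e] at key
  linarith

end oneDim

/-- Standard Gaussian measure on `Fin n → ℝ`. -/
noncomputable abbrev gpi (n : ℕ) : Measure (Fin n → ℝ) :=
  Measure.pi fun _ => gaussianReal 0 1

lemma continuous_of_lip {n : ℕ} {f : (Fin n → ℝ) → ℝ} {L : ℝ} (hL : 0 ≤ L)
    (hf : ∀ x y, |f x - f y| ≤ L * ‖x - y‖) : Continuous f :=
  (LipschitzWith.of_dist_le_mul (K := L.toNNReal) fun a b => by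
    simpa [dist_eq_norm, Real.coe_toNNReal L hL] using hf a b).continuous

lemma avg_succ {n : ℕ} {f : (Fin (n + 1) → ℝ) → ℝ} (hf : Continuous f) :
    avg (gpi n) (fun x => avg (gaussianReal 0 1) fun t => f (Fin.cons t x)) = avg (gpi (n + 1)) f := by
  unfold avg
  congr 1
  have hcons : Continuous fun p : ℝ × (Fin n → ℝ) =>
      (Fin.cons p.1 p.2 : Fin (n + 1) → ℝ) :=
    Continuous.finCons (A := fun _ : Fin (n + 1) => ℝ) continuous_fst continuous_snd
  have h1 : ∀ x : Fin n → ℝ,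
      Phi (Pinv (∫ t, Phi (f (Fin.cons t x)) ∂gaussianReal 0 1)) =
        ∫ t, Phi (f (Fin.cons t x)) ∂gaussianReal 0 1 := fun x =>
    Phi_Pinv (integral_Phi_mem (h := fun t => f (Fin.cons t x))
      ((hf.comp (hcons.comp (continuous_id.prodMk continuous_const))).measurable))
  simp only [h1]
  have hint : Integrable (fun p : ℝ × (Fin n → ℝ) => Phi (f (Fin.cons p.1 p.2)))
      ((gaussianReal 0 1).prod (gpi n)) :=
    integrable_Phi_comp (h := fun p : ℝ × (Fin n → ℝ) => f (Fin.cons p.1 p.2))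
      (hf.comp hcons).measurable
  rw [← integral_prod_symm _ hint]
  have hmp := measurePreserving_piFinSuccAbove (fun _ : Fin (n + 1) => gaussianReal 0 1) 0
  rw [← hmp.symm.integral_comp' (g := fun x => Phi (f x))]
  simp [MeasurableEquiv.piFinSuccAbove_symm_apply, Fin.consEquiv]

lemma ehrhard_pi (lam : ℝ) (hl0 : 0 < lam) (hl1 : lam < 1) : ∀ (n : ℕ)
    (f0 f1 f : (Fin n → ℝ) → ℝ) (L : ℝ), 0 ≤ L → (∀ x y, |f0 x - f0 y| ≤ L * ‖x - y‖) →
    (∀ x y, |f1 x - f1 y| ≤ L * ‖x - y‖) → (∀ x y, |f x - f y| ≤ L * ‖x - y‖) →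
    (∀ a b, lam * f0 a + (1 - lam) * f1 b ≤ f (lam • a + (1 - lam) • b)) →
    lam * avg (gpi n) f0 + (1 - lam) * avg (gpi n) f1 ≤ avg (gpi n) f := by
  intro n
  induction n with
  | zero =>
    intro f0 f1 f L _ _ _ _ hsup
    have e : ∀ g : (Fin 0 → ℝ) → ℝ, avg (gpi 0) g = g 0 := by
      intro g
      have : g = fun _ => g 0 := funext fun x => by rw [Subsingleton.elim x 0]
      rw [this]
      simp [avg, Pinv_Phi]
    rw [e, e, e]
    simpa [Subsingleton.elim (lam • (0 : Fin 0 → ℝ) + (1 - lam) • 0) 0] using hsup 0 0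
  | succ n ih =>
    intro f0 f1 f L hL h0 h1 h hsup
    have hslice : ∀ g : (Fin (n + 1) → ℝ) → ℝ, (∀ x y, |g x - g y| ≤ L * ‖x - y‖) →
        (∀ x, ∀ p q : ℝ, |g (Fin.cons p x) - g (Fin.cons q x)| ≤ L * |p - q|) ∧
        (∀ x y : Fin n → ℝ, |avg (gaussianReal 0 1) (fun t => g (Fin.cons t x)) -
          avg (gaussianReal 0 1) (fun t => g (Fin.cons t y))| ≤ L * ‖x - y‖) := by
      intro g hg
      have hgc := continuous_of_lip hL hg
      refine ⟨fun x p q => (hg _ _).trans (mul_le_mul_of_nonneg_left ?_ hL), fun x y => ?_⟩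
      · rw [pi_norm_le_iff_of_nonneg (abs_nonneg _)]
        intro i
        cases i using Fin.cases with
        | zero => simp
        | succ j => simp
      · refine abs_avg_sub_avg
          ((hgc.comp (continuous_id.finCons continuous_const)).measurable)
          ((hgc.comp (continuous_id.finCons continuous_const)).measurable)
          (fun t => (hg _ _).trans (mul_le_mul_of_nonneg_left ?_ hL)) (by positivity)
        rw [pi_norm_le_iff_of_nonneg (norm_nonneg _)]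
        intro i
        cases i using Fin.cases with
        | zero => simp
        | succ j => simpa using norm_le_pi_norm (x - y) j
    obtain ⟨s0, l0⟩ := hslice f0 h0
    obtain ⟨s1, l1⟩ := hslice f1 h1
    obtain ⟨s2, l2⟩ := hslice f h
    have key := ih _ _ _ L hL l0 l1 l2 fun a b =>
      ehrhard_one hL (s0 a) (s1 b) (s2 (lam • a + (1 - lam) • b)) hl0 hl1 fun p q => by
        have e : (Fin.cons (lam * p + (1 - lam) * q) (lam • a + (1 - lam) • b) :
            Fin (n + 1) → ℝ) = lam • Fin.cons p a + (1 - lam) • Fin.cons q b := by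
          funext i
          cases i using Fin.cases with
          | zero => simp
          | succ j => simp
        rw [e]
        exact hsup _ _
    rwa [avg_succ (continuous_of_lip hL h0), avg_succ (continuous_of_lip hL h1),
      avg_succ (continuous_of_lip hL h)] at key

end Vale.Agent.P226.Ehr

namespace Vale.Agent.P226

/-- The functional Ehrhard inequality for Lipschitz functions. -/
theorem ehrhard_integral {n : ℕ} (f0 f1 f : Space n → ℝ) (L : ℝ)
    (h0 : ∀ x y, |f0 x - f0 y| ≤ L * ‖x - y‖) (h1 : ∀ x y, |f1 x - f1 y| ≤ L * ‖x - y‖)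
    (h : ∀ x y, |f x - f y| ≤ L * ‖x - y‖) (lam : ℝ) (hl0 : 0 < lam) (hl1 : lam < 1)
    (hsup : ∀ a b, lam * f0 a + (1 - lam) * f1 b ≤ f (lam • a + (1 - lam) • b))
    (G0 G1 : ℝ) (hG0 : Phi G0 = ∫ x, Phi (f0 x) ∂(stdGaussian (Space n)))
    (hG1 : Phi G1 = ∫ x, Phi (f1 x) ∂(stdGaussian (Space n))) :
    Phi (lam * G0 + (1 - lam) * G1) ≤ ∫ x, Phi (f x) ∂(stdGaussian (Space n)) := by
  set J := (PiLp.continuousLinearEquiv 2 ℝ fun _ : Fin n => ℝ).symm with hJ
  set T : (Fin n → ℝ) →L[ℝ] Space n := J.toContinuousLinearMap with hT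
  have hmap : (Ehr.gpi n).map T = stdGaussian (Space n) := map_pi_eq_stdGaussian (ι := Fin n)
  have hlip : ∀ g : Space n → ℝ, (∀ x y, |g x - g y| ≤ L * ‖x - y‖) →
      ∀ x y, |g (T x) - g (T y)| ≤ |L| * ‖T‖ * ‖x - y‖ := by
    intro g hg x y
    refine (hg _ _).trans ?_
    rw [← map_sub, mul_assoc]
    exact (mul_le_mul_of_nonneg_right (le_abs_self L) (norm_nonneg _)).trans
      (mul_le_mul_of_nonneg_left (T.le_opNorm _) (abs_nonneg _))
  have hnn : 0 ≤ |L| * ‖T‖ := by positivity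
  have key := Ehr.ehrhard_pi lam hl0 hl1 n (f0 ∘ T) (f1 ∘ T) (f ∘ T) _ hnn
    (hlip f0 h0) (hlip f1 h1) (hlip f h) fun a b => by simpa using hsup (T a) (T b)
  have hint : ∀ g : Space n → ℝ, (∀ x y, |g x - g y| ≤ L * ‖x - y‖) →
      ∫ x, Phi (g x) ∂(stdGaussian (Space n)) = ∫ x, Phi ((g ∘ T) x) ∂(Ehr.gpi n) := by
    intro g hg
    have hgc : Continuous g := (LipschitzWith.of_dist_le_mul (K := |L|.toNNReal) fun a b => by
      rw [Real.dist_eq, dist_eq_norm, Real.coe_toNNReal _ (abs_nonneg L)]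
      exact (hg a b).trans (mul_le_mul_of_nonneg_right (le_abs_self L) (norm_nonneg _))).continuous
    rw [← hmap, integral_map (f := fun x => Phi (g x)) T.continuous.measurable.aemeasurable
      (continuous_Phi.comp hgc).aestronglyMeasurable]
    rfl
  have hc : ∀ g : Space n → ℝ, (∀ x y, |g x - g y| ≤ L * ‖x - y‖) → Measurable (g ∘ T) :=
    fun g hg => (Ehr.continuous_of_lip hnn (hlip g hg)).measurable
  rw [hint f h, ← Ehr.Phi_avg (hc f h)]
  refine Phi_strictMono.monotone (le_trans (le_of_eq ?_) key)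
  rw [hint f0 h0, ← Ehr.Phi_avg (hc f0 h0)] at hG0
  rw [hint f1 h1, ← Ehr.Phi_avg (hc f1 h1)] at hG1
  rw [Phi_strictMono.injective hG0, Phi_strictMono.injective hG1]

end Vale.Agent.P226
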