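import Vale.Agent.P226.Bad
import Vale.Agent.P226.Ehrhard

/-!
A bound on one cell of a bad maximiser: the functional Ehrhard inequality controls the cost of
removing the vector, in terms of the Gaussian quantile of the cell.
-/

open MeasureTheory ProbabilityTheory Filter Set Function
open scoped RealInnerProductSpace Topology

namespace Vale.Agent.P226

variable {n : ℕ}

section general

variable {ι : Type*} [Fintype ι] [Nonempty ι]

lemma maxOver_convex (f g : ι → ℝ) {l : ℝ} (h0 : 0 ≤ l) (h1 : l ≤ 1) :
    maxOver (fun i => l * f i + (1 - l) * g i) ≤ l * maxOver f + (1 - l) * maxOver g :=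
  maxOver_le fun i => add_le_add (mul_le_mul_of_nonneg_left (le_maxOver f i) h0)
    (mul_le_mul_of_nonneg_left (le_maxOver g i) (by linarith))

lemma abs_maxOver_sub_le (f g : ι → ℝ) : |maxOver f - maxOver g| ≤ ∑ i, |f i - g i| := by
  obtain ⟨i, hi⟩ := exists_eq_maxOver f
  obtain ⟨j, hj⟩ := exists_eq_maxOver g
  have h : ∀ l, |f l - g l| ≤ ∑ i, |f i - g i| := fun l =>
    Finset.single_le_sum (f := fun i => |f i - g i|) (fun _ _ => abs_nonneg _) (Finset.mem_univ l)
  have := le_maxOver g i
  have := le_maxOver f j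
  have := abs_le.1 (h i)
  have := abs_le.1 (h j)
  rw [abs_le]
  constructor <;> linarith

lemma psi_nonneg (v : ι → Space n) : 0 ≤ psi v := by
  have h : ∫ x, (∑ i, ⟪v i, x⟫) / Fintype.card ι ∂(gauss n) ≤ psi v :=
    integral_mono ((integrable_finsetSum _ fun i _ => integrable_inner (v i)).div_const _)
      (integrable_maxInner v) fun x => avg_le_maxOver fun i => ⟪v i, x⟫
  rwa [integral_div, integral_finsetSum _ fun i _ => integrable_inner (v i),
    Finset.sum_eq_zero fun i _ => integral_inner_eq_zero (v i), zero_div] at h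

end general

lemma gauss1_Ioi (a : ℝ) : gauss1.real (Ioi (-a)) = Phi a := by
  rw [← compl_Iic, probReal_compl_eq_one_sub measurableSet_Iic, ← Phi_eq_measure, Phi_neg]
  ring

lemma gauss1_singleton (a : ℝ) : gauss1.real {a} = 0 := by
  have : NullSingletonClass gauss1 := nullSingletonClass_gaussianReal one_ne_zero
  rw [measureReal_def, measure_singleton, ENNReal.toReal_zero]

lemma integral_Ioi_id_gauss1 (a : ℝ) : ∫ r in Ioi (-a), r ∂gauss1 = phi a := by
  have hpos := integral_posPart_add a
  have e : (fun r : ℝ => max (r + a) 0) =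
      fun r => (Ioi (-a)).indicator (fun r => r) r + a * (Ioi (-a)).indicator (fun _ => (1:ℝ)) r := by
    funext r
    by_cases h : -a < r
    · rw [indicator_of_mem (mem_Ioi.2 h), indicator_of_mem (mem_Ioi.2 h),
        max_eq_left (by linarith)]
      ring
    · rw [indicator_of_notMem (by simpa using h), indicator_of_notMem (by simpa using h),
        max_eq_right (by linarith)]
      ring
  rw [e, integral_add (integrable_id1.indicator measurableSet_Ioi)
    (((integrable_const (1:ℝ)).indicator measurableSet_Ioi).const_mul a),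
    integral_indicator measurableSet_Ioi, integral_const_mul,
    integral_indicator measurableSet_Ioi, setIntegral_const, smul_eq_mul, mul_one, gauss1_Ioi,
    Lfun] at hpos
  linarith

lemma Lfun_tendsto_atBot : Tendsto Lfun atBot (𝓝 0) := by
  have hphi : Tendsto phi atBot (𝓝 0) := by
    have h1 : Tendsto (fun y : ℝ => -y ^ 2 / 2) atBot atBot := by
      have h2 : Tendsto (fun y : ℝ => y ^ 2) atBot atTop := by
        simpa [sq] using tendsto_id.atBot_mul_atBot₀ tendsto_id
      exact (tendsto_neg_atTop_atBot.comp h2).atBot_div_const (by norm_num)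
    have h3 := (Real.tendsto_exp_atBot.comp h1).const_mul (Real.sqrt (2 * Real.pi))⁻¹
    simpa [Function.comp_def, phi_eq, funext phi_eq] using h3
  refine tendsto_of_tendsto_of_tendsto_of_le_of_le' tendsto_const_nhds hphi
    (Eventually.of_forall Lfun_nonneg) ?_
  filter_upwards [eventually_le_atBot (0:ℝ)] with a ha
  have := mul_nonpos_of_nonpos_of_nonneg ha (Phi_pos a).le
  unfold Lfun
  linarith

/-- The margin function: concave, and increasing at unit speed along `u`. -/
structure Margin (D : Space n → ℝ) (u : Space n) : Prop where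
  ne : u ≠ 0
  shift : ∀ x t, D (x + t • u) = D x + t
  conc : ∀ (x y : Space n) (l : ℝ), 0 ≤ l → l ≤ 1 →
    l * D x + (1 - l) * D y ≤ D (l • x + (1 - l) • y)
  lip : ∃ L, 0 ≤ L ∧ ∀ x y, |D x - D y| ≤ L * ‖x - y‖

namespace Margin

variable {D : Space n → ℝ} {u : Space n}

lemma continuous (h : Margin D u) : Continuous D := by
  obtain ⟨L, hL, hl⟩ := h.lip
  exact (LipschitzWith.of_dist_le_mul (K := L.toNNReal) fun a b => by
    simpa [Real.dist_eq, Real.coe_toNNReal L hL, dist_eq_norm] using hl a b).continuous

/-- Unit vector in the direction of `u`. -/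
noncomputable def unit (_ : Margin D u) : Space n := ‖u‖⁻¹ • u

lemma norm_unit (h : Margin D u) : ‖h.unit‖ = 1 := by
  rw [unit, norm_smul, norm_inv, norm_norm, inv_mul_cancel₀ (norm_ne_zero_iff.2 h.ne)]

lemma norm_pos (h : Margin D u) : 0 < ‖u‖ := norm_pos_iff.2 h.ne

/-- The margin on the orthogonal hyperplane, in standard units. -/
noncomputable def gfun (h : Margin D u) (y : Space n) : ℝ := ‖u‖ * D (orth h.unit y)

lemma line (h : Margin D u) (r : ℝ) (y : Space n) :
    ‖u‖ * D (r • h.unit + orth h.unit y) = h.gfun y + r := by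
  have e : r • h.unit + orth h.unit y = orth h.unit y + (r * ‖u‖⁻¹) • u := by
    rw [unit, smul_smul, add_comm]
  rw [e, h.shift, gfun]
  field_simp [h.norm_pos.ne']

lemma gfun_lip (h : Margin D u) : ∃ L, 0 ≤ L ∧ ∀ x y, |h.gfun x - h.gfun y| ≤ L * ‖x - y‖ := by
  obtain ⟨L, hL, hl⟩ := h.lip
  refine ⟨‖u‖ * L * 2, by positivity, fun x y => ?_⟩
  rw [gfun, gfun, ← mul_sub, abs_mul, abs_norm, mul_assoc ‖u‖ L, mul_assoc]
  refine mul_le_mul_of_nonneg_left ((hl _ _).trans ?_) (norm_nonneg _)
  rw [mul_assoc]
  refine mul_le_mul_of_nonneg_left ?_ hL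
  have e : orth h.unit x - orth h.unit y = (x - y) - ⟪h.unit, x - y⟫ • h.unit := by
    rw [orth, orth, inner_sub_right, sub_smul]; abel
  rw [e]
  refine (norm_sub_le _ _).trans ?_
  rw [norm_smul, h.norm_unit, mul_one, Real.norm_eq_abs]
  have := abs_real_inner_le_norm h.unit (x - y)
  rw [h.norm_unit, one_mul] at this
  linarith

lemma continuous_gfun (h : Margin D u) : Continuous h.gfun :=
  continuous_const.mul (h.continuous.comp (continuous_orth _))

lemma gfun_conc (h : Margin D u) (x y : Space n) {l : ℝ} (h0 : 0 ≤ l) (h1 : l ≤ 1) :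
    l * h.gfun x + (1 - l) * h.gfun y ≤ h.gfun (l • x + (1 - l) • y) := by
  have e : orth h.unit (l • x + (1 - l) • y) = l • orth h.unit x + (1 - l) • orth h.unit y := by
    simp only [orth, inner_add_right, real_inner_smul_right]
    module
  simp only [gfun, e]
  have := mul_le_mul_of_nonneg_left (h.conc (orth h.unit x) (orth h.unit y) l h0 h1)
    h.norm_pos.le
  linarith

lemma integrable_Phi (h : Margin D u) (c : ℝ) :
    Integrable (fun y => Phi (h.gfun y - c)) (gauss n) := by
  refine (integrable_const (1:ℝ)).mono'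
    (continuous_Phi.comp (h.continuous_gfun.sub continuous_const)).aestronglyMeasurable
    (Eventually.of_forall fun y => ?_)
  rw [Real.norm_eq_abs, abs_of_pos (Phi_pos _)]
  exact (Phi_lt_one _).le

lemma integrable (h : Margin D u) : Integrable D (gauss n) := by
  obtain ⟨L, hL, hl⟩ := h.lip
  refine ((integrable_const |D 0|).add (integrable_norm_gauss.const_mul L)).mono'
    h.continuous.aestronglyMeasurable (Eventually.of_forall fun y => ?_)
  have h1 := hl y 0
  rw [sub_zero] at h1
  have h2 := abs_le.1 h1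
  simp only [Pi.add_apply, Real.norm_eq_abs]
  rw [abs_le]
  constructor <;> linarith [abs_nonneg (D 0), neg_abs_le (D 0), le_abs_self (D 0)]

lemma integrable_gfun (h : Margin D u) : Integrable h.gfun (gauss n) := by
  obtain ⟨L, hL, hl⟩ := h.gfun_lip
  refine ((integrable_const |h.gfun 0|).add (integrable_norm_gauss.const_mul L)).mono'
    h.continuous_gfun.aestronglyMeasurable (Eventually.of_forall fun y => ?_)
  have h1 := hl y 0
  rw [sub_zero] at h1
  have h2 := abs_le.1 h1
  simp only [Pi.add_apply, Real.norm_eq_abs]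
  rw [abs_le]
  constructor <;> linarith [abs_nonneg (h.gfun 0), neg_abs_le (h.gfun 0), le_abs_self (h.gfun 0)]

lemma integrable_Lfun (h : Margin D u) {c : ℝ} :
    Integrable (fun y => Lfun (h.gfun y - c)) (gauss n) := by
  refine ((h.integrable_gfun.abs.add (integrable_const (phi 0 + |c|)))).mono'
    (continuous_Lfun.comp (h.continuous_gfun.sub continuous_const)).aestronglyMeasurable
    (Eventually.of_forall fun y => ?_)
  rw [Real.norm_eq_abs, abs_of_nonneg (Lfun_nonneg _), Pi.add_apply]
  set a := h.gfun y - c with ha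
  have h1 : a * Phi a ≤ |a| := by
    refine (le_abs_self _).trans ?_
    rw [abs_mul, abs_of_pos (Phi_pos a)]
    exact mul_le_of_le_one_right (abs_nonneg _) (Phi_lt_one a).le
  have h2 := phi_le_phi_zero a
  have h3 : |a| ≤ |h.gfun y| + |c| := abs_sub _ _
  unfold Lfun
  linarith

/-- Superlevel sets, through the decomposition along `u`. -/
lemma measure_gt (h : Margin D u) (t : ℝ) :
    (gauss n).real {x | t < D x} = ∫ y, Phi (h.gfun y - ‖u‖ * t) ∂(gauss n) := by
  have hm : MeasurableSet {x | t < D x} := measurableSet_lt measurable_const h.continuous.measurable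
  rw [← integral_indicator_one hm]
  rw [integral_decomp h.norm_unit (F := ({x | t < D x}).indicator 1)
    ((integrable_const (1:ℝ)).indicator hm)]
  refine integral_congr_ae (Eventually.of_forall fun y => ?_)
  have e : (fun r => ({x | t < D x}).indicator (1 : Space n → ℝ) (r • h.unit + orth h.unit y)) =
      (Ioi (-(h.gfun y - ‖u‖ * t))).indicator (fun _ => (1:ℝ)) := by
    funext r
    have hl := h.line r y
    by_cases hr : t < D (r • h.unit + orth h.unit y)
    · rw [indicator_of_mem (by exact hr), indicator_of_mem]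
      · rfl
      · rw [mem_Ioi]
        nlinarith [mul_lt_mul_of_pos_left hr h.norm_pos]
    · rw [indicator_of_notMem (by exact hr), indicator_of_notMem]
      rw [mem_Ioi, not_lt]
      nlinarith [mul_le_mul_of_nonneg_left (not_lt.1 hr) h.norm_pos.le]
  simp only [Pi.one_apply] at e ⊢
  rw [show (fun r => ({x | t < D x}).indicator (1 : Space n → ℝ) (r • h.unit + orth h.unit y)) =
      _ from e]
  rw [integral_indicator measurableSet_Ioi, setIntegral_const, smul_eq_mul, mul_one, gauss1_Ioi]

lemma measure_eq_zero (h : Margin D u) : (gauss n).real {x | D x = 0} = 0 := by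
  have hm : MeasurableSet {x | D x = 0} := measurableSet_eq_fun h.continuous.measurable measurable_const
  rw [← integral_indicator_one hm]
  rw [integral_decomp h.norm_unit (F := ({x | D x = 0}).indicator 1)
    ((integrable_const (1:ℝ)).indicator hm)]
  refine integral_eq_zero_of_ae (Eventually.of_forall fun y => ?_)
  have e : (fun r => ({x | D x = 0}).indicator (1 : Space n → ℝ) (r • h.unit + orth h.unit y)) =
      ({-h.gfun y} : Set ℝ).indicator (fun _ => (1:ℝ)) := by
    funext r
    have hl := h.line r y
    by_cases hr : D (r • h.unit + orth h.unit y) = 0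
    · rw [indicator_of_mem (by exact hr), indicator_of_mem]
      · rfl
      · rw [mem_singleton_iff]; rw [hr, mul_zero] at hl; linarith
    · rw [indicator_of_notMem (by exact hr), indicator_of_notMem]
      rw [mem_singleton_iff]
      intro e
      exact hr ((mul_eq_zero.1 (by linarith : ‖u‖ * D (r • h.unit + orth h.unit y) = 0)).resolve_left
        h.norm_pos.ne')
  simp only [Pi.zero_apply]
  rw [show (fun r => ({x | D x = 0}).indicator (1 : Space n → ℝ) (r • h.unit + orth h.unit y)) =
      _ from e, integral_indicator (measurableSet_singleton _), setIntegral_const, smul_eq_mul,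
    mul_one, gauss1_singleton]

/-- The first moment of the positivity set in the direction `u`. -/
lemma inner_moment_pos (h : Margin D u) :
    ⟪u, moment {x | 0 < D x}⟫ = ‖u‖ * ∫ y, phi (h.gfun y) ∂(gauss n) := by
  have hm : MeasurableSet {x | 0 < D x} := measurableSet_lt measurable_const h.continuous.measurable
  rw [inner_moment, ← integral_indicator hm,
    integral_decomp h.norm_unit (integrable_indicator_inner hm u), ← integral_const_mul]
  refine integral_congr_ae (Eventually.of_forall fun y => ?_)
  have e : (fun r => ({x | 0 < D x}).indicator (fun x => ⟪u, x⟫) (r • h.unit + orth h.unit y)) =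
      (Ioi (-h.gfun y)).indicator (fun r => ‖u‖ * r) := by
    funext r
    have hl := h.line r y
    have hu : u = ‖u‖ • h.unit := by
      rw [unit, smul_smul, mul_inv_cancel₀ h.norm_pos.ne', one_smul]
    have hi : ⟪u, r • h.unit + orth h.unit y⟫ = ‖u‖ * r := by
      refine (congrArg (fun w => ⟪w, r • h.unit + orth h.unit y⟫) hu).trans ?_
      rw [real_inner_smul_left, inner_add_right, real_inner_smul_right, inner_orth h.norm_unit,
        real_inner_self_eq_norm_sq, h.norm_unit]
      ring
    by_cases hr : 0 < D (r • h.unit + orth h.unit y)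
    · rw [indicator_of_mem (by exact hr), indicator_of_mem, hi]
      rw [mem_Ioi]
      nlinarith [mul_pos h.norm_pos hr]
    · rw [indicator_of_notMem (by exact hr), indicator_of_notMem]
      rw [mem_Ioi, not_lt]
      nlinarith [mul_nonpos_of_nonneg_of_nonpos h.norm_pos.le (not_lt.1 hr)]
  simp only
  rw [show (fun r => ({x | 0 < D x}).indicator (fun x => ⟪u, x⟫) (r • h.unit + orth h.unit y)) =
      _ from e, integral_indicator measurableSet_Ioi, integral_const_mul, integral_Ioi_id_gauss1]

lemma integral_pos_part (h : Margin D u) :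
    ∫ x, max (D x) 0 ∂(gauss n) = (∫ y, Lfun (h.gfun y) ∂(gauss n)) / ‖u‖ := by
  rw [integral_decomp h.norm_unit h.integrable.pos_part, ← integral_div]
  refine integral_congr_ae (Eventually.of_forall fun y => ?_)
  simp only
  rw [← integral_posPart_add, ← integral_div]
  refine integral_congr_ae (Eventually.of_forall fun r => ?_)
  simp only
  have hl := h.line r y
  rw [eq_div_iff h.norm_pos.ne', max_mul_of_nonneg _ _ h.norm_pos.le, zero_mul, mul_comm, hl,
    add_comm]

/-- Ehrhard: the cost of the margin is controlled by the quantile of its positivity set. -/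
lemma exists_quantile (h : Margin D u) {q : ℝ} (hq : 0 < q)
    (hmom : ‖u‖ * ∫ y, phi (h.gfun y) ∂(gauss n) = q) :
    ∃ G, Phi G = (gauss n).real {x | 0 < D x} ∧
      ∫ x, max (D x) 0 ∂(gauss n) ≤ phi G * Lfun G / q := by
  set U := ‖u‖ with hU
  have hU0 : 0 < U := h.norm_pos
  set P : ℝ → ℝ := fun t => ∫ y, Phi (h.gfun y - U * t) ∂(gauss n) with hP
  have hP01 : ∀ t, 0 < P t ∧ P t < 1 := by
    intro t
    refine ⟨?_, ?_⟩
    · refine (integral_pos_iff_support_of_nonneg (fun y => (Phi_pos _).le)
        (h.integrable_Phi _)).2 ?_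
      rw [Function.support_eq_preimage]
      have : (fun y => Phi (h.gfun y - U * t)) ⁻¹' {0}ᶜ = univ :=
        eq_univ_of_forall fun y => (Phi_pos _).ne'
      rw [this, measure_univ]
      exact one_pos
    · have h1 : 0 < ∫ y, (1 - Phi (h.gfun y - U * t)) ∂(gauss n) := by
        refine (integral_pos_iff_support_of_nonneg (fun y => sub_nonneg.2 (Phi_lt_one _).le)
          ((integrable_const _).sub (h.integrable_Phi _))).2 ?_
        rw [Function.support_eq_preimage]
        have : (fun y => 1 - Phi (h.gfun y - U * t)) ⁻¹' {0}ᶜ = univ :=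
          eq_univ_of_forall fun y => (sub_pos.2 (Phi_lt_one _)).ne'
        rw [this, measure_univ]
        exact one_pos
      rw [integral_sub (integrable_const _) (h.integrable_Phi _), integral_const, probReal_univ,
        one_smul] at h1
      show ∫ y, Phi (h.gfun y - U * t) ∂(gauss n) < 1
      linarith
  have hderiv : ∀ t, HasDerivAt P (-(U * ∫ y, phi (h.gfun y - U * t) ∂(gauss n))) t := by
    intro t
    have := (hasDerivAt_integral_of_dominated_loc_of_deriv_le (μ := gauss n) (x₀ := t)
      (F := fun t y => Phi (h.gfun y - U * t))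
      (F' := fun t y => -(U * phi (h.gfun y - U * t))) (bound := fun _ => U * phi 0)
      (s := univ) univ_mem
      (Eventually.of_forall fun t => (h.integrable_Phi _).aestronglyMeasurable)
      (h.integrable_Phi _)
      (((continuous_phi.comp (h.continuous_gfun.sub continuous_const)).const_mul
        U).neg.aestronglyMeasurable)
      (Eventually.of_forall fun y t _ => by
        rw [norm_neg, Real.norm_eq_abs, abs_mul, abs_of_pos hU0, abs_of_pos (phi_pos _)]
        exact mul_le_mul_of_nonneg_left (phi_le_phi_zero _) hU0.le)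
      (integrable_const _)
      (Eventually.of_forall fun y t _ => by
        have h1 : HasDerivAt (fun t => h.gfun y - U * t) (-U) t := by
          simpa using ((hasDerivAt_id t).const_mul U).const_sub (h.gfun y)
        exact ((hasDerivAt_Phi _).comp t h1).congr_deriv (by ring))).2
    refine this.congr_deriv ?_
    rw [integral_neg, integral_const_mul]
  have hP0 : P 0 = (gauss n).real {x | 0 < D x} := by
    rw [h.measure_gt 0]
  obtain ⟨G, hG⟩ := exists_Phi_eq (hP01 0).1 (hP01 0).2
  refine ⟨G, hG.trans hP0, ?_⟩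
  set s := q / phi G with hs
  have hs0 : 0 < s := div_pos hq (phi_pos G)
  -- concavity of the quantile of `P`
  have hkey : ∀ t, 0 ≤ t → P t ≤ Phi (G - s * t) := by
    intro t ht
    obtain ⟨Gt, hGt⟩ := exists_Phi_eq (hP01 t).1 (hP01 t).2
    obtain ⟨L, hL0, hL⟩ := h.gfun_lip
    have hlow : ∀ l, 0 < l → l < 1 → Phi (l * Gt + (1 - l) * G) ≤ P (l * t) := by
      intro l hl0 hl1
      refine ehrhard_integral (fun y => h.gfun y - U * t) (fun y => h.gfun y - U * 0)
        (fun y => h.gfun y - U * (l * t)) L (fun x y => by simpa using hL x y)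
        (fun x y => by simpa using hL x y) (fun x y => by simpa using hL x y) l hl0 hl1
        (fun a b => ?_) Gt G hGt hG
      have := h.gfun_conc a b hl0.le hl1.le
      linarith
    have d1 : HasDerivAt (fun l => P (l * t)) (-q * t) 0 := by
      have := (hderiv (0 * t)).comp (0:ℝ) ((hasDerivAt_id (0:ℝ)).mul_const t)
      refine this.congr_deriv ?_
      rw [zero_mul, mul_zero]
      simp only [sub_zero, one_mul]
      rw [hmom]
    have d2 : HasDerivAt (fun l => Phi (l * Gt + (1 - l) * G)) (phi G * (Gt - G)) 0 := by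
      have e : (fun l : ℝ => l * Gt + (1 - l) * G) = fun l => G + l * (Gt - G) := by
        funext l; ring
      have h2 : HasDerivAt (fun l : ℝ => G + l * (Gt - G)) (Gt - G) 0 := by
        simpa using ((hasDerivAt_id (0:ℝ)).mul_const (Gt - G)).const_add G
      have h3 := (hasDerivAt_Phi (G + 0 * (Gt - G))).comp (0:ℝ) h2
      rw [zero_mul, add_zero] at h3
      simp only [Function.comp_def] at h3
      refine h3.congr_of_eventuallyEq (Eventually.of_forall fun l => ?_)
      simp only
      congr 1
      ring
    have hle : phi G * (Gt - G) ≤ -q * t := by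
      have d := d1.sub d2
      have ht' : Tendsto (slope (fun l => P (l * t) - Phi (l * Gt + (1 - l) * G)) 0) (𝓝[>] 0)
          (𝓝 (-q * t - phi G * (Gt - G))) :=
        (hasDerivAt_iff_tendsto_slope.1 d).mono_left
          (nhdsWithin_mono _ fun l hl => ne_of_gt hl)
      have : 0 ≤ -q * t - phi G * (Gt - G) := by
        refine ge_of_tendsto ht' ?_
        filter_upwards [Ioo_mem_nhdsGT one_pos] with l hl
        rw [slope_def_field]
        have e0 : P (0 * t) - Phi (0 * Gt + (1 - 0) * G) = 0 := by simp [hG]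
        rw [e0, sub_zero, sub_zero]
        exact div_nonneg (sub_nonneg.2 (hlow l hl.1 hl.2)) hl.1.le
      linarith
    rw [← hGt]
    refine Phi_strictMono.monotone ?_
    have hp := phi_pos G
    have : Gt - G ≤ -(q * t) / phi G := by rw [le_div_iff₀ hp]; linarith
    have e : s * t = q * t / phi G := by rw [hs]; field_simp
    rw [neg_div] at this
    linarith
  -- integrate
  set H : ℝ → ℝ := fun t => (∫ y, Lfun (h.gfun y - U * t) ∂(gauss n)) / U with hH
  have hH' : ∀ t, HasDerivAt H (-P t) t := by
    intro t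
    have := (hasDerivAt_integral_of_dominated_loc_of_deriv_le (μ := gauss n) (x₀ := t)
      (F := fun t y => Lfun (h.gfun y - U * t))
      (F' := fun t y => -(U * Phi (h.gfun y - U * t))) (bound := fun _ => U)
      (s := univ) univ_mem
      (Eventually.of_forall fun t => h.integrable_Lfun.aestronglyMeasurable)
      h.integrable_Lfun
      (((h.integrable_Phi _).const_mul U).neg.aestronglyMeasurable)
      (Eventually.of_forall fun y t _ => by
        rw [norm_neg, Real.norm_eq_abs, abs_mul, abs_of_pos hU0, abs_of_pos (Phi_pos _)]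
        exact mul_le_of_le_one_right hU0.le (Phi_lt_one _).le)
      (integrable_const _)
      (Eventually.of_forall fun y t _ => by
        have h1 : HasDerivAt (fun t => h.gfun y - U * t) (-U) t := by
          simpa using ((hasDerivAt_id t).const_mul U).const_sub (h.gfun y)
        exact ((hasDerivAt_Lfun _).comp t h1).congr_deriv (by ring))).2
    refine (this.div_const U).congr_deriv ?_
    rw [integral_neg, integral_const_mul]
    field_simp
    rfl
  set W : ℝ → ℝ := fun t => H t - Lfun (G - s * t) / s with hW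
  have hW' : ∀ t, HasDerivAt W (-P t + Phi (G - s * t)) t := by
    intro t
    have h1 : HasDerivAt (fun y => G - s * y) (-s) t := by
      simpa using ((hasDerivAt_id t).const_mul s).const_sub G
    have h2 := ((hasDerivAt_Lfun _).comp t h1).div_const s
    refine ((hH' t).sub h2).congr_deriv ?_
    field_simp
    ring
  have hWmono : MonotoneOn W (Ici 0) := by
    refine monotoneOn_of_hasDerivWithinAt_nonneg (convex_Ici 0)
      (fun t _ => (hW' t).continuousAt.continuousWithinAt)
      (fun t _ => (hW' t).hasDerivWithinAt) ?_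
    intro t ht
    rw [interior_Ici] at ht
    linarith [hkey t (le_of_lt ht)]
  have hHlim : Tendsto H atTop (𝓝 0) := by
    have : Tendsto (fun t => ∫ y, Lfun (h.gfun y - U * t) ∂(gauss n)) atTop
        (𝓝 (∫ _y, (0:ℝ) ∂(gauss n))) := by
      refine tendsto_integral_filter_of_dominated_convergence (fun y => Lfun (h.gfun y - 0))
        (Eventually.of_forall fun t => h.integrable_Lfun.aestronglyMeasurable) ?_
        h.integrable_Lfun (Eventually.of_forall fun y => ?_)
      · filter_upwards [eventually_ge_atTop (0:ℝ)] with t ht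
        refine Eventually.of_forall fun y => ?_
        rw [Real.norm_eq_abs, abs_of_nonneg (Lfun_nonneg _)]
        exact Lfun_strictMono.monotone (by nlinarith)
      · refine Lfun_tendsto_atBot.comp ?_
        have : Tendsto (fun t => -(U * t)) atTop atBot :=
          tendsto_neg_atTop_atBot.comp (tendsto_id.const_mul_atTop hU0)
        exact (tendsto_atBot_add_const_left atTop (h.gfun y) this).congr fun t => by ring
    rw [integral_zero] at this
    simpa [hH] using this.div_const U
  have hW0 : W 0 ≤ 0 := by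
    refine ge_of_tendsto hHlim ?_
    filter_upwards [eventually_ge_atTop (0:ℝ)] with T hT
    refine (hWmono self_mem_Ici hT hT).trans ?_
    simp only [hW]
    linarith [div_nonneg (Lfun_nonneg (G - s * T)) hs0.le]
  rw [h.integral_pos_part]
  have e : Lfun G / s = phi G * Lfun G / q := by rw [hs]; field_simp
  simp only [hW, hH, mul_zero, sub_zero] at hW0
  linarith

end Margin

section bad

variable {k : ℕ} [NeZero k] {v : Fin k → Space n}

lemma Bad.nonempty_others (hv : Bad v) (a : Fin k) : Nonempty {i : Fin k // i ≠ a} := by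
  obtain ⟨b, hb⟩ : ∃ b, b ≠ a := by
    have := hv.four_le
    exact Fintype.exists_ne_of_one_lt_card (by simp; omega) a
  exact ⟨⟨b, hb⟩⟩

/-- The strict argmax cell of index `a`. -/
def strictCell (v : Fin k → Space n) (a : Fin k) : Set (Space n) :=
  {x | ∀ j, j ≠ a → ⟪v j, x⟫ < ⟪v a, x⟫}

/-- The Gaussian measure of a strict cell. -/
noncomputable def cellMass (v : Fin k → Space n) (a : Fin k) : ℝ := (gauss n).real (strictCell v a)

lemma measurableSet_strictCell (v : Fin k → Space n) (a : Fin k) :
    MeasurableSet (strictCell v a) := by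
  rw [show strictCell v a = ⋂ j, {x | j ≠ a → ⟪v j, x⟫ < ⟪v a, x⟫} from
    Set.ext fun x => by simp [strictCell]]
  refine MeasurableSet.iInter fun j => ?_
  by_cases h : j = a
  · simp [h]
  · simp only [ne_eq, h, not_false_eq_true, forall_const]
    exact measurableSet_lt (by fun_prop) (by fun_prop)

/-- Difference between `⟪v a, x⟫` and the maximum over the other vectors. -/
noncomputable def margin (v : Fin k → Space n) (a : Fin k) [Nonempty {i : Fin k // i ≠ a}]
    (x : Space n) : ℝ :=
  ⟪v a, x⟫ - maxOver (fun i : {i : Fin k // i ≠ a} => ⟪v i, x⟫)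

variable (a : Fin k) [Nonempty {i : Fin k // i ≠ a}]

lemma strictCell_eq (v : Fin k → Space n) : strictCell v a = {x | 0 < margin v a x} := by
  ext x
  simp only [strictCell, margin, mem_setOf_eq, sub_pos]
  constructor
  · intro h
    obtain ⟨i, hi⟩ := exists_eq_maxOver fun i : {i : Fin k // i ≠ a} => ⟪v i, x⟫
    rw [← hi]
    exact h i i.2
  · exact fun h j hj => lt_of_le_of_lt (le_maxOver (fun i : {i : Fin k // i ≠ a} => ⟪v i, x⟫) ⟨j, hj⟩) h

lemma Bad.margin_dual (hv : Bad v) :
    ∃ u : Space n, Margin (margin v a) u ∧ ⟪u, v a⟫ = 1 - 1 / k := by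
  obtain ⟨u, hu⟩ := hv.exists_dual a
  have hua : ⟪u, v a⟫ = 1 - 1 / k := by simpa using hu a
  refine ⟨u, ⟨?_, ?_, ?_, ?_⟩, hua⟩
  · intro h
    rw [h, inner_zero_left] at hua
    have hk : (4:ℝ) ≤ k := by exact_mod_cast hv.four_le
    have : 1 / (k:ℝ) ≤ 1 / 4 := one_div_le_one_div_of_le (by norm_num) hk
    linarith
  · intro x t
    have h1 : ∀ j : {i : Fin k // i ≠ a}, ⟪v j, x + t • u⟫ = ⟪v j, x⟫ + t * (-1 / k) := by
      intro j
      rw [inner_add_right, real_inner_smul_right, real_inner_comm u (v j), hu j, if_neg j.2]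
      ring
    simp only [margin, h1, maxOver_add_const, inner_add_right, real_inner_smul_right]
    rw [real_inner_comm u (v a), hua]
    ring
  · intro x y l h0 h1
    have := maxOver_convex (fun i : {i : Fin k // i ≠ a} => ⟪v i, x⟫)
      (fun i : {i : Fin k // i ≠ a} => ⟪v i, y⟫) h0 h1
    simp only [margin, inner_add_right, real_inner_smul_right] at this ⊢
    linarith
  · refine ⟨‖v a‖ + ∑ i : {i : Fin k // i ≠ a}, ‖v i‖, by positivity, fun x y => ?_⟩
    have h1 : |⟪v a, x⟫ - ⟪v a, y⟫| ≤ ‖v a‖ * ‖x - y‖ := by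
      rw [← inner_sub_right]; exact abs_real_inner_le_norm _ _
    have h2 : |maxOver (fun i : {i : Fin k // i ≠ a} => ⟪v i, x⟫) -
        maxOver (fun i : {i : Fin k // i ≠ a} => ⟪v i, y⟫)| ≤
        (∑ i : {i : Fin k // i ≠ a}, ‖v i‖) * ‖x - y‖ := by
      refine (abs_maxOver_sub_le _ _).trans ?_
      rw [Finset.sum_mul]
      exact Finset.sum_le_sum fun i _ => by
        rw [← inner_sub_right]; exact abs_real_inner_le_norm _ _
    simp only [margin, add_mul]
    rw [show ⟪v a, x⟫ - maxOver (fun i : {i : Fin k // i ≠ a} => ⟪v i, x⟫) -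
      (⟪v a, y⟫ - maxOver (fun i : {i : Fin k // i ≠ a} => ⟪v i, y⟫)) =
      (⟪v a, x⟫ - ⟪v a, y⟫) - (maxOver (fun i : {i : Fin k // i ≠ a} => ⟪v i, x⟫) -
        maxOver (fun i : {i : Fin k // i ≠ a} => ⟪v i, y⟫)) by ring]
    exact (abs_sub _ _).trans (add_le_add h1 h2)

lemma Bad.cell_ae (hv : Bad v) {A : Fin k → Set (Space n)} (hd : Pairwise (Disjoint on A))
    (hu : (⋃ i, A i) = univ) (hmax : ∀ i, ∀ x ∈ A i, ⟪v i, x⟫ = maxOver (fun j => ⟪v j, x⟫)) :
    A a =ᵐ[gauss n] strictCell v a := by
  obtain ⟨u, hm, -⟩ := hv.margin_dual a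
  have h0 : (gauss n) {x | margin v a x = 0} = 0 :=
    (measureReal_eq_zero_iff (measure_ne_top _ _)).1 hm.measure_eq_zero
  rw [ae_eq_set]
  refine ⟨measure_mono_null ?_ h0, ?_⟩
  · intro x ⟨hx, hx'⟩
    rw [strictCell_eq, mem_setOf_eq, not_lt] at hx'
    refine le_antisymm hx' ?_
    simp only [margin, sub_nonneg]
    rw [hmax a x hx]
    exact maxOver_le fun i => le_maxOver (fun j => ⟪v j, x⟫) i.1
  · rw [Set.diff_eq_empty.2, measure_empty]
    intro x hx
    obtain ⟨i, hi⟩ := mem_iUnion.1 (hu ▸ mem_univ x)
    by_cases hia : i = a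
    · exact hia ▸ hi
    · have h1 := hx i hia
      rw [hmax i x hi] at h1
      exact absurd h1 (not_lt.2 (le_maxOver (fun j => ⟪v j, x⟫) a))

lemma Bad.moment_strictCell (hv : Bad v) : moment (strictCell v a) = v a := by
  obtain ⟨A, hA, hd, hu, hmax⟩ := exists_argmax_cells v
  rw [← hv.moment_eq hA hd hu hmax a]
  exact setIntegral_congr_set (hv.cell_ae a hd hu hmax).symm

lemma Bad.psi_remove (hv : Bad v) :
    psi v = psi (fun i : {i : Fin k // i ≠ a} => v i) + ∫ x, max (margin v a x) 0 ∂(gauss n) := by
  obtain ⟨u, hm, -⟩ := hv.margin_dual a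
  rw [psi, psi, ← integral_add (integrable_maxInner fun i : {i : Fin k // i ≠ a} => v i)
    hm.integrable.pos_part]
  refine integral_congr_ae (Eventually.of_forall fun x => ?_)
  simp only [margin]
  set M := maxOver fun i : {i : Fin k // i ≠ a} => ⟪v i, x⟫ with hM
  have hM' : ∀ j, j ≠ a → ⟪v j, x⟫ ≤ M := fun j hj =>
    le_maxOver (fun i : {i : Fin k // i ≠ a} => ⟪v i, x⟫) ⟨j, hj⟩
  rcases le_total ⟪v a, x⟫ M with h | h
  · rw [max_eq_right (by linarith), add_zero]
    refine le_antisymm (maxOver_le fun j => ?_)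
      (maxOver_le fun i => le_maxOver (fun j => ⟪v j, x⟫) i.1)
    by_cases hj : j = a
    · exact hj ▸ h
    · exact hM' j hj
  · rw [max_eq_left (by linarith), add_sub_cancel]
    refine le_antisymm (maxOver_le fun j => ?_) (le_maxOver (fun j => ⟪v j, x⟫) a)
    by_cases hj : j = a
    · rw [hj]
    · exact (hM' j hj).trans h

end bad

lemma removal_arith {F e x U γ : ℝ} (hF : c2 < F) (h1 : (F - e) ^ 2 ≤ c2 * (F - γ * x))
    (hx : x ≤ phi 0 ^ 2) (he : 0 ≤ e) (heU : e ≤ γ * U) (hγ1 : 1 ≤ γ) (hγ2 : γ ≤ 4 / 3)
    (hU : 0 ≤ U) (hUc : U ≤ c2) : x ≤ 2 * U - U ^ 2 / c2 := by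
  have hc : 0 < c2 := by unfold c2; positivity
  have h9 := phi_zero_sq_c2
  rw [show 2 * U - U ^ 2 / c2 = (2 * U * c2 - U ^ 2) / c2 by field_simp, le_div_iff₀ hc]
  rcases le_total U (3 / 8 * c2) with h | h
  · have he2 : e ≤ c2 / 2 := by nlinarith
    have h2 : c2 * (γ * x) ≤ 2 * e * c2 - e ^ 2 := by
      nlinarith [mul_nonneg (sub_nonneg.2 hF.le) (by linarith : 0 ≤ F - 2 * e)]
    have h3 : 2 * e * c2 - e ^ 2 ≤ γ * (2 * U * c2 - U ^ 2) := by
      have h4 : 2 * e * c2 - e ^ 2 ≤ 2 * (γ * U) * c2 - (γ * U) ^ 2 := by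
        nlinarith [mul_nonneg (sub_nonneg.2 heU)
          (by nlinarith : 0 ≤ 2 * c2 - e - γ * U)]
      nlinarith [mul_nonneg (mul_nonneg (by linarith : 0 ≤ γ) (sub_nonneg.2 hγ1)) (sq_nonneg U)]
    nlinarith
  · nlinarith [mul_nonneg (sub_nonneg.2 h) (sub_nonneg.2 hUc)]

section bad2

variable {k : ℕ} [NeZero k] {v : Fin k → Space n}

/-- The bound on a single cell. -/
theorem Bad.cell (hv : Bad v) (a : Fin k) :
    0 ≤ ‖v a‖ ^ 2 ∧ ∃ G, Phi G = cellMass v a ∧ ‖v a‖ ^ 2 ≤ phi G ^ 2 ∧
      (phi G * Lfun G ≤ c2 → ‖v a‖ ^ 2 ≤ removalBound G) := by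
  haveI := hv.nonempty_others a
  obtain ⟨u, hm, hua⟩ := hv.margin_dual a
  have hk : (4:ℝ) ≤ k := by exact_mod_cast hv.four_le
  have hmom := hv.moment_strictCell a
  rw [strictCell_eq] at hmom
  have hq : 0 < 1 - 1 / (k:ℝ) := by
    have : 1 / (k:ℝ) ≤ 1 / 4 := one_div_le_one_div_of_le (by norm_num) hk
    linarith
  have hq' : ‖u‖ * ∫ y, phi (hm.gfun y) ∂(gauss n) = 1 - 1 / (k:ℝ) := by
    rw [← hm.inner_moment_pos, hmom, hua]
  obtain ⟨G, hG, he⟩ := hm.exists_quantile hq hq'
  rw [← strictCell_eq] at hG
  refine ⟨sq_nonneg _, G, hG, ?_, fun hUc => ?_⟩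
  · -- `‖v a‖ ≤ φ G`
    have hs : 0 < ‖v a‖ := norm_pos_iff.2 (hv.ne_zero a)
    set w : Space n := ‖v a‖⁻¹ • v a with hw
    have hw1 : ‖w‖ = 1 := by rw [hw, norm_smul, norm_inv, norm_norm, inv_mul_cancel₀ hs.ne']
    have hms := measurableSet_strictCell v a
    have hi : Integrable (fun x => ⟪w, x⟫ + G) (gauss n) := (integrable_inner w).add (integrable_const G)
    have h1 : ∫ x in strictCell v a, (⟪w, x⟫ + G) ∂(gauss n) ≤
        ∫ x, max (⟪w, x⟫ + G) 0 ∂(gauss n) := by
      refine (setIntegral_mono hi.integrableOn hi.pos_part.integrableOn fun x => le_max_left _ _).trans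
        (setIntegral_le_integral hi.pos_part (Eventually.of_forall fun x => le_max_right _ _))
    rw [integral_comp_inner w (f := fun r => max (r + G) 0) (by fun_prop), hw1] at h1
    simp only [one_mul] at h1
    rw [integral_posPart_add, integral_add (integrable_inner w).integrableOn
      (integrable_const G).integrableOn, ← inner_moment, hv.moment_strictCell a, setIntegral_const,
      smul_eq_mul, hw, real_inner_smul_left, real_inner_self_eq_norm_sq, Lfun] at h1
    have e1 : ‖v a‖⁻¹ * ‖v a‖ ^ 2 = ‖v a‖ := by field_simp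
    have hG' : Phi G = (gauss n).real (strictCell v a) := hG
    rw [e1, hG'] at h1
    nlinarith [phi_pos G, norm_nonneg (v a)]
  · set e := ∫ x, max (margin v a x) 0 ∂(gauss n) with he'
    have he0 : 0 ≤ e := integral_nonneg fun x => le_max_right _ _
    have hp := hv.psi_remove a
    have hrem := hv.removal a (e := e) (le_of_eq hp) (by
      have := psi_nonneg fun i : {i : Fin k // i ≠ a} => v i
      rw [← hv.psi_eq]
      linarith)
    have hσ : ‖v a‖ ^ 2 ≤ phi 0 ^ 2 := by
      have hs : 0 ≤ ‖v a‖ := norm_nonneg _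
      have h1 : ⟪v a, moment (strictCell v a)⟫ ≤ ∫ x, max ⟪v a, x⟫ 0 ∂(gauss n) := by
        rw [inner_moment]
        exact (setIntegral_mono (integrable_inner _).integrableOn
          (integrable_inner _).pos_part.integrableOn fun x => le_max_left _ _).trans
          (setIntegral_le_integral (integrable_inner _).pos_part
            (Eventually.of_forall fun x => le_max_right _ _))
      rw [hv.moment_strictCell a, real_inner_self_eq_norm_sq,
        integral_comp_inner (v a) (f := fun r => max r 0) (by fun_prop)] at h1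
      have e1 : (fun y : ℝ => max (‖v a‖ * y) 0) = fun y => ‖v a‖ * max (y + 0) 0 := by
        funext y; rw [mul_max_of_nonneg _ _ hs, mul_zero, add_zero]
      rw [e1, integral_const_mul, integral_posPart_add, Lfun, zero_mul, add_zero] at h1
      nlinarith [phi_pos 0]
    refine removal_arith (γ := (k:ℝ) / (k - 1)) hv.c2_lt hrem hσ he0 ?_ ?_ ?_
      (mul_nonneg (phi_nonneg G) (Lfun_nonneg G)) hUc
    · refine he.trans_eq ?_
      field_simp
    · rw [le_div_iff₀ (by linarith)]; linarith
    · rw [div_le_iff₀ (by linarith)]; linarith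

lemma Bad.sum_cellMass (hv : Bad v) : ∑ a, cellMass v a = 1 := by
  obtain ⟨A, hA, hd, hu, hmax⟩ := exists_argmax_cells v
  have : ∀ a, cellMass v a = (gauss n).real (A a) := fun a => by
    haveI := hv.nonempty_others a
    exact measureReal_congr (hv.cell_ae a hd hu hmax).symm
  simp only [this]
  rw [← measureReal_iUnion_fintype hd hA, hu, probReal_univ]

end bad2

end Vale.Agent.P226
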