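import Mathlib

/-!
Integer checker for linear-programming certificates in the propeller problem.
Units: probabilities and squared moments in `10⁻⁷`, multipliers in `10⁻⁴`.
-/

namespace Vale.Agent.P226

/-- On `[a, b]` the removal bound is at most the interpolation of `Ba, Bb`, and the cap bound at
most that of `Fa, Fb`. -/
structure Row where
  a : ℤ
  b : ℤ
  Ba : ℤ
  Bb : ℤ
  Fa : ℤ
  Fb : ℤ

/-- Multipliers (`cb` for the sum of bounds, `cf` for the hybrid bound, `nu` for total mass),
the ratio `r` bound for the small cells, and the three suprema of the linear forms. -/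
structure Wit where
  cb : ℤ
  cf : ℤ
  nu : ℤ
  r : ℤ
  v1 : ℤ
  v0 : ℤ
  v4 : ℤ

/-- Certificate tree. -/
inductive Cert : Type where
  | empty : Cert
  | excl (w : Wit) : Cert
  | keep (wR w1 w2 : Wit) : Cert
  | split4 (m : ℤ) (l h : Cert) : Cert
  | split5 (m : ℤ) (l h : Cert) : Cert

/-- Scale of probabilities and squared moments. -/
def certS : ℤ := 10000000

/-- Scale of multipliers. -/
def certM : ℤ := 10000

/-- Lower bound for `9 / (8π)` in units of `1 / certS`. -/
def certC2 : ℤ := 3580986

/-- Upper bound for the slope of the cap bound in units of `1 / certM`. -/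
def certLam : ℤ := 4904

/-- The linear form with coefficients `wb, cf, nu` is at most `v` at a clipped row endpoint. -/
def formLe (t : Row) (wb cf nu v z : ℤ) : Bool :=
  decide (wb * (t.Ba * (t.b - z) + t.Bb * (z - t.a)) + cf * (t.Fa * (t.b - z) + t.Fb * (z - t.a))
    + nu * z * (t.b - t.a) ≤ v * (t.b - t.a))

/-- `v` bounds the linear form on every row meeting `[lo, hi]`. -/
def supLe (rows : List Row) (lo hi wb cf nu v : ℤ) : Bool :=
  rows.all fun t => decide (t.b < lo) || decide (hi < t.a) ||
    (formLe t wb cf nu v (max t.a lo) && formLe t wb cf nu v (min t.b hi))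

/-- `r` bounds the ratio of the bound to the mass on `[0, h]`. -/
def ratioLe (rows : List Row) (h r : ℤ) : Bool :=
  rows.all fun t => decide (h < t.a) ||
    (decide (certM * (t.Ba * (t.b - t.a)) ≤ r * t.a * (t.b - t.a)) &&
      decide (certM * (t.Ba * (t.b - min t.b h) + t.Bb * (min t.b h - t.a))
        ≤ r * min t.b h * (t.b - t.a)))

/-- Check one weighted objective: `n1` of the top three cells carry weight `certM`, the fourth
and the small cells weight `kap`; the target is `target` in units `1 / (certM * certS)`. -/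
def checkWit (rows : List Row) (n1 : ℤ) (kap target : ℤ) (l4 h4 l5 h5 : ℤ) (w : Wit) : Bool :=
  decide (0 ≤ w.cb) && decide (0 ≤ w.cf) && decide (0 ≤ w.r) &&
  decide ((4 * kap + 4 * w.cb + 5 * w.cf) * w.r + 4 * w.cf * certLam + 4 * w.nu * certM ≤ 0) &&
  ratioLe rows h5 w.r &&
  (decide (n1 = 0) || supLe rows (max 1700000 l4) certS (certM + w.cb) w.cf w.nu w.v1) &&
  supLe rows (max 1700000 l4) certS w.cb w.cf w.nu w.v0 &&
  supLe rows l4 h4 (kap + w.cb) w.cf w.nu w.v4 &&
  decide ((n1 * w.v1 + (3 - n1) * w.v0 + w.v4) * (4 * certM)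
    + ((4 * kap + 4 * w.cb + 5 * w.cf) * w.r + 4 * w.cf * certLam + 4 * w.nu * certM) * l5
    - (w.cb + w.cf) * certC2 * (4 * certM) - 4 * certM * w.nu * certS ≤ 4 * certM * target)

/-- Check a tree on the box `[l4, h4] × [l5, h5]`. -/
def checkCert (rows : List Row) : Cert → ℤ → ℤ → ℤ → ℤ → Bool
  | .empty, _, h4, l5, _ => decide (h4 < l5)
  | .excl w, l4, h4, l5, h5 =>
      decide (0 < w.cb + w.cf) && checkWit rows 0 0 0 l4 h4 l5 (min h5 h4) w
  | .keep wR w1 w2, l4, h4, l5, h5 =>
      checkWit rows 0 certM (270 * certS) l4 h4 l5 (min h5 h4) wR &&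
      checkWit rows 1 13000 (1630 * certS) l4 h4 l5 (min h5 h4) w1 &&
      checkWit rows 2 20000 (3030 * certS) l4 h4 l5 (min h5 h4) w2
  | .split4 m l h, l4, h4, l5, h5 =>
      checkCert rows l l4 m l5 h5 && checkCert rows h m h4 l5 h5
  | .split5 m l h, l4, h4, l5, h5 =>
      checkCert rows l l4 h4 l5 m && checkCert rows h l4 h4 m h5

/-- Preliminary check: with all but two cells at most `0.17`, the sum of bounds is small. -/
def checkPre (rows : List Row) (r v : ℤ) : Bool :=
  decide (0 ≤ r) && ratioLe rows 1700000 r && supLe rows 0 certS certM 0 (-r) v &&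
  decide (2 * v + r * certS ≤ certM * certC2)

end Vale.Agent.P226
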