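import Vale.Agent.P226.Table

/-!
Soundness of the certificate: what a configuration of cells beating `c2` must satisfy.
-/

open Set

namespace Vale.Agent.P226

lemma linear_le_of_endpoints {α β lo hi z : ℝ} (h1 : lo ≤ z) (h2 : z ≤ hi)
    (hlo : α * lo + β ≤ 0) (hhi : α * hi + β ≤ 0) : α * z + β ≤ 0 := by
  rcases le_total 0 α with h | h
  · linarith [mul_le_mul_of_nonneg_left h2 h]
  · linarith [mul_le_mul_of_nonpos_left h1 h]

lemma supLe_sound {rows : List Row} {lo hi wb cf nu v : ℤ}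
    (h : supLe rows lo hi wb cf nu v = true) (hwb : 0 ≤ wb) (hcf : 0 ≤ cf) {t : Row}
    (ht : t ∈ rows) {p x : ℝ} (hc : Covers t p x) (hlo : (lo : ℝ) ≤ p * 10000000)
    (hhi : p * 10000000 ≤ (hi : ℝ)) :
    (wb : ℝ) * (x * 10000000) + (cf : ℝ) * (capBound p * 10000000)
      + (nu : ℝ) * (p * 10000000) ≤ (v : ℝ) := by
  obtain ⟨hab, ha, hb, hx, hf⟩ := hc
  have h1 := List.all_eq_true.1 h t ht
  simp only [Bool.or_eq_true, Bool.and_eq_true, decide_eq_true_eq, formLe] at h1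
  rcases h1 with (h1 | h1) | h1
  · have : (t.b : ℝ) < lo := Int.cast_lt.2 h1
    linarith
  · have : (hi : ℝ) < t.a := Int.cast_lt.2 h1
    linarith
  · obtain ⟨h1, h2⟩ := h1
    replace h1 := (Int.cast_le (R := ℝ)).2 h1
    replace h2 := (Int.cast_le (R := ℝ)).2 h2
    push_cast at h1 h2
    have hab' : (0 : ℝ) < (t.b : ℝ) - t.a := sub_pos.2 (Int.cast_lt.2 hab)
    generalize hz : p * 10000000 = z at *
    have key := linear_le_of_endpoints
      (α := (wb : ℝ) * ((t.Bb : ℝ) - t.Ba) + (cf : ℝ) * ((t.Fb : ℝ) - t.Fa) +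
        (nu : ℝ) * ((t.b : ℝ) - t.a))
      (β := (wb : ℝ) * ((t.Ba : ℝ) * t.b - (t.Bb : ℝ) * t.a) +
        (cf : ℝ) * ((t.Fa : ℝ) * t.b - (t.Fb : ℝ) * t.a) - (v : ℝ) * ((t.b : ℝ) - t.a))
      (max_le ha hlo) (le_min hb hhi) (by linarith) (by linarith)
    refine le_of_mul_le_mul_right ?_ hab'
    linarith [mul_le_mul_of_nonneg_left hx (Int.cast_nonneg (R := ℝ) hwb),
      mul_le_mul_of_nonneg_left hf (Int.cast_nonneg (R := ℝ) hcf)]

lemma ratioLe_sound {rows : List Row} {h' r : ℤ} (h : ratioLe rows h' r = true) {t : Row}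
    (ht : t ∈ rows) {p x : ℝ} (hc : Covers t p x) (hh : p * 10000000 ≤ (h' : ℝ)) :
    (certM : ℝ) * (x * 10000000) ≤ (r : ℝ) * (p * 10000000) := by
  obtain ⟨hab, ha, hb, hx, -⟩ := hc
  have h1 := List.all_eq_true.1 h t ht
  simp only [Bool.or_eq_true, Bool.and_eq_true, decide_eq_true_eq] at h1
  rcases h1 with h1 | h1
  · have : (h' : ℝ) < t.a := Int.cast_lt.2 h1
    linarith
  · obtain ⟨h1, h2⟩ := h1
    replace h1 := (Int.cast_le (R := ℝ)).2 h1
    replace h2 := (Int.cast_le (R := ℝ)).2 h2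
    push_cast at h1 h2
    have hab' : (0 : ℝ) < (t.b : ℝ) - t.a := sub_pos.2 (Int.cast_lt.2 hab)
    have hM : (0 : ℝ) ≤ (certM : ℝ) := by norm_num [certM]
    generalize hz : p * 10000000 = z at *
    have key := linear_le_of_endpoints
      (α := (certM : ℝ) * ((t.Bb : ℝ) - t.Ba) - (r : ℝ) * ((t.b : ℝ) - t.a))
      (β := (certM : ℝ) * ((t.Ba : ℝ) * t.b - (t.Bb : ℝ) * t.a))
      ha (le_min hb hh) (by linarith) (by linarith)
    refine le_of_mul_le_mul_right ?_ hab'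
    linarith [mul_le_mul_of_nonneg_left hx hM]

/-- A configuration: four largest cells with scaled masses `P`, squared moments `X`, cap bounds
`C`; small cells with total scaled mass `Q`, total squared moment `R`, largest mass `P5`. -/
structure Sys (rows : List Row) where
  P : Fin 4 → ℝ
  X : Fin 4 → ℝ
  C : Fin 4 → ℝ
  Q : ℝ
  R : ℝ
  P5 : ℝ
  sup : ∀ (b : Fin 4) {lo hi wb cf nu v : ℤ}, supLe rows lo hi wb cf nu v = true → 0 ≤ wb →
    0 ≤ cf → (lo : ℝ) ≤ P b → P b ≤ (hi : ℝ) →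
    (wb : ℝ) * X b + (cf : ℝ) * C b + (nu : ℝ) * P b ≤ (v : ℝ)
  small : ∀ {h r : ℤ}, ratioLe rows h r = true → P5 ≤ (h : ℝ) →
    (certM : ℝ) * R ≤ (r : ℝ) * Q
  P5_le_Q : P5 ≤ Q
  P5_le_P : P5 ≤ P 3
  total : P 0 + P 1 + P 2 + P 3 + Q = (certS : ℝ)
  moments : (certC2 : ℝ) < X 0 + X 1 + X 2 + X 3 + R
  hybrid : 4 * (certM : ℝ) * certC2 <
    4 * (certM : ℝ) * (C 0 + C 1 + C 2 + C 3) + 4 * (certLam : ℝ) * Q + 5 * (certM : ℝ) * R
  top : ∀ b : Fin 4, b ≠ 3 → (1700000 : ℝ) ≤ P b ∧ P 3 ≤ P b ∧ P b ≤ (certS : ℝ)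

/-- The box `[l4, h4] × [l5, h5]` contains the fourth and fifth masses. -/
structure InBox {rows : List Row} (s : Sys rows) (l4 h4 l5 h5 : ℤ) : Prop where
  l4 : (l4 : ℝ) ≤ s.P 3
  h4 : s.P 3 ≤ (h4 : ℝ)
  l5 : (l5 : ℝ) ≤ s.P5
  h5 : s.P5 ≤ (h5 : ℝ)

lemma checkWit_sound {rows : List Row} {n1 kap target l4 h4 l5 h5 : ℤ} {w : Wit}
    (h : checkWit rows n1 kap target l4 h4 l5 h5 w = true) (hk : 0 ≤ kap) (s : Sys rows)
    (hb : InBox s l4 h4 l5 h5) (e0 e1 e2 : Bool)
    (hn : n1 = (if e0 then 1 else 0) + (if e1 then 1 else 0) + (if e2 then 1 else 0)) :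
    4 * (certM : ℝ) * ((if e0 then (certM : ℝ) else 0) * s.X 0
        + (if e1 then (certM : ℝ) else 0) * s.X 1 + (if e2 then (certM : ℝ) else 0) * s.X 2
        + (kap : ℝ) * (s.X 3 + s.R))
      + 4 * (certM : ℝ) * (w.cb : ℝ) * (s.X 0 + s.X 1 + s.X 2 + s.X 3 + s.R - certC2)
      + (w.cf : ℝ) * (4 * (certM : ℝ) * (s.C 0 + s.C 1 + s.C 2 + s.C 3) + 4 * (certLam : ℝ) * s.Q
        + 5 * (certM : ℝ) * s.R - 4 * (certM : ℝ) * certC2)
      ≤ 4 * (certM : ℝ) * target := by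
  simp only [checkWit, Bool.and_eq_true, Bool.or_eq_true, decide_eq_true_eq] at h
  obtain ⟨⟨⟨⟨⟨⟨⟨⟨hcb, hcf⟩, hr⟩, hco⟩, hrat⟩, hv1⟩, hv0⟩, hv4⟩, hfin⟩ := h
  have hM : (0 : ℤ) ≤ certM := by norm_num [certM]
  have hMR : (0 : ℝ) ≤ (certM : ℝ) := Int.cast_nonneg hM
  replace hfin := (Int.cast_le (R := ℝ)).2 hfin
  replace hco := (Int.cast_le (R := ℝ)).2 hco
  push_cast at hfin hco
  have htop : ∀ (b : Fin 4) (e : Bool), b ≠ 3 → (e = true → n1 ≠ 0) →
      ((if e then (certM : ℝ) else 0) + (w.cb : ℝ)) * s.X b + (w.cf : ℝ) * s.C b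
        + (w.nu : ℝ) * s.P b ≤ if e then (w.v1 : ℝ) else (w.v0 : ℝ) := by
    intro b e hb3 he
    obtain ⟨t1, t2, t3⟩ := s.top b hb3
    have hlo : ((max 1700000 l4 : ℤ) : ℝ) ≤ s.P b := by
      push_cast
      exact max_le t1 (hb.l4.trans t2)
    cases e
    · have := s.sup b hv0 hcb hcf hlo t3
      simpa using this
    · have h' := hv1.resolve_left (he rfl)
      have := s.sup b h' (by omega) hcf hlo t3
      push_cast at this
      simpa using this
  have h3 := s.sup 3 hv4 (by omega) hcf hb.l4 hb.h4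
  push_cast at h3
  have hne : ∀ e : Bool, (e = e0 ∨ e = e1 ∨ e = e2) → e = true → n1 ≠ 0 := by
    intro e hor he
    subst he
    rw [hn]
    cases e0 <;> cases e1 <;> cases e2 <;> simp_all
  have h0 := htop 0 e0 (by decide) (hne e0 (Or.inl rfl))
  have h1 := htop 1 e1 (by decide) (hne e1 (Or.inr (Or.inl rfl)))
  have h2 := htop 2 e2 (by decide) (hne e2 (Or.inr (Or.inr rfl)))
  have hn' : (if e0 then (w.v1 : ℝ) else w.v0) + (if e1 then (w.v1 : ℝ) else w.v0)
      + (if e2 then (w.v1 : ℝ) else w.v0) = (n1 : ℝ) * w.v1 + (3 - (n1 : ℝ)) * w.v0 := by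
    rw [hn]
    cases e0 <;> cases e1 <;> cases e2 <;> simp <;> ring
  have hR := s.small hrat hb.h5
  have hc : (0 : ℝ) ≤ 4 * (kap : ℝ) + 4 * (w.cb : ℝ) + 5 * (w.cf : ℝ) := by
    have h1 := Int.cast_nonneg (R := ℝ) hk
    have h2 := Int.cast_nonneg (R := ℝ) hcb
    have h3 := Int.cast_nonneg (R := ℝ) hcf
    linarith
  have hQ := mul_le_mul_of_nonpos_left (hb.l5.trans s.P5_le_Q) hco
  have hR' := mul_le_mul_of_nonneg_left hR hc
  have htot : (w.nu : ℝ) * (s.P 0 + s.P 1 + s.P 2 + s.P 3 + s.Q) = (w.nu : ℝ) * certS := by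
    rw [s.total]
  have hsum := mul_le_mul_of_nonneg_left
    ((add_le_add (add_le_add (add_le_add h0 h1) h2) h3).trans_eq
      (congrArg (· + (w.v4 : ℝ)) hn')) (show (0 : ℝ) ≤ 4 * (certM : ℝ) by linarith)
  linear_combination hsum + hR' + hQ + hfin - 4 * (certM : ℝ) * htot

/-- The conclusions of the certificate, in scaled units. -/
def Good {rows : List Row} (s : Sys rows) : Prop :=
  (certM : ℝ) * (s.X 3 + s.R) ≤ 270 * (certS : ℝ) ∧
  (∀ b : Fin 4, b ≠ 3 →
    (certM : ℝ) * s.X b + 13000 * (s.X 3 + s.R) ≤ 1630 * (certS : ℝ)) ∧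
  (∀ b c : Fin 4, b ≠ c → b ≠ 3 → c ≠ 3 →
    (certM : ℝ) * (s.X b + s.X c) + 20000 * (s.X 3 + s.R) ≤ 3030 * (certS : ℝ))

lemma obj_le {M W sB sF cb cf T : ℝ} (hM : 0 < M) (hcb : 0 ≤ cb) (hcf : 0 ≤ cf) (hB : 0 ≤ sB)
    (hF : 0 ≤ sF) (h : 4 * M * W + 4 * M * cb * sB + cf * sF ≤ 4 * M * T) : W ≤ T := by
  refine le_of_mul_le_mul_left (?_ : 4 * M * W ≤ 4 * M * T) (by linarith)
  have h1 : 0 ≤ 4 * M * cb * sB := by positivity
  have h2 : 0 ≤ cf * sF := mul_nonneg hcf hF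
  linarith

lemma keep_obj {rows : List Row} {n1 kap target l4 h4 l5 h5 : ℤ} {w : Wit}
    (h : checkWit rows n1 kap target l4 h4 l5 h5 w = true) (hk : 0 ≤ kap) (s : Sys rows)
    (hb : InBox s l4 h4 l5 h5) (e0 e1 e2 : Bool)
    (hn : n1 = (if e0 then 1 else 0) + (if e1 then 1 else 0) + (if e2 then 1 else 0)) :
    (if e0 then (certM : ℝ) else 0) * s.X 0 + (if e1 then (certM : ℝ) else 0) * s.X 1
        + (if e2 then (certM : ℝ) else 0) * s.X 2 + (kap : ℝ) * (s.X 3 + s.R) ≤ (target : ℝ) := by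
  have hs := checkWit_sound h hk s hb e0 e1 e2 hn
  simp only [checkWit, Bool.and_eq_true, decide_eq_true_eq] at h
  obtain ⟨⟨⟨⟨⟨⟨⟨⟨hcb, hcf⟩, -⟩, -⟩, -⟩, -⟩, -⟩, -⟩, -⟩ := h
  refine obj_le (by norm_num [certM]) (Int.cast_nonneg hcb) (Int.cast_nonneg hcf)
    (sub_nonneg.2 s.moments.le) (sub_nonneg.2 s.hybrid.le) hs

lemma checkCert_sound {rows : List Row} (s : Sys rows) :
    ∀ (c : Cert) (l4 h4 l5 h5 : ℤ), checkCert rows c l4 h4 l5 h5 = true →
      InBox s l4 h4 l5 h5 → Good s := by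
  intro c
  induction c with
  | empty =>
    intro l4 h4 l5 h5 h hb
    simp only [checkCert, decide_eq_true_eq] at h
    have : (h4 : ℝ) < l5 := Int.cast_lt.2 h
    linarith [hb.h4, hb.l5, s.P5_le_P]
  | excl w =>
    intro l4 h4 l5 h5 h hb
    simp only [checkCert, Bool.and_eq_true, decide_eq_true_eq] at h
    obtain ⟨hpos, hw⟩ := h
    have hb' : InBox s l4 h4 l5 (min h5 h4) :=
      ⟨hb.l4, hb.h4, hb.l5, by push_cast; exact le_min hb.h5 (s.P5_le_P.trans hb.h4)⟩
    have hs := checkWit_sound hw le_rfl s hb' false false false (by simp)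
    simp only [checkWit, Bool.and_eq_true, decide_eq_true_eq] at hw
    obtain ⟨⟨⟨⟨⟨⟨⟨⟨hcb, hcf⟩, -⟩, -⟩, -⟩, -⟩, -⟩, -⟩, -⟩ := hw
    simp only [Bool.false_eq_true, if_false, Int.cast_zero, zero_mul, add_zero, mul_zero,
      zero_add] at hs
    exfalso
    have hM : (0 : ℝ) < 4 * (certM : ℝ) := by norm_num [certM]
    have hB := sub_pos.2 s.moments
    have hF := sub_pos.2 s.hybrid
    have hcb' := Int.cast_nonneg (R := ℝ) hcb
    have hcf' := Int.cast_nonneg (R := ℝ) hcf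
    rcases lt_or_eq_of_le hcb with hlt | heq
    · have := mul_pos (mul_pos hM (Int.cast_pos (R := ℝ).2 hlt)) hB
      have := mul_nonneg hcf' hF.le
      linarith
    · have hlt : 0 < w.cf := by omega
      have := mul_pos (Int.cast_pos (R := ℝ).2 hlt) hF
      have := mul_nonneg (mul_nonneg hM.le hcb') hB.le
      linarith
  | keep wR w1 w2 =>
    intro l4 h4 l5 h5 h hb
    simp only [checkCert, Bool.and_eq_true] at h
    obtain ⟨⟨hR, h1⟩, h2⟩ := h
    have hb' : InBox s l4 h4 l5 (min h5 h4) :=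
      ⟨hb.l4, hb.h4, hb.l5, by push_cast; exact le_min hb.h5 (s.P5_le_P.trans hb.h4)⟩
    have hM : (0 : ℤ) ≤ certM := by norm_num [certM]
    refine ⟨?_, ?_, ?_⟩
    · have := keep_obj hR hM s hb' false false false (by simp)
      simpa using this
    · intro b hb3
      have a0 := keep_obj h1 (by norm_num) s hb' true false false (by simp)
      have a1 := keep_obj h1 (by norm_num) s hb' false true false (by simp)
      have a2 := keep_obj h1 (by norm_num) s hb' false false true (by simp)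
      fin_cases b <;> simp_all
    · intro b c hbc hb3 hc3
      have a0 := keep_obj h2 (by norm_num) s hb' true true false (by simp)
      have a1 := keep_obj h2 (by norm_num) s hb' true false true (by simp)
      have a2 := keep_obj h2 (by norm_num) s hb' false true true (by simp)
      simp only [Bool.false_eq_true, if_false, if_true, zero_mul, add_zero, zero_add,
        Int.cast_mul, Int.cast_ofNat] at a0 a1 a2
      fin_cases b <;> fin_cases c <;> simp_all <;> linarith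
  | split4 m l r ihl ihr =>
    intro l4 h4 l5 h5 h hb
    simp only [checkCert, Bool.and_eq_true] at h
    rcases le_total (s.P 3) (m : ℝ) with hm | hm
    · exact ihl _ _ _ _ h.1 ⟨hb.l4, hm, hb.l5, hb.h5⟩
    · exact ihr _ _ _ _ h.2 ⟨hm, hb.h4, hb.l5, hb.h5⟩
  | split5 m l r ihl ihr =>
    intro l4 h4 l5 h5 h hb
    simp only [checkCert, Bool.and_eq_true] at h
    rcases le_total s.P5 (m : ℝ) with hm | hm
    · exact ihl _ _ _ _ h.1 ⟨hb.l4, hb.h4, hb.l5, hm⟩
    · exact ihr _ _ _ _ h.2 ⟨hb.l4, hb.h4, hm, hb.h5⟩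

lemma capBound_le_add {p q : ℝ} (h0 : 0 ≤ p) (hpq : p ≤ q) (h1 : q ≤ 1) :
    capBound q ≤ capBound p + (4904 / 10000) * (q - p) := by
  set a := p * (1 - p) with ha
  set b := q * (1 - q) with hb
  have hk : 8 / Real.pi ≤ 2547 / 1000 := by
    rw [div_le_iff₀ Real.pi_pos]
    nlinarith [Real.pi_gt_d6]
  have hab : 0 ≤ b + a := by
    have := mul_nonneg h0 (show (0:ℝ) ≤ 1 - p by linarith)
    have := mul_nonneg (show (0:ℝ) ≤ q by linarith) (show (0:ℝ) ≤ 1 - q by linarith)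
    linarith
  have key : (1 - p - q) * (b + a) ≤ 19250 / 100000 := by
    rcases le_total (p + q) 1 with hs | hs
    · have h3 : b + a ≤ (1 - (1 - p - q) ^ 2) / 2 := by
        rw [ha, hb]; nlinarith [sq_nonneg (p - q)]
      have h4 := mul_le_mul_of_nonneg_left h3 (show (0:ℝ) ≤ 1 - p - q by linarith)
      nlinarith [sq_nonneg (1 - p - q - 577 / 1000),
        mul_nonneg (show (0:ℝ) ≤ 1 - p - q by linarith) (sq_nonneg (1 - p - q - 577 / 1000))]
    · nlinarith [mul_nonneg (show (0:ℝ) ≤ -(1 - p - q) by linarith) hab]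
  have hd : b ^ 2 - a ^ 2 = (q - p) * ((1 - p - q) * (b + a)) := by rw [ha, hb]; ring
  have hup : b ^ 2 - a ^ 2 ≤ (q - p) * (19250 / 100000) := by
    rw [hd]; exact mul_le_mul_of_nonneg_left key (by linarith)
  have hc : capBound q - capBound p = 8 / Real.pi * (b ^ 2 - a ^ 2) := by
    rw [capBound, capBound, ha, hb]; ring
  have hk0 : 0 ≤ 8 / Real.pi := by positivity
  have h5 := mul_le_mul_of_nonneg_left hup hk0
  have h6 := mul_le_mul_of_nonneg_right hk
    (mul_nonneg (show (0:ℝ) ≤ q - p by linarith) (show (0:ℝ) ≤ 19250 / 100000 by norm_num))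
  nlinarith

lemma certC2_le : (certC2 : ℝ) ≤ c2 * 10000000 := by
  rw [c2, div_mul_eq_mul_div, le_div_iff₀ (by positivity)]
  have := Real.pi_lt_d20
  norm_num [certC2] at this ⊢
  linarith

/-- The certificate: a configuration beating `c2` has small fourth and further cells, and no
dominant cell or pair of cells. -/
theorem propeller_certificate {ι : Type*} [Fintype ι] (p x p' : Fin 4 → ℝ) (q y : ι → ℝ)
    (hcell : ∀ b, CellBound (p b) (x b)) (hrest : ∀ i, CellBound (q i) (y i))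
    (hord : Antitone p) (hle : ∀ i, q i ≤ p 3) (hsum : ∑ b, p b + ∑ i, q i = 1)
    (hp' : ∀ b, p b ≤ p' b) (hsum' : ∑ b, p' b = 1) (hF : c2 < ∑ b, x b + ∑ i, y i)
    (hH : ∑ b, x b + ∑ i, y i ≤ ∑ b, capBound (p' b) + 5 / 4 * ∑ i, y i) :
    x 3 + ∑ i, y i ≤ 0.027 ∧ (∀ b : Fin 4, b ≠ 3 → x b + 1.3 * (x 3 + ∑ i, y i) ≤ 0.163) ∧
      (∀ b c : Fin 4, b ≠ c → b ≠ 3 → c ≠ 3 → x b + x c + 2 * (x 3 + ∑ i, y i) ≤ 0.303) := by
  have hp0 : ∀ b, 0 < p b := fun b => by
    obtain ⟨-, G, hG, -⟩ := hcell b; rw [← hG]; exact Phi_pos G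
  have hp1 : ∀ b, p b < 1 := fun b => by
    obtain ⟨-, G, hG, -⟩ := hcell b; rw [← hG]; exact Phi_lt_one G
  have hq0 : ∀ i, 0 ≤ q i := fun i => by
    obtain ⟨-, G, hG, -⟩ := hrest i; rw [← hG]; exact (Phi_pos G).le
  simp only [Fin.sum_univ_four] at hsum hsum' hF hH
  have h10 : p 1 ≤ p 0 := hord (by decide)
  have h21 : p 2 ≤ p 1 := hord (by decide)
  have h32 : p 3 ≤ p 2 := hord (by decide)
  choose t ht hcov using fun b => table_covers (hcell b)
  choose u hu hucov using fun i => table_covers (hrest i)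
  have hC2 := certC2_le
  have hM : (certM : ℝ) = 10000 := by norm_num [certM]
  have hS : (certS : ℝ) = 10000000 := by norm_num [certS]
  have hSq : ∑ i, q i * 10000000 = (∑ i, q i) * 10000000 := by rw [Finset.sum_mul]
  have hQnn : 0 ≤ ∑ i, q i := Finset.sum_nonneg fun i _ => hq0 i
  have small : ∀ {h r : ℤ}, ratioLe certRows h r = true → (∀ i, q i * 10000000 ≤ (h : ℝ)) →
      (certM : ℝ) * ((∑ i, y i) * 10000000) ≤ (r : ℝ) * ((∑ i, q i) * 10000000) := by
    intro h r hr hh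
    simp only [Finset.sum_mul, Finset.mul_sum]
    exact Finset.sum_le_sum fun i _ => ratioLe_sound hr (hu i) (hucov i) (hh i)
  have h17 : (1700000 : ℝ) ≤ p 2 * 10000000 := by
    by_contra hlt
    push Not at hlt
    have hpre := preLemma_ok
    simp only [checkPre, Bool.and_eq_true, decide_eq_true_eq] at hpre
    obtain ⟨⟨⟨-, hrat⟩, hsup⟩, hfin⟩ := hpre
    replace hfin := (Int.cast_le (R := ℝ)).2 hfin
    have a0 := supLe_sound hsup (by norm_num [certM]) le_rfl (ht 0) (hcov 0)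
      (by push_cast; nlinarith [hp0 0]) (by rw [hS]; nlinarith [hp1 0])
    have a1 := supLe_sound hsup (by norm_num [certM]) le_rfl (ht 1) (hcov 1)
      (by push_cast; nlinarith [hp0 1]) (by rw [hS]; nlinarith [hp1 1])
    have a2 := ratioLe_sound hrat (ht 2) (hcov 2) (by push_cast; linarith)
    have a3 := ratioLe_sound hrat (ht 3) (hcov 3) (by push_cast; linarith)
    have a4 := small hrat (fun i => by push_cast; nlinarith [hle i])
    norm_num [certM, certS, certC2] at a0 a1 a2 a3 a4 hfin hC2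
    linarith
  have hp'1 : ∀ b, p' b ≤ 1 := by
    have n0 := (hp0 0).le.trans (hp' 0)
    have n1 := (hp0 1).le.trans (hp' 1)
    have n2 := (hp0 2).le.trans (hp' 2)
    have n3 := (hp0 3).le.trans (hp' 3)
    intro b
    fin_cases b <;> simp <;> linarith
  have k0 := capBound_le_add (hp0 0).le (hp' 0) (hp'1 0)
  have k1 := capBound_le_add (hp0 1).le (hp' 1) (hp'1 1)
  have k2 := capBound_le_add (hp0 2).le (hp' 2) (hp'1 2)
  have k3 := capBound_le_add (hp0 3).le (hp' 3) (hp'1 3)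
  obtain ⟨P5, hP5q, hP5Q, hP53, hP50⟩ : ∃ P5 : ℝ, (∀ i, q i ≤ P5) ∧ P5 ≤ ∑ i, q i ∧ P5 ≤ p 3 ∧
      0 ≤ P5 := by
    by_cases hne : Nonempty ι
    · obtain ⟨i0, -, hi0⟩ := Finset.exists_max_image (Finset.univ : Finset ι) q Finset.univ_nonempty
      exact ⟨q i0, fun i => hi0 i (Finset.mem_univ i),
        Finset.single_le_sum (fun i _ => hq0 i) (Finset.mem_univ i0), hle i0, hq0 i0⟩
    · exact ⟨0, fun i => (hne ⟨i⟩).elim, hQnn, (hp0 3).le, le_rfl⟩
  let s : Sys certRows :=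
    { P := fun b => p b * 10000000
      X := fun b => x b * 10000000
      C := fun b => capBound (p b) * 10000000
      Q := (∑ i, q i) * 10000000
      R := (∑ i, y i) * 10000000
      P5 := P5 * 10000000
      sup := fun b {lo hi wb cf nu v} h hwb hcf hlo hhi =>
        supLe_sound h hwb hcf (ht b) (hcov b) hlo hhi
      small := fun {h r} hr hh => small hr fun i => by nlinarith [hP5q i]
      P5_le_Q := by nlinarith
      P5_le_P := by nlinarith
      total := by rw [hS]; linear_combination 10000000 * hsum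
      moments := by linarith
      hybrid := by
        norm_num [certM, certLam, certC2] at hC2 ⊢
        linarith
      top := fun b hb => by
        rw [hS]
        fin_cases b <;> simp at hb ⊢ <;>
          refine ⟨?_, ?_, ?_⟩ <;> linarith [hp1 0, hp1 1, hp1 2] }
  have hbox : InBox s 0 2500000 0 2500000 := by
    constructor <;> simp only [s] <;> push_cast <;> linarith [hp0 3]
  obtain ⟨g0, g1, g2⟩ := checkCert_sound s certTree 0 2500000 0 2500000 certTree_ok hbox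
  simp only [s, hM, hS] at g0 g1 g2
  refine ⟨by norm_num; linarith, fun b hb => ?_, fun b c hbc hb hc => ?_⟩
  · have := g1 b hb
    norm_num
    linarith
  · have := g2 b c hbc hb hc
    norm_num
    linarith

end Vale.Agent.P226
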