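import Vale.Agent.P226.GaussBasic

/-!
One-dimensional laws and orthogonal decomposition of the standard Gaussian measure.
-/

open MeasureTheory ProbabilityTheory Complex
open scoped RealInnerProductSpace

namespace Vale.Agent.P226

variable {n : ℕ}

/-- Standard Gaussian measure on `Space n`. -/
noncomputable abbrev gauss (n : ℕ) : Measure (Space n) := stdGaussian (Space n)

/-- Standard Gaussian measure on the line. -/
noncomputable abbrev gauss1 : Measure ℝ := gaussianReal 0 1

lemma inner_law (v : Space n) :
    (gauss n).map (fun x => ⟪v, x⟫) = gaussianReal 0 (Real.toNNReal (‖v‖ ^ 2)) := by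
  have h := IsGaussian.map_eq_gaussianReal (μ := gauss n) (innerSL ℝ v)
  rw [variance_dual_stdGaussian, innerSL_apply_norm, integral_strongDual_stdGaussian] at h
  exact h

lemma inner_law_eq_map (v : Space n) :
    (gauss n).map (fun x => ⟪v, x⟫) = gauss1.map (fun y => ‖v‖ * y) := by
  rw [inner_law, gaussianReal_map_const_mul]
  congr 1
  · simp
  · ext; simp

lemma integrable_inner (v : Space n) : Integrable (fun x => ⟪v, x⟫) (gauss n) :=
  IsGaussian.integrable_dual (gauss n) (innerSL ℝ v)

lemma integral_inner_eq_zero (v : Space n) : ∫ x, ⟪v, x⟫ ∂(gauss n) = 0 :=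
  integral_strongDual_stdGaussian (innerSL ℝ v)

lemma integral_comp_inner (v : Space n) {f : ℝ → ℝ} (hf : Continuous f) :
    ∫ x, f ⟪v, x⟫ ∂(gauss n) = ∫ y, f (‖v‖ * y) ∂gauss1 := by
  rw [← integral_map (Measurable.aemeasurable (by fun_prop)) hf.aestronglyMeasurable,
    inner_law_eq_map, integral_map (Measurable.aemeasurable (by fun_prop)) hf.aestronglyMeasurable]

lemma integrable_norm_gauss : Integrable (fun x : Space n => ‖x‖) (gauss n) :=
  (IsGaussian.integrable_id (μ := gauss n)).norm

lemma integrable_id1 : Integrable (fun y : ℝ => y) gauss1 :=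
  IsGaussian.integrable_id (μ := gauss1)

/-- Projection orthogonal to a unit vector. -/
noncomputable def orth (e x : Space n) : Space n := x - ⟪e, x⟫ • e

lemma continuous_orth (e : Space n) : Continuous (orth e) := by unfold orth; fun_prop

lemma inner_orth {e : Space n} (he : ‖e‖ = 1) (x : Space n) : ⟪e, orth e x⟫ = 0 := by
  simp [orth, inner_sub_right, real_inner_smul_right, real_inner_self_eq_norm_sq, he]

lemma orth_decomp (e x : Space n) : ⟪e, x⟫ • e + orth e x = x := by simp [orth]

lemma orth_add_smul {e : Space n} (he : ‖e‖ = 1) (x : Space n) (r : ℝ) :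
    orth e (x + r • e) = orth e x := by
  simp only [orth, inner_add_right, real_inner_smul_right, real_inner_self_eq_norm_sq, he]
  module

/-- `stdGaussian` is the law of `r • e + orth e y` for independent standard `r` and `y`. -/
lemma gauss_decomp {e : Space n} (he : ‖e‖ = 1) :
    (gauss1.prod (gauss n)).map (fun p => p.1 • e + orth e p.2) = gauss n := by
  have hm : Measurable (fun p : ℝ × Space n => p.1 • e + orth e p.2) :=
    ((continuous_fst.smul continuous_const).add ((continuous_orth e).comp continuous_snd)).measurable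
  apply Measure.ext_of_charFun
  ext t
  rw [charFun_apply, integral_map hm.aemeasurable (Measurable.aestronglyMeasurable (by fun_prop))]
  have h1 : ∀ p : ℝ × Space n, cexp ((⟪p.1 • e + orth e p.2, t⟫ : ℝ) * I) =
      cexp ((p.1 * ⟪e, t⟫ : ℝ) * I) * cexp ((⟪p.2, orth e t⟫ : ℝ) * I) := by
    intro p
    rw [← Complex.exp_add]
    congr 1
    have : ⟪p.1 • e + orth e p.2, t⟫ = p.1 * ⟪e, t⟫ + ⟪p.2, orth e t⟫ := by
      simp only [orth, inner_add_left, inner_sub_left, inner_sub_right, real_inner_smul_left,
        real_inner_smul_right, real_inner_comm p.2 e]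
      ring
    rw [this]
    push_cast
    ring
  simp_rw [h1]
  rw [integral_prod_mul (f := fun r : ℝ => cexp ((r * ⟪e, t⟫ : ℝ) * I))
    (g := fun y : Space n => cexp ((⟪y, orth e t⟫ : ℝ) * I)),
    ← charFun_apply, charFun_stdGaussian, charFun_stdGaussian]
  have h2 : (fun r : ℝ => cexp ((r * ⟪e, t⟫ : ℝ) * I)) =
      fun r : ℝ => cexp ((⟪e, t⟫ : ℝ) * r * I) := by
    funext r; push_cast; ring_nf
  rw [h2, ← charFun_apply_real, charFun_gaussianReal, ← Complex.exp_add]
  congr 1
  have h3 : ‖t‖ ^ 2 = ⟪e, t⟫ ^ 2 + ‖orth e t‖ ^ 2 := by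
    rw [orth, norm_sub_sq_real, real_inner_smul_right, norm_smul, he, real_inner_comm t e,
      Real.norm_eq_abs, mul_one, sq_abs]
    ring
  have h4 : (↑‖t‖ : ℂ) ^ 2 = (↑⟪e, t⟫ : ℂ) ^ 2 + (↑‖orth e t‖ : ℂ) ^ 2 := by exact_mod_cast h3
  rw [h4]
  push_cast
  ring

lemma integrable_decomp {e : Space n} (he : ‖e‖ = 1) {F : Space n → ℝ}
    (hF : Integrable F (gauss n)) :
    Integrable (fun p : ℝ × Space n => F (p.1 • e + orth e p.2)) (gauss1.prod (gauss n)) := by
  have hm : Measurable (fun p : ℝ × Space n => p.1 • e + orth e p.2) :=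
    ((continuous_fst.smul continuous_const).add ((continuous_orth e).comp continuous_snd)).measurable
  rw [← gauss_decomp he] at hF
  exact hF.comp_measurable hm

lemma integral_decomp {e : Space n} (he : ‖e‖ = 1) {F : Space n → ℝ}
    (hF : Integrable F (gauss n)) :
    ∫ x, F x ∂(gauss n) = ∫ y, ∫ r, F (r • e + orth e y) ∂gauss1 ∂(gauss n) := by
  have hm : Measurable (fun p : ℝ × Space n => p.1 • e + orth e p.2) :=
    ((continuous_fst.smul continuous_const).add ((continuous_orth e).comp continuous_snd)).measurable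
  have h := integrable_decomp he hF
  rw [← gauss_decomp he] at hF
  conv_lhs => rw [← gauss_decomp he]
  rw [integral_map hm.aemeasurable hF.aestronglyMeasurable]
  exact integral_prod_symm _ h

lemma integral_decomp' {e : Space n} (he : ‖e‖ = 1) {F : Space n → ℝ}
    (hF : Integrable F (gauss n)) :
    ∫ x, F x ∂(gauss n) = ∫ r, ∫ y, F (r • e + orth e y) ∂(gauss n) ∂gauss1 := by
  have hm : Measurable (fun p : ℝ × Space n => p.1 • e + orth e p.2) :=
    ((continuous_fst.smul continuous_const).add ((continuous_orth e).comp continuous_snd)).measurable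
  have h := integrable_decomp he hF
  rw [← gauss_decomp he] at hF
  conv_lhs => rw [← gauss_decomp he]
  rw [integral_map hm.aemeasurable hF.aestronglyMeasurable]
  exact integral_prod _ h

end Vale.Agent.P226
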