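import Mathlib

/-!
Shared definitions for the Gaussian propeller inequality (P226).
Gaussian measure: `ProbabilityTheory.stdGaussian (EuclideanSpace ℝ (Fin n))`.
-/

open MeasureTheory ProbabilityTheory
open scoped RealInnerProductSpace

namespace Vale.Agent.P226

/-- Euclidean space of dimension `n`. -/
abbrev Space (n : ℕ) := EuclideanSpace ℝ (Fin n)

/-- Standard normal density. -/
noncomputable def phi (x : ℝ) : ℝ := gaussianPDFReal 0 1 x

/-- Standard normal distribution function. -/
noncomputable def Phi (x : ℝ) : ℝ := ∫ t in Set.Iic x, phi t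

/-- `E (Y + a)₊` for a standard normal `Y`. -/
noncomputable def Lfun (a : ℝ) : ℝ := phi a + a * Phi a

/-- The propeller value `9 / (8π)`. -/
noncomputable def c2 : ℝ := 9 / (8 * Real.pi)

/-- Maximum of finitely many reals. -/
noncomputable def maxOver {ι : Type*} [Fintype ι] [Nonempty ι] (f : ι → ℝ) : ℝ :=
  Finset.univ.sup' Finset.univ_nonempty f

/-- Expected maximum of the Gaussian process `x ↦ ⟪v i, x⟫`. -/
noncomputable def psi {n : ℕ} {ι : Type*} [Fintype ι] [Nonempty ι] (v : ι → Space n) : ℝ :=
  ∫ x, maxOver (fun i => ⟪v i, x⟫) ∂(stdGaussian (Space n))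

/-- The dual functional: its supremum is the supremum of the sum of squared first moments. -/
noncomputable def J {n : ℕ} {ι : Type*} [Fintype ι] [Nonempty ι] (v : ι → Space n) : ℝ :=
  2 * psi v - ∑ i, ‖v i‖ ^ 2

/-- Removal bound for the squared first moment of a cell with Gaussian quantile `G`. -/
noncomputable def removalBound (G : ℝ) : ℝ :=
  2 * (phi G * Lfun G) - (phi G * Lfun G) ^ 2 / c2

/-- Cap bound on the squared first moment of a cone of measure `p` in three dimensions. -/
noncomputable def capBound (p : ℝ) : ℝ := 8 / Real.pi * p ^ 2 * (1 - p) ^ 2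

end Vale.Agent.P226
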