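import Vale.Agent.P226.GaussBasic

/-!
Gaussian averages in the `Phi` scale and their evolution under the heat flow.
-/

open MeasureTheory ProbabilityTheory Filter Set
open scoped Topology NNReal

namespace Vale.Agent.P226.Ehr

/-- An inverse of `Phi`. -/
noncomputable def Pinv : ℝ → ℝ := Function.invFun Phi

lemma Pinv_Phi (x : ℝ) : Pinv (Phi x) = x :=
  Function.leftInverse_invFun Phi_strictMono.injective x

lemma Phi_Pinv {p : ℝ} (h : p ∈ Ioo (0 : ℝ) 1) : Phi (Pinv p) = p :=
  Function.invFun_eq (exists_Phi_eq h.1 h.2)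

lemma Phi_mem (x : ℝ) : Phi x ∈ Ioo (0 : ℝ) 1 := ⟨Phi_pos x, Phi_lt_one x⟩

lemma Pinv_strictMonoOn : StrictMonoOn Pinv (Ioo (0 : ℝ) 1) := by
  intro a ha b hb hab
  by_contra h
  have := Phi_strictMono.monotone (not_lt.1 h)
  rw [Phi_Pinv ha, Phi_Pinv hb] at this
  linarith

lemma continuousAt_Pinv {p : ℝ} (hp : p ∈ Ioo (0 : ℝ) 1) : ContinuousAt Pinv p := by
  refine Pinv_strictMonoOn.continuousAt_of_image_mem_nhds (isOpen_Ioo.mem_nhds hp) ?_
  have : Pinv '' Ioo (0 : ℝ) 1 = univ :=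
    eq_univ_of_forall fun x => ⟨Phi x, Phi_mem x, Pinv_Phi x⟩
  rw [this]
  exact univ_mem

lemma hasDerivAt_Pinv {p : ℝ} (hp : p ∈ Ioo (0 : ℝ) 1) :
    HasDerivAt Pinv (phi (Pinv p))⁻¹ p := by
  refine HasDerivAt.of_local_left_inverse (continuousAt_Pinv hp) (hasDerivAt_Phi _)
    (phi_pos _).ne' ?_
  filter_upwards [isOpen_Ioo.mem_nhds hp] with q hq using Phi_Pinv hq

/-- Translation is a concave operation in the `Phi` scale. -/
lemma shift_tangent {d : ℝ} (hd : 0 ≤ d) (x a : ℝ) :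
    Phi (x + d) ≤ Phi (a + d) + phi (a + d) / phi a * (Phi x - Phi a) := by
  set r : ℝ → ℝ := fun t => phi (t + d) / phi t with hr
  let h : ℝ → ℝ := fun t => r a * Phi t - Phi (t + d)
  have hcomp : ∀ t, HasDerivAt (fun y => Phi (y + d)) (phi (t + d)) t := fun t =>
    (hasDerivAt_Phi (t + d)).comp_add_const t d
  have hder : ∀ t, HasDerivAt h (phi t * (r a - r t)) t := by
    intro t
    refine (((hasDerivAt_Phi t).const_mul (r a)).sub (hcomp t)).congr_deriv ?_
    simp only [hr]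
    field_simp [(phi_pos t).ne']
  have hre : ∀ t, r t = Real.exp (-t * d - d ^ 2 / 2) := by
    intro t
    simp only [hr, phi_eq]
    have hs : (Real.sqrt (2 * Real.pi))⁻¹ ≠ 0 := by positivity
    rw [mul_div_mul_left _ _ hs, ← Real.exp_sub]
    ring_nf
  have hmono : ∀ s t, s ≤ t → r t ≤ r s := by
    intro s t hst
    rw [hre, hre, Real.exp_le_exp]
    nlinarith
  have hc : Continuous h := continuous_iff_continuousAt.2 fun t => (hder t).continuousAt
  have hmin : h a ≤ h x := by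
    rcases le_total x a with hxa | hxa
    · have hm : AntitoneOn h (Iic a) := by
        refine antitoneOn_of_hasDerivWithinAt_nonpos (convex_Iic a) hc.continuousOn
          (fun t _ => (hder t).hasDerivWithinAt) ?_
        intro t ht
        rw [interior_Iic] at ht
        exact mul_nonpos_of_nonneg_of_nonpos (phi_nonneg t) (by linarith [hmono t a (le_of_lt ht)])
      exact hm hxa self_mem_Iic hxa
    · have hm : MonotoneOn h (Ici a) := by
        refine monotoneOn_of_hasDerivWithinAt_nonneg (convex_Ici a) hc.continuousOn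
          (fun t _ => (hder t).hasDerivWithinAt) ?_
        intro t ht
        rw [interior_Ici] at ht
        exact mul_nonneg (phi_nonneg t) (by linarith [hmono a t (le_of_lt ht)])
      exact hm self_mem_Ici hxa hxa
  simp only [h, hr] at hmin
  linarith

section avg

variable {Ω : Type*} [MeasurableSpace Ω] {μ : Measure Ω} [IsProbabilityMeasure μ]

/-- The Gaussian quantile of the average of `Phi ∘ h`. -/
noncomputable def avg (μ : Measure Ω) (h : Ω → ℝ) : ℝ := Pinv (∫ x, Phi (h x) ∂μ)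

lemma integrable_Phi_comp {h : Ω → ℝ} (hh : Measurable h) :
    Integrable (fun x => Phi (h x)) μ :=
  Integrable.of_bound (continuous_Phi.measurable.comp hh).aestronglyMeasurable 1
    (ae_of_all _ fun x => by
      rw [Real.norm_eq_abs, abs_of_pos (Phi_pos _)]
      exact (Phi_lt_one _).le)

lemma integral_Phi_mem {h : Ω → ℝ} (hh : Measurable h) :
    ∫ x, Phi (h x) ∂μ ∈ Ioo (0 : ℝ) 1 := by
  have hpos : ∀ k : Ω → ℝ, Measurable k → 0 < ∫ x, Phi (k x) ∂μ := by
    intro k hk
    rw [integral_pos_iff_support_of_nonneg (fun x => (Phi_pos _).le) (integrable_Phi_comp hk)]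
    have : Function.support (fun x => Phi (k x)) = univ :=
      eq_univ_of_forall fun x => (Phi_pos _).ne'
    rw [this, measure_univ]
    exact one_pos
  refine ⟨hpos h hh, ?_⟩
  have h1 := hpos (fun x => -h x) hh.neg
  simp only [Phi_neg] at h1
  rw [integral_sub (integrable_const _) (integrable_Phi_comp hh)] at h1
  simp only [integral_const, probReal_univ, smul_eq_mul, one_mul] at h1
  linarith

lemma Phi_avg {h : Ω → ℝ} (hh : Measurable h) : Phi (avg μ h) = ∫ x, Phi (h x) ∂μ :=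
  Phi_Pinv (integral_Phi_mem hh)

lemma avg_le_avg_add {h k : Ω → ℝ} (hh : Measurable h) (hk : Measurable k) {d : ℝ} (hd : 0 ≤ d)
    (hle : ∀ x, k x ≤ h x + d) : avg μ k ≤ avg μ h + d := by
  set G := avg μ h with hG
  have h1 : ∫ x, Phi (k x) ∂μ ≤
      ∫ x, (Phi (G + d) + phi (G + d) / phi G * (Phi (h x) - Phi G)) ∂μ := by
    refine integral_mono (integrable_Phi_comp hk) ?_ fun x =>
      (Phi_strictMono.monotone (hle x)).trans (shift_tangent hd (h x) G)
    exact (integrable_const _).add (((integrable_Phi_comp hh).sub (integrable_const _)).const_mul _)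
  have hI : Integrable (fun x => phi (G + d) / phi G * (Phi (h x) - Phi G)) μ :=
    ((integrable_Phi_comp hh).sub (integrable_const _)).const_mul _
  rw [integral_add (integrable_const _) hI, integral_const_mul,
    integral_sub (integrable_Phi_comp hh) (integrable_const _)] at h1
  simp only [integral_const, probReal_univ, smul_eq_mul, one_mul, hG, Phi_avg hh, sub_self,
    mul_zero, add_zero] at h1
  rw [← Phi_avg hk] at h1
  exact Phi_strictMono.le_iff_le.1 h1

lemma abs_avg_sub_avg {h k : Ω → ℝ} (hh : Measurable h) (hk : Measurable k) {d : ℝ}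
    (hd : ∀ x, |h x - k x| ≤ d) (hd0 : 0 ≤ d) : |avg μ h - avg μ k| ≤ d := by
  rw [abs_le]
  constructor
  · have := avg_le_avg_add (μ := μ) hh hk hd0 (fun x => by linarith [(abs_le.1 (hd x)).1])
    linarith
  · have := avg_le_avg_add (μ := μ) hk hh hd0 (fun x => by linarith [(abs_le.1 (hd x)).2])
    linarith

end avg

/-! ### The heat flow -/

/-- The heat kernel. -/
noncomputable def K (s y t : ℝ) : ℝ :=
  (Real.sqrt (2 * Real.pi * s))⁻¹ * Real.exp (-(t - y) ^ 2 / (2 * s))

/-- Heat evolution of `Phi ∘ f`. -/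
noncomputable def U (f : ℝ → ℝ) (s y : ℝ) : ℝ :=
  ∫ z, Phi (f (y + Real.sqrt s * z)) ∂gaussianReal 0 1

/-- First space derivative of `U`. -/
noncomputable def U1 (f : ℝ → ℝ) (s y : ℝ) : ℝ :=
  ∫ t, Phi (f t) * (K s y t * ((t - y) / s))

/-- Second space derivative of `U`. -/
noncomputable def U2 (f : ℝ → ℝ) (s y : ℝ) : ℝ :=
  ∫ t, Phi (f t) * (K s y t * ((t - y) ^ 2 / s ^ 2 - 1 / s))

/-- Heat evolution in the quantile scale. -/
noncomputable def W (f : ℝ → ℝ) (s y : ℝ) : ℝ :=
  avg (gaussianReal 0 1) fun z => f (y + Real.sqrt s * z)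

lemma hasDerivAt_K_y (s y t : ℝ) :
    HasDerivAt (fun y => K s y t) (K s y t * ((t - y) / s)) y := by
  have h1 : HasDerivAt (fun y => -(t - y) ^ 2 / (2 * s)) ((t - y) / s) y := by
    refine ((((hasDerivAt_id y).const_sub t).pow 2).neg.div_const (2 * s)).congr_deriv ?_
    simp only [id, Nat.cast_ofNat, Nat.add_one_sub_one, pow_one]
    field_simp
  refine (h1.exp.const_mul _).congr_deriv ?_
  simp only [K]
  ring

lemma hasDerivAt_K_yy (s y t : ℝ) :
    HasDerivAt (fun y => K s y t * ((t - y) / s))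
      (K s y t * ((t - y) ^ 2 / s ^ 2 - 1 / s)) y := by
  refine ((hasDerivAt_K_y s y t).mul (((hasDerivAt_id y).const_sub t).div_const s)).congr_deriv ?_
  simp only [id]
  ring

lemma hasDerivAt_K_s {s : ℝ} (hs : 0 < s) (y t : ℝ) :
    HasDerivAt (fun s => K s y t) (K s y t * ((t - y) ^ 2 / s ^ 2 - 1 / s) / 2) s := by
  have hpi : (0 : ℝ) < 2 * Real.pi * s := by positivity
  have h0 : HasDerivAt (fun s => Real.sqrt (2 * Real.pi * s))
      ((2 * Real.pi * 1) / (2 * Real.sqrt (2 * Real.pi * s))) s :=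
    ((hasDerivAt_id s).const_mul (2 * Real.pi)).sqrt hpi.ne'
  have hq : Real.sqrt (2 * Real.pi * s) ≠ 0 := (Real.sqrt_pos.2 hpi).ne'
  have h1 : HasDerivAt (fun s => -(t - y) ^ 2 / (2 * s)) ((t - y) ^ 2 / (2 * s ^ 2)) s := by
    refine ((hasDerivAt_const s (-(t - y) ^ 2)).div ((hasDerivAt_id s).const_mul 2)
      (mul_ne_zero two_ne_zero hs.ne')).congr_deriv ?_
    simp only [id]
    field_simp
    ring
  refine ((h0.inv hq).mul h1.exp).congr_deriv ?_
  simp only [K, Pi.inv_apply]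
  have e : Real.sqrt (2 * Real.pi * s) ^ 2 = 2 * Real.pi * s := Real.sq_sqrt hpi.le
  rw [e]
  field_simp
  ring

lemma kernel_bound {s0 : ℝ} (hs0 : 0 < s0) (y0 : ℝ) :
    ∃ B : ℝ → ℝ, Integrable B ∧ ∀ s ∈ Icc (s0 / 2) (2 * s0), ∀ y ∈ Icc (y0 - 1) (y0 + 1), ∀ t,
      K s y t ≤ B t ∧ ‖K s y t * ((t - y) / s)‖ ≤ B t ∧
      ‖K s y t * ((t - y) ^ 2 / s ^ 2 - 1 / s)‖ ≤ B t := by
  set c : ℝ := (Real.sqrt (Real.pi * s0))⁻¹ * Real.exp (1 / s0) *
    (1 + 2 / s0 + (2 / s0) ^ 2) with hc
  set b : ℝ := 1 / (8 * s0) with hb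
  refine ⟨fun t => c * (3 + 2 * (t - y0) ^ 2) * Real.exp (-b * (t - y0) ^ 2), ?_, ?_⟩
  · have hb0 : 0 < b := by positivity
    have h2 : Integrable fun x : ℝ => x ^ 2 * Real.exp (-b * x ^ 2) := by
      simpa [Real.rpow_natCast] using
        integrable_rpow_mul_exp_neg_mul_sq hb0 (s := (2 : ℕ)) (by norm_num)
    have h3 := (((integrable_exp_neg_mul_sq hb0).const_mul (3 * c)).add
      (h2.const_mul (2 * c))).comp_sub_right y0
    refine h3.congr (ae_of_all _ fun t => ?_)
    simp only [Pi.add_apply]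
    ring
  intro s hs y hy t
  have hs1 : 0 < s := lt_of_lt_of_le (by linarith) hs.1
  have hyy : (y - y0) ^ 2 ≤ 1 := by
    have : |y - y0| ≤ 1 := abs_le.2 ⟨by linarith [hy.1], by linarith [hy.2]⟩
    nlinarith [sq_abs (y - y0), abs_nonneg (y - y0)]
  have hlow : (t - y0) ^ 2 / 2 - 1 ≤ (t - y) ^ 2 := by nlinarith [sq_nonneg (t - y + (y0 - y))]
  have hup : (t - y) ^ 2 ≤ 2 * (t - y0) ^ 2 + 2 := by nlinarith [sq_nonneg (t - y0 + (y - y0))]
  have hexp : Real.exp (-(t - y) ^ 2 / (2 * s)) ≤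
      Real.exp (1 / s0) * Real.exp (-b * (t - y0) ^ 2) := by
    rw [← Real.exp_add, Real.exp_le_exp]
    have h4 : (t - y) ^ 2 / (4 * s0) ≤ (t - y) ^ 2 / (2 * s) :=
      div_le_div_of_nonneg_left (sq_nonneg _) (by positivity) (by linarith [hs.2])
    have h5 : ((t - y0) ^ 2 / 2 - 1) / (4 * s0) ≤ (t - y) ^ 2 / (4 * s0) :=
      div_le_div_of_nonneg_right hlow (by positivity)
    have h6 : ((t - y0) ^ 2 / 2 - 1) / (4 * s0) = b * (t - y0) ^ 2 - 1 / (4 * s0) := by
      rw [hb]; field_simp; ring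
    have h7 : 1 / (4 * s0) ≤ 1 / s0 := one_div_le_one_div_of_le hs0 (by linarith)
    rw [neg_div]
    linarith
  have hK0 : 0 ≤ K s y t := by unfold K; positivity
  set X := (Real.sqrt (Real.pi * s0))⁻¹ * (Real.exp (1 / s0) * Real.exp (-b * (t - y0) ^ 2)) with hX
  have hK : K s y t ≤ X := by
    refine mul_le_mul ?_ hexp (Real.exp_pos _).le (by positivity)
    refine inv_anti₀ (by positivity) (Real.sqrt_le_sqrt ?_)
    nlinarith [Real.pi_pos, hs.1]
  have hinv : 1 / s ≤ 2 / s0 := by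
    rw [div_le_div_iff₀ hs1 hs0]; linarith [hs.1]
  set Q := 3 + 2 * (t - y0) ^ 2 with hQ
  set R := 1 + 2 / s0 + (2 / s0) ^ 2 with hR
  have hQ1 : 1 ≤ Q := by nlinarith [sq_nonneg (t - y0)]
  have h2s : 0 ≤ 2 / s0 := by positivity
  have hkey : ∀ P : ℝ, |P| ≤ Q * R →
      ‖K s y t * P‖ ≤ c * Q * Real.exp (-b * (t - y0) ^ 2) := by
    intro P hP
    rw [Real.norm_eq_abs, abs_mul, abs_of_nonneg hK0]
    refine (mul_le_mul hK hP (abs_nonneg _) (by positivity)).trans_eq ?_
    rw [hc, hX, hR]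
    ring
  refine ⟨?_, hkey _ ?_, hkey _ ?_⟩
  · have h8 := hkey 1 (by rw [abs_one]; nlinarith [sq_nonneg (2 / s0)])
    rwa [mul_one, Real.norm_eq_abs, abs_of_nonneg hK0] at h8
  · have h9 : |t - y| ≤ Q := by
      nlinarith [sq_nonneg (|t - y| - 1), sq_abs (t - y), hup]
    rw [abs_div, abs_of_pos hs1, div_eq_mul_one_div]
    exact (mul_le_mul h9 hinv (by positivity) (by linarith)).trans
      (mul_le_mul_of_nonneg_left (by nlinarith [sq_nonneg (2 / s0)]) (by linarith))
  · have h10 : (t - y) ^ 2 / s ^ 2 ≤ Q * (2 / s0) ^ 2 := by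
      rw [div_eq_mul_one_div, ← one_div_pow]
      exact mul_le_mul (by linarith) (pow_le_pow_left₀ (by positivity) hinv 2) (by positivity)
        (by linarith)
    have h11 : 0 ≤ (t - y) ^ 2 / s ^ 2 := by positivity
    have h12 : 0 ≤ 1 / s := by positivity
    rw [abs_le]
    constructor <;> nlinarith [sq_nonneg (2 / s0)]

lemma continuous_K (s y : ℝ) : Continuous fun t => K s y t := by
  unfold K; fun_prop

variable {f : ℝ → ℝ}

lemma U_eq_kernel (hf : Continuous f) {s : ℝ} (hs : 0 < s) (y : ℝ) :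
    U f s y = ∫ t, Phi (f t) * K s y t := by
  have hm : (gaussianReal 0 1).map (fun z => y + Real.sqrt s * z) = gaussianReal y s.toNNReal := by
    have e : (fun z => y + Real.sqrt s * z) = (fun x => y + x) ∘ (fun z => Real.sqrt s * z) := rfl
    rw [e, ← Measure.map_map (by fun_prop) (by fun_prop), gaussianReal_map_const_mul,
      gaussianReal_map_const_add]
    congr 1
    · simp
    · ext; simp [Real.sq_sqrt hs.le, Real.coe_toNNReal s hs.le]
  have h1 : U f s y = ∫ t, Phi (f t) ∂((gaussianReal 0 1).map fun z => y + Real.sqrt s * z) := by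
    rw [integral_map (f := fun t => Phi (f t)) (by fun_prop)
      (continuous_Phi.comp hf).aestronglyMeasurable]
    rfl
  have hne : s.toNNReal ≠ 0 := (Real.toNNReal_pos.2 hs).ne'
  rw [h1, hm, integral_gaussianReal_eq_integral_smul (f := fun t => Phi (f t)) hne]
  refine integral_congr_ae (ae_of_all _ fun t => ?_)
  simp only [K, gaussianPDFReal, smul_eq_mul, Real.coe_toNNReal s hs.le]
  ring

lemma norm_Phi_mul_le (t x : ℝ) : ‖Phi t * x‖ ≤ ‖x‖ := by
  rw [norm_mul, Real.norm_eq_abs (Phi t), abs_of_pos (Phi_pos _)]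
  exact mul_le_of_le_one_left (norm_nonneg _) (Phi_lt_one _).le

lemma hasDerivAt_U_y (hf : Continuous f) {s : ℝ} (hs : 0 < s) (y0 : ℝ) :
    HasDerivAt (U f s) (U1 f s y0) y0 := by
  obtain ⟨B, hB, hBb⟩ := kernel_bound hs y0
  have hsI : s ∈ Icc (s / 2) (2 * s) := ⟨by linarith, by linarith⟩
  have hy0 : y0 ∈ Icc (y0 - 1) (y0 + 1) := ⟨by linarith, by linarith⟩
  have hPf : Continuous fun t => Phi (f t) := continuous_Phi.comp hf
  have h := hasDerivAt_integral_of_dominated_loc_of_deriv_le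
    (F := fun y t => Phi (f t) * K s y t) (F' := fun y t => Phi (f t) * (K s y t * ((t - y) / s)))
    (bound := B) (μ := volume) (x₀ := y0) (s := Icc (y0 - 1) (y0 + 1))
    (Icc_mem_nhds (by linarith) (by linarith))
    (Eventually.of_forall fun y => (hPf.mul (continuous_K s y)).aestronglyMeasurable)
    (hB.mono' (hPf.mul (continuous_K s y0)).aestronglyMeasurable (ae_of_all _ fun t =>
      (norm_Phi_mul_le _ _).trans (by
        rw [Real.norm_eq_abs, abs_of_nonneg (by unfold K; positivity)]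
        exact (hBb s hsI y0 hy0 t).1)))
    (hPf.mul ((continuous_K s y0).mul (by fun_prop))).aestronglyMeasurable
    (ae_of_all _ fun t y hy => (norm_Phi_mul_le _ _).trans (hBb s hsI y hy t).2.1) hB
    (ae_of_all _ fun t y _ => (hasDerivAt_K_y s y t).const_mul _)
  refine h.2.congr_of_eventuallyEq (Eventually.of_forall fun y => ?_)
  exact U_eq_kernel hf hs y

lemma hasDerivAt_U1_y (hf : Continuous f) {s : ℝ} (hs : 0 < s) (y0 : ℝ) :
    HasDerivAt (U1 f s) (U2 f s y0) y0 := by
  obtain ⟨B, hB, hBb⟩ := kernel_bound hs y0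
  have hsI : s ∈ Icc (s / 2) (2 * s) := ⟨by linarith, by linarith⟩
  have hy0 : y0 ∈ Icc (y0 - 1) (y0 + 1) := ⟨by linarith, by linarith⟩
  have hPf : Continuous fun t => Phi (f t) := continuous_Phi.comp hf
  exact (hasDerivAt_integral_of_dominated_loc_of_deriv_le
    (F := fun y t => Phi (f t) * (K s y t * ((t - y) / s)))
    (F' := fun y t => Phi (f t) * (K s y t * ((t - y) ^ 2 / s ^ 2 - 1 / s)))
    (bound := B) (μ := volume) (x₀ := y0) (s := Icc (y0 - 1) (y0 + 1))
    (Icc_mem_nhds (by linarith) (by linarith))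
    (Eventually.of_forall fun y =>
      (hPf.mul ((continuous_K s y).mul (by fun_prop))).aestronglyMeasurable)
    (hB.mono' (hPf.mul ((continuous_K s y0).mul (by fun_prop))).aestronglyMeasurable
      (ae_of_all _ fun t => (norm_Phi_mul_le _ _).trans (hBb s hsI y0 hy0 t).2.1))
    (hPf.mul ((continuous_K s y0).mul (by fun_prop))).aestronglyMeasurable
    (ae_of_all _ fun t y hy => (norm_Phi_mul_le _ _).trans (hBb s hsI y hy t).2.2) hB
    (ae_of_all _ fun t y _ => (hasDerivAt_K_yy s y t).const_mul _)).2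

lemma hasDerivAt_U_s (hf : Continuous f) {s0 : ℝ} (hs : 0 < s0) (y : ℝ) :
    HasDerivAt (fun s => U f s y) (U2 f s0 y / 2) s0 := by
  obtain ⟨B, hB, hBb⟩ := kernel_bound hs y
  have hsI : s0 ∈ Icc (s0 / 2) (2 * s0) := ⟨by linarith, by linarith⟩
  have hyI : y ∈ Icc (y - 1) (y + 1) := ⟨by linarith, by linarith⟩
  have hPf : Continuous fun t => Phi (f t) := continuous_Phi.comp hf
  have h := hasDerivAt_integral_of_dominated_loc_of_deriv_le
    (F := fun s t => Phi (f t) * K s y t)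
    (F' := fun s t => Phi (f t) * (K s y t * ((t - y) ^ 2 / s ^ 2 - 1 / s) / 2))
    (bound := B) (μ := volume) (x₀ := s0) (s := Icc (s0 / 2) (2 * s0))
    (Icc_mem_nhds (by linarith) (by linarith))
    (Eventually.of_forall fun s => (hPf.mul (continuous_K s y)).aestronglyMeasurable)
    (hB.mono' (hPf.mul (continuous_K s0 y)).aestronglyMeasurable (ae_of_all _ fun t =>
      (norm_Phi_mul_le _ _).trans (by
        rw [Real.norm_eq_abs, abs_of_nonneg (by unfold K; positivity)]
        exact (hBb s0 hsI y hyI t).1)))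
    (hPf.mul (((continuous_K s0 y).mul (by fun_prop)).div_const 2)).aestronglyMeasurable
    (ae_of_all _ fun t s hs' => (norm_Phi_mul_le _ _).trans (by
        rw [norm_div, Real.norm_ofNat]
        exact (div_le_self (norm_nonneg _) one_le_two).trans (hBb s hs' y hyI t).2.2)) hB
    (ae_of_all _ fun t s hs' => (hasDerivAt_K_s (lt_of_lt_of_le (by linarith) hs'.1) y t).const_mul _)
  have h2 : HasDerivAt (fun s => ∫ t, Phi (f t) * K s y t) (U2 f s0 y / 2) s0 := by
    refine h.2.congr_deriv ?_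
    rw [U2, ← integral_div]
    exact integral_congr_ae (ae_of_all _ fun t => by simp only; ring)
  refine h2.congr_of_eventuallyEq ?_
  filter_upwards [eventually_gt_nhds hs] with s hs'
  exact U_eq_kernel hf hs' y

lemma Phi_W (hf : Continuous f) (s y : ℝ) : Phi (W f s y) = U f s y :=
  Phi_avg (Continuous.measurable (by fun_prop))

lemma W_eq (f : ℝ → ℝ) (s y : ℝ) : W f s y = Pinv (U f s y) := rfl

lemma U_mem (hf : Continuous f) (s y : ℝ) : U f s y ∈ Ioo (0 : ℝ) 1 :=
  integral_Phi_mem (h := fun z => f (y + Real.sqrt s * z)) (Continuous.measurable (by fun_prop))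

/-- First space derivative of `W`. -/
noncomputable def W1 (f : ℝ → ℝ) (s y : ℝ) : ℝ := (phi (W f s y))⁻¹ * U1 f s y

/-- Second space derivative of `W`. -/
noncomputable def W2 (f : ℝ → ℝ) (s y : ℝ) : ℝ :=
  (phi (W f s y))⁻¹ * U2 f s y + W f s y * W1 f s y ^ 2

lemma hasDerivAt_W_y (hf : Continuous f) {s : ℝ} (hs : 0 < s) (y : ℝ) :
    HasDerivAt (W f s) (W1 f s y) y :=
  (hasDerivAt_Pinv (U_mem hf s y)).comp y (hasDerivAt_U_y hf hs y)

lemma hasDerivAt_W1_y (hf : Continuous f) {s : ℝ} (hs : 0 < s) (y : ℝ) :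
    HasDerivAt (W1 f s) (W2 f s y) y := by
  have hne := (phi_pos (W f s y)).ne'
  have h1 := ((hasDerivAt_phi (W f s y)).comp y (hasDerivAt_W_y hf hs y)).inv hne
  refine (h1.mul (hasDerivAt_U1_y hf hs y)).congr_deriv ?_
  simp only [W2, W1, Function.comp_def, Pi.inv_apply]
  field_simp
  ring

lemma hasDerivAt_W_s (hf : Continuous f) {s : ℝ} (hs : 0 < s) (y : ℝ) :
    HasDerivAt (fun s => W f s y) ((W2 f s y - W f s y * W1 f s y ^ 2) / 2) s := by
  refine ((hasDerivAt_Pinv (U_mem hf s y)).comp s (hasDerivAt_U_s hf hs y)).congr_deriv ?_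
  rw [← W_eq]
  simp only [W2]
  ring

lemma continuous_W (hf : Continuous f) : Continuous fun p : ℝ × ℝ => W f p.1 p.2 := by
  have hU : Continuous fun p : ℝ × ℝ => U f p.1 p.2 := by
    refine continuous_of_dominated (bound := fun _ => (1 : ℝ))
      (fun p => (continuous_Phi.comp (by fun_prop)).aestronglyMeasurable)
      (fun p => ae_of_all _ fun z => ?_) (integrable_const _)
      (ae_of_all _ fun z => continuous_Phi.comp (by fun_prop))
    rw [Real.norm_eq_abs, abs_of_pos (Phi_pos _)]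
    exact (Phi_lt_one _).le
  exact continuous_iff_continuousAt.2 fun p =>
    ContinuousAt.comp (g := Pinv) (f := fun q : ℝ × ℝ => U f q.1 q.2)
      (continuousAt_Pinv (U_mem hf p.1 p.2)) hU.continuousAt

lemma W_zero (f : ℝ → ℝ) (y : ℝ) : W f 0 y = f y := by
  rw [W_eq, U]
  simp [Pinv_Phi]

lemma abs_W_sub (hf : Continuous f) {L : ℝ} (hL : 0 ≤ L)
    (hfL : ∀ a b, |f a - f b| ≤ L * |a - b|) (s a b : ℝ) :
    |W f s a - W f s b| ≤ L * |a - b| := by
  refine abs_avg_sub_avg (Continuous.measurable (by fun_prop)) (Continuous.measurable (by fun_prop))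
    (fun z => ?_) (by positivity)
  refine (hfL _ _).trans_eq ?_
  ring_nf

lemma abs_W1_le (hf : Continuous f) {L : ℝ} (hL : 0 ≤ L)
    (hfL : ∀ a b, |f a - f b| ≤ L * |a - b|) {s : ℝ} (hs : 0 < s) (y : ℝ) :
    |W1 f s y| ≤ L := by
  rw [← (hasDerivAt_W_y hf hs y).deriv, ← Real.norm_eq_abs]
  exact norm_deriv_le_of_lip' hL (Eventually.of_forall fun x => abs_W_sub hf hL hfL s x y)

end Vale.Agent.P226.Ehr
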