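import Vale.Agent.P226.Defs

/-!
Calculus of the standard normal density and distribution function.
-/

open MeasureTheory ProbabilityTheory Filter Set
open scoped Topology

namespace Vale.Agent.P226

lemma phi_eq (x : ℝ) : phi x = (Real.sqrt (2 * Real.pi))⁻¹ * Real.exp (-x ^ 2 / 2) := by
  simp [phi, gaussianPDFReal]

lemma phi_pos (x : ℝ) : 0 < phi x := gaussianPDFReal_pos 0 1 x one_ne_zero

lemma phi_nonneg (x : ℝ) : 0 ≤ phi x := (phi_pos x).le

lemma phi_neg (x : ℝ) : phi (-x) = phi x := by
  rw [phi_eq, phi_eq, neg_sq]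

lemma hasDerivAt_phi (x : ℝ) : HasDerivAt phi (-x * phi x) x := by
  have h1 : HasDerivAt (fun y : ℝ => -y ^ 2 / 2) (-x) x := by
    have := ((hasDerivAt_pow 2 x).neg).div_const 2
    convert this using 1
    all_goals first | rfl | (push_cast; ring)
  have h2 := (h1.exp).const_mul (Real.sqrt (2 * Real.pi))⁻¹
  have e : phi = fun y => (Real.sqrt (2 * Real.pi))⁻¹ * Real.exp (-y ^ 2 / 2) := funext phi_eq
  rw [e]
  exact h2.congr_deriv (by ring)

lemma continuous_phi : Continuous phi :=
  continuous_iff_continuousAt.2 fun x => (hasDerivAt_phi x).continuousAt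

lemma integrable_phi : Integrable phi := integrable_gaussianPDFReal 0 1

lemma integral_phi : ∫ x, phi x = 1 := integral_gaussianPDFReal_eq_one 0 one_ne_zero

lemma phi_le_phi_zero (x : ℝ) : phi x ≤ phi 0 := by
  rw [phi_eq, phi_eq]
  refine mul_le_mul_of_nonneg_left (Real.exp_le_exp.2 ?_) (by positivity)
  nlinarith [sq_nonneg x]

lemma phi_zero : phi 0 = (Real.sqrt (2 * Real.pi))⁻¹ := by simp [phi_eq]

lemma phi_zero_sq : phi 0 ^ 2 = 1 / (2 * Real.pi) := by
  rw [phi_zero, inv_pow, Real.sq_sqrt (by positivity), one_div]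

lemma Phi_eq_measure (x : ℝ) : Phi x = (gaussianReal 0 1).real (Iic x) := by
  rw [measureReal_def, gaussianReal_apply_eq_integral _ one_ne_zero]
  rw [ENNReal.toReal_ofReal]
  · rfl
  · exact setIntegral_nonneg measurableSet_Iic fun y _ => phi_nonneg y

lemma integral_phi_smul (f : ℝ → ℝ) : ∫ x, f x ∂(gaussianReal 0 1) = ∫ x, phi x * f x := by
  simpa [phi, smul_eq_mul] using
    integral_gaussianReal_eq_integral_smul (μ := 0) (v := 1) (f := f) one_ne_zero

lemma hasDerivAt_Phi (x : ℝ) : HasDerivAt Phi (phi x) x := by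
  have h : HasDerivAt (fun y => ∫ t in (0:ℝ)..y, phi t) (phi x) x :=
    intervalIntegral.integral_hasDerivAt_right (integrable_phi.intervalIntegrable)
      (continuous_phi.stronglyMeasurable.stronglyMeasurableAtFilter) continuous_phi.continuousAt
  have e : Phi = fun y => Phi 0 + ∫ t in (0:ℝ)..y, phi t := by
    funext y
    have := intervalIntegral.integral_Iic_sub_Iic (a := (0:ℝ)) (b := y)
      integrable_phi.integrableOn integrable_phi.integrableOn
    simp only [Phi] at *
    linarith
  rw [e]
  exact h.const_add _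

lemma continuous_Phi : Continuous Phi :=
  continuous_iff_continuousAt.2 fun x => (hasDerivAt_Phi x).continuousAt

lemma Phi_strictMono : StrictMono Phi :=
  strictMono_of_hasDerivAt_pos hasDerivAt_Phi phi_pos

lemma Phi_tendsto_atBot : Tendsto Phi atBot (𝓝 0) := by
  have h := tendsto_cdf_atBot (gaussianReal 0 1)
  refine h.congr fun x => ?_
  rw [cdf_eq_real, Phi_eq_measure]

lemma Phi_tendsto_atTop : Tendsto Phi atTop (𝓝 1) := by
  have h := tendsto_cdf_atTop (gaussianReal 0 1)
  refine h.congr fun x => ?_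
  rw [cdf_eq_real, Phi_eq_measure]

lemma Phi_pos (x : ℝ) : 0 < Phi x := by
  have h1 : 0 ≤ Phi (x - 1) := by rw [Phi_eq_measure]; exact measureReal_nonneg
  exact lt_of_le_of_lt h1 (Phi_strictMono (by linarith))

lemma Phi_lt_one (x : ℝ) : Phi x < 1 := by
  have h1 : Phi (x + 1) ≤ 1 := by rw [Phi_eq_measure]; exact measureReal_le_one
  exact lt_of_lt_of_le (Phi_strictMono (by linarith)) h1

lemma exists_Phi_eq {p : ℝ} (h0 : 0 < p) (h1 : p < 1) : ∃ G, Phi G = p := by
  obtain ⟨a, ha⟩ := (Phi_tendsto_atBot.eventually (eventually_lt_nhds h0)).exists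
  obtain ⟨b, hb⟩ := (Phi_tendsto_atTop.eventually (eventually_gt_nhds h1)).exists
  exact (mem_range_of_exists_le_of_exists_ge continuous_Phi ⟨a, ha.le⟩ ⟨b, hb.le⟩)

lemma Phi_neg (x : ℝ) : Phi (-x) = 1 - Phi x := by
  have h : Phi (-x) = ∫ t in Ioi x, phi t := by
    rw [Phi, ← integral_comp_neg_Ioi x phi]
    simp only [phi_neg]
  have h2 := intervalIntegral.integral_Iic_add_Ioi (b := x) integrable_phi.integrableOn
    integrable_phi.integrableOn
  rw [integral_phi] at h2
  simp only [Phi] at *
  linarith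

lemma Phi_zero : Phi 0 = 1 / 2 := by
  have := Phi_neg 0
  rw [neg_zero] at this
  linarith

/-- Tangent inequality: concavity of the Gaussian isoperimetric profile. -/
lemma phi_tangent (x a : ℝ) : phi x + a * Phi x ≤ phi a + a * Phi a := by
  let h : ℝ → ℝ := fun t => phi t + a * Phi t
  have hd : ∀ t, HasDerivAt h ((a - t) * phi t) t := by
    intro t
    exact ((hasDerivAt_phi t).add ((hasDerivAt_Phi t).const_mul a)).congr_deriv (by ring)
  have hc : Continuous h := continuous_iff_continuousAt.2 fun t => (hd t).continuousAt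
  show h x ≤ h a
  rcases le_total x a with hxa | hxa
  · have hm : MonotoneOn h (Iic a) := by
      refine monotoneOn_of_hasDerivWithinAt_nonneg (convex_Iic a) hc.continuousOn
        (fun t _ => (hd t).hasDerivWithinAt) ?_
      intro t ht
      rw [interior_Iic] at ht
      exact mul_nonneg (by linarith [mem_Iio.1 ht]) (phi_nonneg t)
    exact hm hxa self_mem_Iic hxa
  · have hm : AntitoneOn h (Ici a) := by
      refine antitoneOn_of_hasDerivWithinAt_nonpos (convex_Ici a) hc.continuousOn
        (fun t _ => (hd t).hasDerivWithinAt) ?_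
      intro t ht
      rw [interior_Ici] at ht
      exact mul_nonpos_of_nonpos_of_nonneg (by linarith [mem_Ioi.1 ht]) (phi_nonneg t)
    exact hm self_mem_Ici hxa hxa

lemma hasDerivAt_Lfun (a : ℝ) : HasDerivAt Lfun (Phi a) a := by
  exact ((hasDerivAt_phi a).add ((hasDerivAt_id a).mul (hasDerivAt_Phi a))).congr_deriv
    (by simp)

lemma continuous_Lfun : Continuous Lfun :=
  continuous_iff_continuousAt.2 fun x => (hasDerivAt_Lfun x).continuousAt

lemma Lfun_strictMono : StrictMono Lfun :=
  strictMono_of_hasDerivAt_pos hasDerivAt_Lfun Phi_pos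

lemma integrable_phi_mul_id : Integrable fun x => phi x * x := by
  have h := (integrable_mul_exp_neg_mul_sq (b := (1:ℝ) / 2) (by norm_num)).const_mul
    (Real.sqrt (2 * Real.pi))⁻¹
  refine h.congr (Eventually.of_forall fun x => ?_)
  simp only [phi_eq]
  ring_nf

/-- `∫_{-∞}^a t φ(t) = -φ(a)`. -/
lemma integral_Iic_mul_phi (a : ℝ) : ∫ t in Iic a, phi t * t = -phi a := by
  have hd : ∀ t ∈ Iic a, HasDerivAt (fun y => -phi y) (phi t * t) t := fun t _ =>
    (hasDerivAt_phi t).neg.congr_deriv (by ring)
  have ht : Tendsto (fun y => -phi y) atBot (𝓝 0) := by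
    have h1 : Tendsto (fun y : ℝ => -y ^ 2 / 2) atBot atBot := by
      have h2 : Tendsto (fun y : ℝ => y ^ 2) atBot atTop := by
        simpa [sq] using tendsto_id.atBot_mul_atBot₀ tendsto_id
      exact (tendsto_neg_atTop_atBot.comp h2).atBot_div_const (by norm_num)
    have h3 := ((Real.tendsto_exp_atBot.comp h1).const_mul (Real.sqrt (2 * Real.pi))⁻¹).neg
    simpa [Function.comp_def, phi_eq] using h3
  have := integral_Iic_of_hasDerivAt_of_tendsto' hd integrable_phi_mul_id.integrableOn ht
  simpa using this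

/-- `E (Y + a)₊ = L(a)`. -/
lemma integral_posPart_add (a : ℝ) :
    ∫ y, max (y + a) 0 ∂(gaussianReal 0 1) = Lfun a := by
  rw [integral_phi_smul]
  have e : (fun y => phi y * max (y + a) 0) =
      (Ici (-a)).indicator (fun y => phi y * y + a * phi y) := by
    funext y
    by_cases h : -a ≤ y
    · rw [indicator_of_mem (mem_Ici.2 h), max_eq_left (by linarith)]; ring
    · rw [indicator_of_notMem (by simpa using h), max_eq_right (by linarith)]; ring
  rw [e, integral_indicator measurableSet_Ici, integral_Ici_eq_integral_Ioi,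
    integral_add integrable_phi_mul_id.integrableOn (integrable_phi.const_mul a).integrableOn,
    integral_const_mul]
  have h1 : ∫ t in Ioi (-a), phi t * t = phi a := by
    have h := integral_comp_neg_Iic a (fun t => phi t * t)
    rw [← h]
    simp only [phi_neg, mul_neg, integral_neg, integral_Iic_mul_phi, neg_neg]
  have h2 : ∫ t in Ioi (-a), phi t = Phi a := by
    have h := integral_comp_neg_Iic a phi
    rw [← h]
    simp only [phi_neg, Phi]
  rw [h1, h2, Lfun]

lemma Lfun_nonneg (a : ℝ) : 0 ≤ Lfun a := by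
  rw [← integral_posPart_add]
  exact integral_nonneg fun y => le_max_right _ _

/-- `∫₀^∞ Φ(G - s t) dt = L(G) / s` (as an upper bound, in interval form). -/
lemma integral_Phi_sub_le (G : ℝ) {s : ℝ} (hs : 0 < s) (T : ℝ) :
    ∫ t in (0:ℝ)..T, Phi (G - s * t) ≤ Lfun G / s := by
  have hd : ∀ t ∈ uIcc (0:ℝ) T, HasDerivAt (fun y => -(Lfun (G - s * y)) / s) (Phi (G - s * t)) t := by
    intro t _
    have h1 : HasDerivAt (fun y => G - s * y) (-s) t := by
      simpa using ((hasDerivAt_id t).const_mul s).const_sub G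
    exact ((hasDerivAt_Lfun _).comp t h1).neg.div_const s |>.congr_deriv (by field_simp)
  rw [intervalIntegral.integral_eq_sub_of_hasDerivAt hd
    ((continuous_Phi.comp (by fun_prop)).intervalIntegrable _ _)]
  have := div_nonneg (Lfun_nonneg (G - s * T)) hs.le
  simp only [mul_zero, sub_zero, neg_div]
  linarith

end Vale.Agent.P226
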