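import Vale.Agent.P226.GaussBasic

/-!
Certified rational bounds for `phi` and `Phi` at rational points.

`exp (-u)` lies between consecutive Taylor partial sums for `u ≥ 0`; integrating gives bounds for
`Phi a = 1/2 + phi 0 * ∫_0^a exp (-t²/2)`.  A node is certified by evaluating
`checkPhi` / `checkDens` in `ℚ` (`decide +kernel`).
-/

open Set

namespace Vale.Agent.P226

/-- Partial Taylor sum of `exp (-u)`, `n` terms. -/
noncomputable def expSum : ℕ → ℝ → ℝ
  | 0, _ => 0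
  | n + 1, u => expSum n u + (-u) ^ n / (n.factorial : ℝ)

/-- Termwise integral of `t ↦ expSum n (t²/2)`. -/
noncomputable def erfSum : ℕ → ℝ → ℝ
  | 0, _ => 0
  | n + 1, a => erfSum n a + (-1) ^ n * a ^ (2 * n + 1) / (2 ^ n * (n.factorial : ℝ) * (2 * n + 1))

lemma expSum_succ_zero : ∀ n : ℕ, expSum (n + 1) 0 = 1
  | 0 => by simp [expSum]
  | n + 1 => by
    rw [expSum, expSum_succ_zero n]
    simp

lemma erfSum_zero : ∀ n : ℕ, erfSum n 0 = 0
  | 0 => rfl
  | n + 1 => by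
    rw [erfSum, erfSum_zero n]
    simp

lemma hasDerivAt_expSum_succ : ∀ (n : ℕ) (u : ℝ),
    HasDerivAt (expSum (n + 1)) (-expSum n u) u
  | 0, u => by
    have : expSum (0 + 1) = fun _ => (1 : ℝ) := by funext x; simp [expSum]
    rw [this]
    simpa [expSum] using hasDerivAt_const u (1 : ℝ)
  | n + 1, u => by
    have h1 : HasDerivAt (fun x : ℝ => (-x) ^ (n + 1) / ((n + 1).factorial : ℝ))
        (-((-u) ^ n / (n.factorial : ℝ))) u := by
      have h := (((hasDerivAt_id u).neg).pow (n + 1)).div_const ((n + 1).factorial : ℝ)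
      refine (h.congr_of_eventuallyEq (Filter.Eventually.of_forall fun x => by simp)).congr_deriv ?_
      rw [Nat.factorial_succ]
      push_cast
      simp only [Pi.neg_apply, id_eq]
      field_simp
    have h2 := (hasDerivAt_expSum_succ n u).add h1
    refine (h2.congr_of_eventuallyEq (Filter.Eventually.of_forall fun x => by
      simp [expSum])).congr_deriv ?_
    simp only [expSum]
    ring

lemma expSum_sign : ∀ (n : ℕ) (u : ℝ), 0 ≤ u → 0 ≤ (-1) ^ n * (Real.exp (-u) - expSum n u)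
  | 0, u, _ => by simp [expSum, (Real.exp_pos (-u)).le]
  | n + 1, u, hu => by
    let g : ℝ → ℝ := fun x => (-1) ^ (n + 1) * (Real.exp (-x) - expSum (n + 1) x)
    have hd : ∀ x, HasDerivAt g ((-1) ^ n * (Real.exp (-x) - expSum n x)) x := by
      intro x
      have h1 : HasDerivAt (fun y : ℝ => Real.exp (-y)) (-Real.exp (-x)) x := by
        simpa using (hasDerivAt_id x).neg.exp
      refine ((h1.sub (hasDerivAt_expSum_succ n x)).const_mul ((-1 : ℝ) ^ (n + 1))).congr_deriv ?_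
      ring
    have hm : MonotoneOn g (Ici 0) := by
      refine monotoneOn_of_hasDerivWithinAt_nonneg (convex_Ici 0)
        (fun x _ => (hd x).continuousAt.continuousWithinAt)
        (fun x _ => (hd x).hasDerivWithinAt) ?_
      intro x hx
      rw [interior_Ici] at hx
      exact expSum_sign n x (le_of_lt hx)
    have := hm self_mem_Ici (mem_Ici.2 hu) hu
    simpa [g, expSum_succ_zero] using this

lemma expSum_even_le {u : ℝ} (hu : 0 ≤ u) (m : ℕ) : expSum (2 * m) u ≤ Real.exp (-u) := by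
  have := expSum_sign (2 * m) u hu
  rw [pow_mul, neg_one_sq, one_pow, one_mul] at this
  linarith

lemma le_expSum_odd {u : ℝ} (hu : 0 ≤ u) (m : ℕ) : Real.exp (-u) ≤ expSum (2 * m + 1) u := by
  have := expSum_sign (2 * m + 1) u hu
  rw [pow_succ, pow_mul, neg_one_sq, one_pow, one_mul] at this
  linarith

lemma hasDerivAt_erfSum : ∀ (n : ℕ) (a : ℝ),
    HasDerivAt (erfSum n) (expSum n (a ^ 2 / 2)) a
  | 0, a => by
    have : erfSum 0 = fun _ => (0 : ℝ) := rfl
    rw [this]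
    simpa [expSum] using hasDerivAt_const a (0 : ℝ)
  | n + 1, a => by
    have h1 : HasDerivAt
        (fun x : ℝ => (-1) ^ n * x ^ (2 * n + 1) / (2 ^ n * (n.factorial : ℝ) * (2 * n + 1)))
        ((-(a ^ 2 / 2)) ^ n / (n.factorial : ℝ)) a := by
      refine (((hasDerivAt_pow (2 * n + 1) a).const_mul ((-1 : ℝ) ^ n)).div_const _).congr_deriv ?_
      have h2 : (-(a ^ 2 / 2)) ^ n = (-1 : ℝ) ^ n * a ^ (2 * n) / 2 ^ n := by
        rw [neg_eq_neg_one_mul, mul_pow, div_pow, ← pow_mul, mul_div_assoc]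
      rw [h2, Nat.add_sub_cancel]
      push_cast
      have : (n.factorial : ℝ) ≠ 0 := by positivity
      field_simp
    refine ((hasDerivAt_erfSum n a).add h1).congr_of_eventuallyEq
      (Filter.Eventually.of_forall fun x => ?_) |>.congr_deriv ?_
    · simp [erfSum]
    · simp [expSum]

lemma phi_eq_phi_zero_mul (x : ℝ) : phi x = phi 0 * Real.exp (-(x ^ 2 / 2)) := by
  rw [phi_zero, phi_eq]
  ring_nf

lemma monotone_Phi_sub_erfSum_even (m : ℕ) :
    Monotone fun x => Phi x - phi 0 * erfSum (2 * m) x := by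
  have hd : ∀ x, HasDerivAt (fun y => Phi y - phi 0 * erfSum (2 * m) y)
      (phi x - phi 0 * expSum (2 * m) (x ^ 2 / 2)) x := fun x =>
    (hasDerivAt_Phi x).sub ((hasDerivAt_erfSum _ x).const_mul _)
  refine monotone_of_hasDerivAt_nonneg hd fun x => ?_
  show (0 : ℝ) ≤ _
  rw [phi_eq_phi_zero_mul x]
  have := mul_le_mul_of_nonneg_left (expSum_even_le (u := x ^ 2 / 2) (by positivity) m)
    (phi_nonneg 0)
  linarith

lemma monotone_erfSum_odd_sub_Phi (m : ℕ) :
    Monotone fun x => phi 0 * erfSum (2 * m + 1) x - Phi x := by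
  have hd : ∀ x, HasDerivAt (fun y => phi 0 * erfSum (2 * m + 1) y - Phi y)
      (phi 0 * expSum (2 * m + 1) (x ^ 2 / 2) - phi x) x := fun x =>
    ((hasDerivAt_erfSum _ x).const_mul _).sub (hasDerivAt_Phi x)
  refine monotone_of_hasDerivAt_nonneg hd fun x => ?_
  show (0 : ℝ) ≤ _
  rw [phi_eq_phi_zero_mul x]
  have := mul_le_mul_of_nonneg_left (le_expSum_odd (u := x ^ 2 / 2) (by positivity) m)
    (phi_nonneg 0)
  linarith

lemma Phi_mem_series (a : ℝ) (m : ℕ) :
    (0 ≤ a → 1 / 2 + phi 0 * erfSum (2 * m) a ≤ Phi a ∧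
      Phi a ≤ 1 / 2 + phi 0 * erfSum (2 * m + 1) a) ∧
    (a ≤ 0 → 1 / 2 + phi 0 * erfSum (2 * m + 1) a ≤ Phi a ∧
      Phi a ≤ 1 / 2 + phi 0 * erfSum (2 * m) a) := by
  constructor
  · intro ha
    have h1 := monotone_Phi_sub_erfSum_even m ha
    have h2 := monotone_erfSum_odd_sub_Phi m ha
    simp only [erfSum_zero, Phi_zero] at h1 h2
    constructor <;> linarith
  · intro ha
    have h1 := monotone_Phi_sub_erfSum_even m ha
    have h2 := monotone_erfSum_odd_sub_Phi m ha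
    simp only [erfSum_zero, Phi_zero] at h1 h2
    constructor <;> linarith

/-- Rational lower bound for `phi 0 = 1/√(2π)`. -/
def phi0Lo : ℚ := 398942280401 / 1000000000000

/-- Rational upper bound for `phi 0 = 1/√(2π)`. -/
def phi0Hi : ℚ := 398942280402 / 1000000000000

lemma phi_zero_bounds : (phi0Lo : ℝ) ≤ phi 0 ∧ phi 0 ≤ (phi0Hi : ℝ) := by
  have h := phi_zero_sq
  have hl := Real.pi_gt_d20
  have hu := Real.pi_lt_d20
  have hp := Real.pi_pos
  have hn := phi_nonneg 0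
  constructor
  · refine (sq_le_sq₀ (by norm_num [phi0Lo]) hn).1 ?_
    rw [h, le_div_iff₀ (by positivity)]
    norm_num [phi0Lo] at hl hu ⊢
    nlinarith
  · refine (sq_le_sq₀ hn (by norm_num [phi0Hi])).1 ?_
    rw [h, div_le_iff₀ (by positivity)]
    norm_num [phi0Hi] at hl hu ⊢
    nlinarith

/-- State `(term, sum)` of the exponential series, evaluated in `ℚ`. -/
def expQ (u : ℚ) : ℕ → ℚ × ℚ
  | 0 => (1, 0)
  | n + 1 => let s := expQ u n; (s.1 * (-u) / (n + 1), s.2 + s.1)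

/-- State `(power term, sum)` of the integrated series, evaluated in `ℚ`. -/
def erfQ (a : ℚ) : ℕ → ℚ × ℚ
  | 0 => (a, 0)
  | n + 1 => let s := erfQ a n; (s.1 * (-(a ^ 2) / 2) / (n + 1), s.2 + s.1 / (2 * n + 1))

lemma expQ_cast (u : ℚ) : ∀ n : ℕ,
    ((expQ u n).1 : ℝ) = (-(u : ℝ)) ^ n / (n.factorial : ℝ) ∧
      ((expQ u n).2 : ℝ) = expSum n (u : ℝ)
  | 0 => by simp [expQ, expSum]
  | n + 1 => by
    obtain ⟨h1, h2⟩ := expQ_cast u n
    refine ⟨?_, ?_⟩
    · simp only [expQ]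
      push_cast
      rw [h1, Nat.factorial_succ, pow_succ]
      push_cast
      field_simp
    · simp only [expQ, expSum]
      push_cast
      rw [h1, h2]

lemma erfQ_cast (a : ℚ) : ∀ n : ℕ,
    ((erfQ a n).1 : ℝ) = (-1) ^ n * (a : ℝ) ^ (2 * n + 1) / (2 ^ n * (n.factorial : ℝ)) ∧
      ((erfQ a n).2 : ℝ) = erfSum n (a : ℝ)
  | 0 => by simp [erfQ, erfSum]
  | n + 1 => by
    obtain ⟨h1, h2⟩ := erfQ_cast a n
    refine ⟨?_, ?_⟩
    · simp only [erfQ]
      push_cast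
      rw [h1, Nat.factorial_succ, pow_succ, pow_succ, show 2 * (n + 1) + 1 = 2 * n + 1 + 2 by ring,
        pow_add (a : ℝ) (2 * n + 1) 2]
      push_cast
      field_simp
      ring
    · simp only [erfQ, erfSum]
      push_cast
      rw [h1, h2, div_div]

/-- Rational upper bound for `phi0 * x`, for `phi0 ∈ [phi0Lo, phi0Hi]`. -/
def mulHi (x : ℚ) : ℚ := max (phi0Lo * x) (phi0Hi * x)

/-- Rational lower bound for `phi0 * x`, for `phi0 ∈ [phi0Lo, phi0Hi]`. -/
def mulLo (x : ℚ) : ℚ := min (phi0Lo * x) (phi0Hi * x)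

lemma phi_zero_mul_bounds (x : ℚ) :
    (mulLo x : ℝ) ≤ phi 0 * (x : ℝ) ∧ phi 0 * (x : ℝ) ≤ (mulHi x : ℝ) := by
  obtain ⟨h1, h2⟩ := phi_zero_bounds
  rw [mulLo, mulHi, Rat.cast_min, Rat.cast_max]
  push_cast
  rcases le_total 0 (x : ℝ) with hx | hx
  · exact ⟨(min_le_left _ _).trans (by gcongr), le_trans (by gcongr) (le_max_right _ _)⟩
  · exact ⟨(min_le_right _ _).trans (mul_le_mul_of_nonpos_right h2 hx),
      (mul_le_mul_of_nonpos_right h1 hx).trans (le_max_left _ _)⟩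

/-- Rational lower bound for `Phi a`. -/
def PhiLoQ (m : ℕ) (a : ℚ) : ℚ :=
  1 / 2 + mulLo (if 0 ≤ a then (erfQ a (2 * m)).2 else (erfQ a (2 * m + 1)).2)

/-- Rational upper bound for `Phi a`. -/
def PhiHiQ (m : ℕ) (a : ℚ) : ℚ :=
  1 / 2 + mulHi (if 0 ≤ a then (erfQ a (2 * m + 1)).2 else (erfQ a (2 * m)).2)

/-- Rational lower bound for `phi a`. -/
def phiLoQ (m : ℕ) (a : ℚ) : ℚ := mulLo (expQ (a ^ 2 / 2) (2 * m)).2

/-- Rational upper bound for `phi a`. -/
def phiHiQ (m : ℕ) (a : ℚ) : ℚ := mulHi (expQ (a ^ 2 / 2) (2 * m + 1)).2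

theorem Phi_bounds (m : ℕ) (a : ℚ) :
    (PhiLoQ m a : ℝ) ≤ Phi (a : ℝ) ∧ Phi (a : ℝ) ≤ (PhiHiQ m a : ℝ) := by
  obtain ⟨hpos, hneg⟩ := Phi_mem_series (a : ℝ) m
  have g : ∀ n, (mulLo (erfQ a n).2 : ℝ) ≤ phi 0 * erfSum n (a : ℝ) ∧
      phi 0 * erfSum n (a : ℝ) ≤ (mulHi (erfQ a n).2 : ℝ) := fun n => by
    have h := phi_zero_mul_bounds (erfQ a n).2
    rwa [(erfQ_cast a n).2] at h
  have ga := g (2 * m)
  have gb := g (2 * m + 1)
  rw [PhiLoQ, PhiHiQ]
  by_cases ha : 0 ≤ a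
  · have hb := hpos (by exact_mod_cast ha)
    simp only [if_pos ha]
    push_cast
    constructor <;> linarith
  · have hb := hneg (by exact_mod_cast (not_le.1 ha).le)
    simp only [if_neg ha]
    push_cast
    constructor <;> linarith

theorem phi_bounds (m : ℕ) (a : ℚ) :
    (phiLoQ m a : ℝ) ≤ phi (a : ℝ) ∧ phi (a : ℝ) ≤ (phiHiQ m a : ℝ) := by
  have hu : (0 : ℝ) ≤ ((a ^ 2 / 2 : ℚ) : ℝ) := by push_cast; positivity
  have g1 := (phi_zero_mul_bounds (expQ (a ^ 2 / 2) (2 * m)).2).1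
  have g2 := (phi_zero_mul_bounds (expQ (a ^ 2 / 2) (2 * m + 1)).2).2
  rw [(expQ_cast _ _).2] at g1 g2
  have e1 := mul_le_mul_of_nonneg_left (expSum_even_le hu m) (phi_nonneg 0)
  have e2 := mul_le_mul_of_nonneg_left (le_expSum_odd hu m) (phi_nonneg 0)
  have e : phi (a : ℝ) = phi 0 * Real.exp (-((a ^ 2 / 2 : ℚ) : ℝ)) := by
    rw [phi_eq_phi_zero_mul]; push_cast; rfl
  rw [e, phiLoQ, phiHiQ]
  constructor <;> linarith

end Vale.Agent.P226
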