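import Vale.Agent.P226.Psi

/-!
Three-vector excess bound: sublevel sets of the maximum of three linear forms with zero sum are
cylinders over triangles, and a planar set of given area has small Gaussian measure.
-/

open MeasureTheory ProbabilityTheory Filter Set
open scoped RealInnerProductSpace Topology

namespace Vale.Agent.P226

namespace K3

/-- The standard planar Gaussian density. -/
noncomputable def g2 (z : ℝ × ℝ) : ℝ := phi z.1 * phi z.2

lemma g2_eq (z : ℝ × ℝ) :
    g2 z = Real.exp (-(z.1 ^ 2 + z.2 ^ 2) / 2) / (2 * Real.pi) := by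
  rw [g2, phi_eq, phi_eq, neg_add, add_div, Real.exp_add]
  have h : Real.sqrt (2 * Real.pi) * Real.sqrt (2 * Real.pi) = 2 * Real.pi :=
    Real.mul_self_sqrt (by positivity)
  calc _ = Real.exp (-z.1 ^ 2 / 2) * Real.exp (-z.2 ^ 2 / 2) /
        (Real.sqrt (2 * Real.pi) * Real.sqrt (2 * Real.pi)) := by ring
    _ = _ := by rw [h]

lemma integrable_g2 : Integrable g2 (volume.prod volume) :=
  integrable_phi.mul_prod integrable_phi

lemma g2_nonneg (z : ℝ × ℝ) : 0 ≤ g2 z := mul_nonneg (phi_nonneg _) (phi_nonneg _)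

lemma continuous_g2 : Continuous g2 := by
  unfold g2
  exact (continuous_phi.comp continuous_fst).mul (continuous_phi.comp continuous_snd)

lemma integrable_truncate {θ : ℝ} (hθ : 0 ≤ θ) :
    Integrable (fun z => max (g2 z - θ) 0) (volume.prod volume) :=
  integrable_g2.mono' ((continuous_g2.sub continuous_const).max continuous_const).aestronglyMeasurable
    (Eventually.of_forall fun z => by
      rw [Real.norm_eq_abs, abs_of_nonneg (le_max_right _ _)]
      exact max_le (by linarith) (g2_nonneg z))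

lemma integral_truncate {a : ℝ} (ha : 0 ≤ a) :
    ∫ z, max (g2 z - Real.exp (-a) / (2 * Real.pi)) 0 ∂(volume.prod volume) =
      1 - Real.exp (-a) - a * Real.exp (-a) := by
  set θ := Real.exp (-a) / (2 * Real.pi) with hθ
  set R := Real.sqrt (2 * a) with hR
  have hR0 : 0 ≤ R := Real.sqrt_nonneg _
  have hR2 : R ^ 2 = 2 * a := Real.sq_sqrt (by linarith)
  have e : ∀ p : ℝ × ℝ, p.1 • max (g2 (polarCoord.symm p) - θ) 0 =
      (p.1 * max (Real.exp (-p.1 ^ 2 / 2) / (2 * Real.pi) - θ) 0) * 1 := by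
    intro p
    rw [g2_eq, polarCoord_symm_apply, smul_eq_mul, mul_one]
    congr 5
    linear_combination (-(p.1 ^ 2 / 2)) * Real.cos_sq_add_sin_sq p.2
  rw [← Measure.volume_eq_prod, ← integral_comp_polarCoord_symm (fun z => max (g2 z - θ) 0),
    polarCoord_target]
  simp only [e]
  rw [Measure.volume_eq_prod,
    setIntegral_prod_mul (fun r : ℝ => r * max (Real.exp (-r ^ 2 / 2) / (2 * Real.pi) - θ) 0)
      (fun _ : ℝ => (1 : ℝ))]
  have hang : ∫ _ in Ioo (-Real.pi) Real.pi, (1 : ℝ) = 2 * Real.pi := by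
    simp [Real.pi_pos.le]; ring
  have hrad : ∫ r in Ioi (0 : ℝ), r * max (Real.exp (-r ^ 2 / 2) / (2 * Real.pi) - θ) 0 =
      (1 - Real.exp (-a)) / (2 * Real.pi) - θ * a := by
    have hcut : ∀ r ∈ Ioi (0 : ℝ), r * max (Real.exp (-r ^ 2 / 2) / (2 * Real.pi) - θ) 0 =
        (Ioc (0 : ℝ) R).indicator
          (fun r => r * (Real.exp (-r ^ 2 / 2) / (2 * Real.pi) - θ)) r := by
      intro r hr
      have hr0 : 0 < r := hr
      by_cases hrR : r ≤ R
      · rw [indicator_of_mem (show r ∈ Ioc 0 R from ⟨hr0, hrR⟩), max_eq_left]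
        rw [hθ, sub_nonneg]
        refine div_le_div_of_nonneg_right (Real.exp_le_exp.2 ?_) (by positivity)
        nlinarith
      · rw [indicator_of_notMem (fun h => hrR h.2), max_eq_right, mul_zero]
        rw [hθ, sub_nonpos]
        refine div_le_div_of_nonneg_right (Real.exp_le_exp.2 ?_) (by positivity)
        nlinarith [not_le.1 hrR]
    rw [setIntegral_congr_fun measurableSet_Ioi hcut, setIntegral_indicator measurableSet_Ioc,
      inter_eq_right.2 Ioc_subset_Ioi_self, ← intervalIntegral.integral_of_le hR0]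
    have hd : ∀ r ∈ uIcc 0 R,
        HasDerivAt (fun r => -Real.exp (-r ^ 2 / 2) / (2 * Real.pi) - θ * r ^ 2 / 2)
          (r * (Real.exp (-r ^ 2 / 2) / (2 * Real.pi) - θ)) r := by
      intro r _
      have h2 : HasDerivAt (fun r : ℝ => r ^ 2) (2 * r) r := by simpa using hasDerivAt_pow 2 r
      refine (((h2.fun_neg.div_const 2).exp.fun_neg.div_const (2 * Real.pi)).fun_sub
        ((h2.const_mul θ).div_const 2)).congr_deriv ?_
      ring
    rw [intervalIntegral.integral_eq_sub_of_hasDerivAt hd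
      ((by fun_prop : Continuous fun r : ℝ =>
        r * (Real.exp (-r ^ 2 / 2) / (2 * Real.pi) - θ)).intervalIntegrable _ _), hR2]
    rw [show -(2 * a) / 2 = -a by ring]
    norm_num
    ring
  rw [hang, hrad, hθ]
  field_simp

/-- Bathtub: a planar set of area at most `2πa` has Gaussian measure at most `1 - exp (-a)`. -/
lemma gauss2_le {T : Set (ℝ × ℝ)} (hT : MeasurableSet T) {a : ℝ} (ha : 0 ≤ a)
    (hfin : (volume.prod volume) T ≤ ENNReal.ofReal (2 * Real.pi * a)) :
    (gauss1.prod gauss1).real T ≤ 1 - Real.exp (-a) := by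
  set θ := Real.exp (-a) / (2 * Real.pi) with hθ
  have hθ0 : 0 ≤ θ := by positivity
  have hfin' : (volume.prod volume) T ≠ ⊤ := ne_top_of_le_ne_top ENNReal.ofReal_ne_top hfin
  have hreal : (volume.prod volume).real T ≤ 2 * Real.pi * a :=
    ENNReal.toReal_le_of_le_ofReal (by positivity) hfin
  have h1 : (gauss1.prod gauss1).real T = ∫ z, g2 z * T.indicator 1 z ∂(volume.prod volume) := by
    rw [← integral_indicator_one hT, integral_prod (T.indicator (1 : ℝ × ℝ → ℝ))
        ((integrable_const (1 : ℝ)).indicator hT),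
      integral_prod (fun z => g2 z * T.indicator 1 z)]
    · simp only [gauss1, integral_phi_smul, g2, ← integral_const_mul, mul_assoc]
    · refine integrable_g2.mono'
        (continuous_g2.aestronglyMeasurable.mul
          (measurable_one.indicator hT).aestronglyMeasurable)
        (Eventually.of_forall fun z => ?_)
      rw [Real.norm_eq_abs, abs_mul, abs_of_nonneg (g2_nonneg z)]
      refine mul_le_of_le_one_right (g2_nonneg z) ?_
      by_cases hz : z ∈ T <;> simp [hz]
  have h2 : ∫ z, g2 z * T.indicator 1 z ∂(volume.prod volume) ≤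
      ∫ z, max (g2 z - θ) 0 + T.indicator (fun _ => θ) z ∂(volume.prod volume) := by
    refine integral_mono_of_nonneg (Eventually.of_forall fun z => mul_nonneg (g2_nonneg z)
      (indicator_nonneg (fun _ _ => zero_le_one) z))
      ((integrable_truncate hθ0).add ((integrable_indicator_iff hT).2 (integrableOn_const hfin')))
      (Eventually.of_forall fun z => ?_)
    by_cases hz : z ∈ T
    · simp [hz]
      linarith [le_max_left (g2 z - θ) 0]
    · simp [hz]
  rw [h1]
  refine h2.trans ?_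
  rw [integral_add (integrable_truncate hθ0)
      ((integrable_indicator_iff hT).2 (integrableOn_const hfin')),
    integral_truncate ha, integral_indicator_const θ hT, smul_eq_mul]
  have := mul_le_mul_of_nonneg_right hreal hθ0
  have e : 2 * Real.pi * a * θ = a * Real.exp (-a) := by rw [hθ]; field_simp
  linarith

/-- Area of the triangle cut out by three affine inequalities. -/
lemma area_triangle {α β δ s c0 c1 c2 : ℝ} (hα : 0 < α) (hδ : 0 < δ) (hs : 0 ≤ s)
    (hc : c0 + c1 + c2 = 3 * s) :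
    (volume.prod volume) {z : ℝ × ℝ | α * z.1 < c0 ∧ β * z.1 + δ * z.2 < c1 ∧
      -(α + β) * z.1 - δ * z.2 < c2} ≤ ENNReal.ofReal (9 * s ^ 2 / (2 * (α * δ))) := by
  set T := {z : ℝ × ℝ | α * z.1 < c0 ∧ β * z.1 + δ * z.2 < c1 ∧
      -(α + β) * z.1 - δ * z.2 < c2} with hTdef
  have hT : MeasurableSet T := by
    rw [hTdef, ofPred_and, ofPred_and]
    exact (measurableSet_lt (by fun_prop) (by fun_prop)).inter
      ((measurableSet_lt (by fun_prop) (by fun_prop)).inter
        (measurableSet_lt (by fun_prop) (by fun_prop)))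
  set p := (c0 - 3 * s) / α with hp
  set q := c0 / α with hq
  have hpq : p ≤ q := by rw [hp, hq]; gcongr; linarith
  rw [Measure.prod_apply hT]
  have hslice : ∀ x : ℝ, volume (Prod.mk x ⁻¹' T) ≤
      (Ioc p q).indicator (fun x => ENNReal.ofReal ((3 * s - c0 + α * x) / δ)) x := by
    intro x
    have hsub : Prod.mk x ⁻¹' T ⊆ Ioo ((-c2 - (α + β) * x) / δ) ((c1 - β * x) / δ) := by
      intro y hy
      obtain ⟨-, h1, h2⟩ := hy
      simp only at h1 h2
      exact ⟨by rw [div_lt_iff₀ hδ]; linarith, by rw [lt_div_iff₀ hδ]; linarith⟩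
    by_cases hx : x ∈ Ioc p q
    · rw [indicator_of_mem hx]
      refine (measure_mono hsub).trans ?_
      rw [Real.volume_Ioo]
      refine le_of_eq (congrArg ENNReal.ofReal ?_)
      rw [← hc]
      ring
    · rw [indicator_of_notMem hx]
      have hempty : Prod.mk x ⁻¹' T = ∅ := by
        refine eq_empty_of_forall_notMem fun y hy => hx ?_
        obtain ⟨h0, h1, h2⟩ := hy
        simp only at h0 h1 h2
        exact ⟨by rw [hp, div_lt_iff₀ hα]; linarith, by rw [hq, le_div_iff₀ hα]; linarith⟩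
      rw [hempty, measure_empty]
  refine (lintegral_mono hslice).trans ?_
  rw [lintegral_indicator measurableSet_Ioc,
    ← ofReal_integral_eq_lintegral_ofReal
      ((by fun_prop : Continuous fun x : ℝ => (3 * s - c0 + α * x) / δ).integrableOn_Icc.mono_set
        Ioc_subset_Icc_self)
      ((ae_restrict_mem measurableSet_Ioc).mono fun x hx => ?_)]
  · refine ENNReal.ofReal_le_ofReal (le_of_eq ?_)
    rw [← intervalIntegral.integral_of_le hpq]
    have hd : ∀ x ∈ uIcc p q, HasDerivAt
        (fun x => (3 * s - c0 + α * x) ^ 2 / (2 * α * δ)) ((3 * s - c0 + α * x) / δ) x := by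
      intro x _
      refine (((((hasDerivAt_id x).const_mul α).const_add (3 * s - c0)).pow 2).div_const
        (2 * α * δ)).congr_deriv ?_
      simp only [id, Nat.cast_ofNat, Nat.add_one_sub_one, pow_one]
      field_simp
    rw [intervalIntegral.integral_eq_sub_of_hasDerivAt hd
      ((by fun_prop : Continuous fun x : ℝ => (3 * s - c0 + α * x) / δ).intervalIntegrable _ _),
      hp, hq]
    field_simp
    ring
  · have h := hx.1
    rw [hp, div_lt_iff₀ hα] at h
    exact div_nonneg (by linarith) hδ.le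

variable {n : ℕ}

/-- Two orthonormal coordinates are a standard planar Gaussian. -/
lemma pair_law {e1 e2 : Space n} (h1 : ‖e1‖ = 1) (h2 : ‖e2‖ = 1) (h12 : ⟪e1, e2⟫ = 0) :
    (gauss n).map (fun y => (⟪e1, y⟫, ⟪e2, y⟫)) = gauss1.prod gauss1 := by
  have hm : Measurable fun p : ℝ × Space n => p.1 • e1 + orth e1 p.2 :=
    ((continuous_fst.smul continuous_const).add
      ((continuous_orth e1).comp continuous_snd)).measurable
  conv_lhs => rw [← gauss_decomp h1]
  rw [Measure.map_map (by fun_prop) hm]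
  have e : (fun y : Space n => (⟪e1, y⟫, ⟪e2, y⟫)) ∘ (fun p : ℝ × Space n =>
      p.1 • e1 + orth e1 p.2) = Prod.map id (fun y : Space n => ⟪e2, y⟫) := by
    funext p
    simp only [Function.comp_apply, Prod.map, id, inner_add_right, real_inner_smul_right,
      real_inner_self_eq_norm_sq, h1, orth, inner_sub_right,
      real_inner_comm e1 e2, h12]
    simp
  rw [e, ← Measure.map_prod_map gauss1 (gauss n) measurable_id (by fun_prop), Measure.map_id,
    inner_law_eq_map, h2]
  simp

/-- Gaussian measure of a triangular cylinder. -/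
lemma triangle_le (m : Fin 3 → Space n) (hm : ∑ b, m b = 0) {S : ℝ} (hS : 0 < S)
    (hdet : S ≤ ‖m 0‖ ^ 2 * ‖m 1‖ ^ 2 - ⟪m 0, m 1⟫ ^ 2) (c : Fin 3 → ℝ) {s : ℝ} (hs : 0 ≤ s)
    (hc : ∑ b, c b = 3 * s) :
    (gauss n).real {y | ∀ b, ⟪m b, y⟫ < c b} ≤
      1 - Real.exp (-(9 / (4 * Real.pi * Real.sqrt S) * s ^ 2)) := by
  rw [Fin.sum_univ_three] at hm hc
  set α := ‖m 0‖ with hα
  have hα0 : 0 < α := by
    by_contra h
    have h0 : α = 0 := le_antisymm (not_lt.1 h) (norm_nonneg _)
    rw [h0] at hdet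
    nlinarith [sq_nonneg ⟪m 0, m 1⟫]
  set e1 := α⁻¹ • m 0 with he1
  set β := ⟪m 0, m 1⟫ / α with hβ
  set w := m 1 - β • e1 with hw
  have hn1 : ‖e1‖ = 1 := by
    rw [he1, norm_smul, Real.norm_eq_abs, abs_of_pos (inv_pos.2 hα0), ← hα,
      inv_mul_cancel₀ hα0.ne']
  have hm0 : m 0 = α • e1 := by rw [he1, smul_smul, mul_inv_cancel₀ hα0.ne', one_smul]
  have he1m : ⟪e1, m 1⟫ = β := by rw [he1, real_inner_smul_left, hβ]; ring
  have hew : ⟪e1, w⟫ = 0 := by
    rw [hw, inner_sub_right, real_inner_smul_right, real_inner_self_eq_norm_sq, hn1, he1m]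
    ring
  have hw2 : ‖w‖ ^ 2 = ‖m 1‖ ^ 2 - β ^ 2 := by
    rw [hw, norm_sub_sq_real, real_inner_smul_right, norm_smul, hn1, real_inner_comm e1 (m 1),
      he1m, Real.norm_eq_abs, mul_one, sq_abs]
    ring
  have hdet' : S ≤ (α * ‖w‖) ^ 2 := by
    rw [mul_pow, hw2, hβ]
    refine hdet.trans_eq ?_
    field_simp
  set δ := ‖w‖ with hδ
  have hδ0 : 0 < δ := by
    by_contra h
    have h0 : δ = 0 := le_antisymm (not_lt.1 h) (norm_nonneg _)
    rw [h0] at hdet'
    simp at hdet'
    linarith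
  set e2 := δ⁻¹ • w with he2
  have hn2 : ‖e2‖ = 1 := by
    rw [he2, norm_smul, Real.norm_eq_abs, abs_of_pos (inv_pos.2 hδ0), ← hδ,
      inv_mul_cancel₀ hδ0.ne']
  have h12 : ⟪e1, e2⟫ = 0 := by rw [he2, real_inner_smul_right, hew, mul_zero]
  have hm1 : m 1 = β • e1 + δ • e2 := by
    have h3 : δ • e2 = w := by rw [he2, smul_smul, mul_inv_cancel₀ hδ0.ne', one_smul]
    rw [h3, hw]
    abel
  have hm2 : m 2 = -(α + β) • e1 - δ • e2 := by
    have : m 2 = -(m 0 + m 1) := eq_neg_of_add_eq_zero_right hm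
    rw [this, hm0, hm1]
    module
  set T := {z : ℝ × ℝ | α * z.1 < c 0 ∧ β * z.1 + δ * z.2 < c 1 ∧
      -(α + β) * z.1 - δ * z.2 < c 2} with hTdef
  have hT : MeasurableSet T := by
    rw [hTdef, ofPred_and, ofPred_and]
    exact (measurableSet_lt (by fun_prop) (by fun_prop)).inter
      ((measurableSet_lt (by fun_prop) (by fun_prop)).inter
        (measurableSet_lt (by fun_prop) (by fun_prop)))
  have hset : {y : Space n | ∀ b, ⟪m b, y⟫ < c b} = (fun y => (⟪e1, y⟫, ⟪e2, y⟫)) ⁻¹' T := by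
    ext y
    simp only [mem_ofPred_eq, mem_preimage, hTdef, Fin.forall_fin_succ, Fin.forall_fin_zero,
      hm0, hm1, Fin.succ_zero_eq_one, Fin.succ_one_eq_two, hm2, inner_add_left, inner_sub_left,
      real_inner_smul_left, and_true]
  rw [hset, ← map_measureReal_apply (by fun_prop) hT, pair_law hn1 hn2 h12]
  refine (gauss2_le hT (a := 9 * s ^ 2 / (4 * Real.pi * (α * δ))) (by positivity)
    ((area_triangle hα0 hδ0 hs hc).trans_eq (congrArg ENNReal.ofReal ?_))).trans ?_
  · field_simp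
    ring
  · have hsq : Real.sqrt S ≤ α * δ := by
      rw [← Real.sqrt_sq (by positivity : 0 ≤ α * δ)]
      exact Real.sqrt_le_sqrt hdet'
    have h9 : 9 * s ^ 2 / (4 * Real.pi * (α * δ)) ≤ 9 / (4 * Real.pi * Real.sqrt S) * s ^ 2 := by
      rw [div_mul_eq_mul_div]
      gcongr
    linarith [Real.exp_le_exp.2 (neg_le_neg h9)]

/-- The radial profile after integrating the triangle bound. -/
noncomputable def profile (W K r : ℝ) : ℝ :=
  W * ∫ u in (0 : ℝ)..1, r * (1 - Real.exp (-(K * W ^ 2 * r ^ 2 * u ^ 2)))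

lemma profile_eq {W K : ℝ} (r : ℝ) :
    ∫ s in (0 : ℝ)..W * r, (1 - Real.exp (-(K * s ^ 2))) = profile W K r := by
  rw [profile, intervalIntegral.integral_const_mul, ← mul_assoc]
  have h := intervalIntegral.mul_integral_comp_mul_left
    (f := fun s => 1 - Real.exp (-(K * s ^ 2))) (W * r) (a := (0 : ℝ)) (b := 1)
  rw [mul_zero, mul_one] at h
  rw [← h]
  congr 1
  refine intervalIntegral.integral_congr fun u _ => ?_
  congr 2
  ring_nf

lemma excess_slice {u : Fin 3 → Space n} (hu : ∑ b, u b = 0) {e : Space n}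
    {W : ℝ} (hW : 0 ≤ W) {S : ℝ} (hS : 0 < S)
    (hdet : S ≤ ‖orth e (u 0)‖ ^ 2 * ‖orth e (u 1)‖ ^ 2 - ⟪orth e (u 0), orth e (u 1)⟫ ^ 2)
    (r : ℝ) :
    ∫ y, max (W * r - maxOver (fun b => ⟪u b, r • e + orth e y⟫)) 0 ∂(gauss n) ≤
      (Ioi (0 : ℝ)).indicator (profile W (9 / (4 * Real.pi * Real.sqrt S))) r := by
  set M : Space n → ℝ := fun y => maxOver (fun b => ⟪u b, r • e + orth e y⟫) with hM
  have hM0 : ∀ y, 0 ≤ M y := by
    intro y
    refine le_trans (le_of_eq ?_) (avg_le_maxOver fun b => ⟪u b, r • e + orth e y⟫)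
    rw [← sum_inner, hu, inner_zero_left, zero_div]
  rcases le_or_gt r 0 with hr | hr
  · rw [indicator_of_notMem (by simpa using hr)]
    refine le_of_eq (integral_eq_zero_of_ae (Eventually.of_forall fun y => ?_))
    exact max_eq_right (by nlinarith [hM0 y])
  rw [indicator_of_mem (mem_Ioi.2 hr)]
  set m : Fin 3 → Space n := fun b => orth e (u b) with hmdef
  have hm : ∑ b, m b = 0 := by
    simp only [hmdef, orth, Finset.sum_sub_distrib, ← Finset.sum_smul, ← inner_sum, hu,
      inner_zero_right, zero_smul, sub_zero]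
  have hinner : ∀ b y, ⟪u b, r • e + orth e y⟫ = r * ⟪u b, e⟫ + ⟪m b, y⟫ := by
    intro b y
    simp only [hmdef, orth, inner_add_right, inner_sub_right, inner_sub_left,
      real_inner_smul_right, real_inner_smul_left, real_inner_comm e (u b)]
    ring
  have hMc : Continuous M :=
    (continuous_maxInner u).comp (continuous_const.add (continuous_orth e))
  have hint : Integrable (fun y => max (W * r - M y) 0) (gauss n) := by
    refine Integrable.of_bound ((continuous_const.sub hMc).max continuous_const).aestronglyMeasurable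
      (W * r) (Eventually.of_forall fun y => ?_)
    rw [Real.norm_eq_abs, abs_of_nonneg (le_max_right _ _)]
    exact max_le (by linarith [hM0 y]) (by positivity)
  rw [hint.integral_eq_integral_meas_lt (Eventually.of_forall fun y => le_max_right _ _)]
  set K := 9 / (4 * Real.pi * Real.sqrt S) with hK
  have hWr : 0 ≤ W * r := by positivity
  have hb : ∀ t ∈ Ioi (0 : ℝ), (gauss n).real {y | t < max (W * r - M y) 0} ≤
      (Ioc (0 : ℝ) (W * r)).indicator (fun t => 1 - Real.exp (-(K * (W * r - t) ^ 2))) t := by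
    intro t ht
    have ht0 : 0 < t := ht
    have hset : {y | t < max (W * r - M y) 0} = {y | M y < W * r - t} := by
      ext y
      simp only [mem_ofPred_eq, lt_max_iff]
      constructor
      · rintro (h | h) <;> linarith
      · intro h; left; linarith
    rw [hset]
    by_cases htw : t ≤ W * r
    · rw [indicator_of_mem (show t ∈ Ioc 0 (W * r) from ⟨ht0, htw⟩)]
      have hsub : {y | M y < W * r - t} ⊆
          {y | ∀ b, ⟪m b, y⟫ < W * r - t - r * ⟪u b, e⟫} := by
        intro y hy b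
        have h1 := le_maxOver (fun b => ⟪u b, r • e + orth e y⟫) b
        simp only [hinner] at h1
        simp only [mem_ofPred_eq, hM, hinner] at hy
        linarith
      refine (measureReal_mono hsub).trans
        (triangle_le m hm hS hdet _ (by linarith) ?_)
      rw [Finset.sum_sub_distrib, ← Finset.mul_sum, ← sum_inner, hu, inner_zero_left]
      simp; ring
    · rw [indicator_of_notMem (fun h => htw h.2)]
      have : {y | M y < W * r - t} = ∅ :=
        eq_empty_of_forall_notMem fun y hy => by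
          simp only [mem_ofPred_eq] at hy; linarith [hM0 y]
      simp [this]
  have hcont : Continuous fun t : ℝ => 1 - Real.exp (-(K * (W * r - t) ^ 2)) := by fun_prop
  refine (integral_mono_of_nonneg (Eventually.of_forall fun t => measureReal_nonneg)
    ((integrable_indicator_iff measurableSet_Ioc).2
      (hcont.integrableOn_Icc.mono_set Ioc_subset_Icc_self).restrict)
    ((ae_restrict_mem measurableSet_Ioi).mono hb)).trans (le_of_eq ?_)
  rw [setIntegral_indicator measurableSet_Ioc, inter_eq_right.2 Ioc_subset_Ioi_self,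
    ← intervalIntegral.integral_of_le hWr,
    intervalIntegral.integral_comp_sub_left (fun s => 1 - Real.exp (-(K * s ^ 2))),
    sub_self, sub_zero, profile_eq]

lemma integral_Ioi_mul_exp {b : ℝ} (hb : 0 < b) :
    ∫ r in Ioi (0 : ℝ), r * Real.exp (-b * r ^ 2) = 1 / (2 * b) := by
  have hd : ∀ r ∈ Ici (0 : ℝ),
      HasDerivAt (fun r => -Real.exp (-b * r ^ 2) / (2 * b)) (r * Real.exp (-b * r ^ 2)) r := by
    intro r _
    have h2 : HasDerivAt (fun r : ℝ => r ^ 2) (2 * r) r := by simpa using hasDerivAt_pow 2 r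
    refine (((h2.const_mul (-b)).exp).fun_neg.div_const (2 * b)).congr_deriv ?_
    field_simp
  have ht : Tendsto (fun r => -Real.exp (-b * r ^ 2) / (2 * b)) atTop (𝓝 0) := by
    have h1 : Tendsto (fun r : ℝ => -b * r ^ 2) atTop atBot :=
      (tendsto_pow_atTop two_ne_zero).const_mul_atTop_of_neg (by linarith)
    simpa using ((Real.tendsto_exp_atBot.comp h1).neg.div_const (2 * b))
  rw [integral_Ioi_of_hasDerivAt_of_tendsto' hd (integrable_mul_exp_neg_mul_sq hb).integrableOn ht]
  norm_num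
  ring

/-- Gaussian average of the profile. -/
lemma integral_profile {W K : ℝ} (hK : 0 ≤ K) :
    ∫ r in Ioi (0 : ℝ), phi r * profile W K r =
      W * phi 0 * ∫ u in (0 : ℝ)..1,
        2 * K * W ^ 2 * u ^ 2 / (1 + 2 * K * W ^ 2 * u ^ 2) := by
  set F : ℝ → ℝ → ℝ := fun r u => phi r * (r * (1 - Real.exp (-(K * W ^ 2 * r ^ 2 * u ^ 2))))
    with hF
  have hFc : Continuous fun p : ℝ × ℝ => F p.1 p.2 := by
    simp only [hF]
    exact (continuous_phi.comp continuous_fst).mul (by fun_prop)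
  have hFi : Integrable (fun p : ℝ × ℝ => F p.1 p.2)
      ((volume.restrict (Ioi (0 : ℝ))).prod (volume.restrict (Ioc (0 : ℝ) 1))) := by
    refine (((integrable_phi_mul_id.norm).restrict (s := Ioi (0 : ℝ))).mul_prod
      (integrable_const (μ := volume.restrict (Ioc (0 : ℝ) 1)) (1 : ℝ))).mono'
      hFc.aestronglyMeasurable (Eventually.of_forall fun p => ?_)
    simp only [hF, Real.norm_eq_abs, mul_one, abs_mul, ← mul_assoc]
    refine mul_le_of_le_one_right (by positivity) ?_
    have h1 : Real.exp (-(K * W ^ 2 * p.1 ^ 2 * p.2 ^ 2)) ≤ 1 :=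
      Real.exp_le_one_iff.2 (neg_nonpos.2 (by positivity))
    rw [abs_le]
    constructor <;> linarith [Real.exp_pos (-(K * W ^ 2 * p.1 ^ 2 * p.2 ^ 2))]
  have h1 : ∀ r, phi r * profile W K r = W * ∫ u in Ioc (0 : ℝ) 1, F r u := by
    intro r
    rw [profile, intervalIntegral.integral_of_le zero_le_one]
    simp only [hF, integral_const_mul]
    ring
  simp only [h1, integral_const_mul]
  rw [integral_integral_swap hFi, mul_assoc, intervalIntegral.integral_of_le zero_le_one,
    ← integral_const_mul (phi 0)]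
  congr 1
  refine setIntegral_congr_fun measurableSet_Ioc fun u _ => ?_
  set q := K * W ^ 2 * u ^ 2 with hq
  have hq0 : 0 ≤ q := by positivity
  have hb1 : (0 : ℝ) < 1 / 2 := by norm_num
  have hb2 : (0 : ℝ) < 1 / 2 + q := by linarith
  have e : ∀ r, F r u =
      phi 0 * (r * Real.exp (-(1 / 2) * r ^ 2) - r * Real.exp (-(1 / 2 + q) * r ^ 2)) := by
    intro r
    have e2 : Real.exp (-(1 / 2 + q) * r ^ 2) =
        Real.exp (-(1 / 2) * r ^ 2) * Real.exp (-(K * W ^ 2 * r ^ 2 * u ^ 2)) := by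
      rw [← Real.exp_add]; congr 1; rw [hq]; ring
    rw [e2, hF, phi_zero]
    simp only [phi_eq]
    rw [show -r ^ 2 / 2 = -(1 / 2) * r ^ 2 by ring]
    ring
  simp only [e]
  rw [integral_const_mul, integral_sub (integrable_mul_exp_neg_mul_sq hb1).integrableOn
    (integrable_mul_exp_neg_mul_sq hb2).integrableOn, integral_Ioi_mul_exp hb1,
    integral_Ioi_mul_exp hb2]
  have h12 : (0 : ℝ) < 1 + 2 * K * W ^ 2 * u ^ 2 := by positivity
  congr 1
  rw [hq]
  field_simp
  ring

lemma g_le {a : ℝ} (ha : 0 ≤ a) (ha' : a ≤ 89 / 100) :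
    ∫ u in (0 : ℝ)..1, a * u ^ 2 / (1 + a * u ^ 2) ≤
      a * (1 / 3 - a / 5 + a ^ 2 / 7 - a ^ 3 / 9 * (100 / 189)) := by
  have hden : ∀ u : ℝ, (0 : ℝ) < 1 + a * u ^ 2 := fun u => by positivity
  have hc1 : Continuous fun u : ℝ => a * u ^ 2 / (1 + a * u ^ 2) :=
    Continuous.div₀ (by fun_prop) (by fun_prop) fun u => (hden u).ne'
  have hc2 : Continuous fun u : ℝ =>
      a * u ^ 2 - a ^ 2 * u ^ 4 + a ^ 3 * u ^ 6 - a ^ 4 * (100 / 189) * u ^ 8 := by fun_prop
  refine (intervalIntegral.integral_mono_on zero_le_one (hc1.intervalIntegrable _ _)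
    (hc2.intervalIntegrable _ _) fun u hu => ?_).trans (le_of_eq ?_)
  · have hu2 : u ^ 2 ≤ 1 := pow_le_one₀ hu.1 hu.2
    have hx0 : 0 ≤ a * u ^ 2 := by positivity
    have hx : a * u ^ 2 ≤ 89 / 100 := by nlinarith
    rw [div_le_iff₀ (hden u)]
    nlinarith [mul_nonneg (pow_nonneg hx0 4) (sub_nonneg.2 hx)]
  · rw [intervalIntegral.integral_eq_sub_of_hasDerivAt
      (f := fun u => a * u ^ 3 / 3 - a ^ 2 * u ^ 5 / 5 + a ^ 3 * u ^ 7 / 7 -
        a ^ 4 * (100 / 189) * u ^ 9 / 9) (fun u _ => ?_) (hc2.intervalIntegrable _ _)]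
    · ring
    · refine ((((hasDerivAt_pow 3 u).const_mul a).div_const 3).fun_sub
        (((hasDerivAt_pow 5 u).const_mul (a ^ 2)).div_const 5) |>.fun_add
        (((hasDerivAt_pow 7 u).const_mul (a ^ 3)).div_const 7) |>.fun_sub
        (((hasDerivAt_pow 9 u).const_mul (a ^ 4 * (100 / 189))).div_const 9)).congr_deriv ?_
      norm_num
      ring

lemma poly_le {a : ℝ} (ha : 0 ≤ a) (ha' : a ≤ 89 / 100) :
    a * (1 / 3 - a / 5 + a ^ 2 / 7 - a ^ 3 / 9 * (100 / 189)) ^ 2 ≤ 466 / 10000 := by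
  nlinarith [mul_nonneg ha (sub_nonneg.2 ha'), sq_nonneg (a - 89 / 100), sq_nonneg a,
    pow_nonneg ha 3, mul_nonneg (pow_nonneg ha 2) (sub_nonneg.2 ha'),
    mul_nonneg (pow_nonneg ha 3) (sub_nonneg.2 ha'),
    mul_nonneg (pow_nonneg ha 4) (sub_nonneg.2 ha'),
    mul_nonneg (pow_nonneg ha 5) (sub_nonneg.2 ha'),
    mul_nonneg (pow_nonneg ha 6) (sub_nonneg.2 ha')]

lemma final_bound {W S a φ0 I : ℝ} (hW0 : 0 ≤ W) (hW : W ^ 2 ≤ 48 / 1000) (hS : S = 6 / 1000)
    (ha : a = 2 * (9 / (4 * Real.pi * Real.sqrt S)) * W ^ 2) (hφ : φ0 ^ 2 = 1 / (2 * Real.pi))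
    (hφ0 : 0 ≤ φ0)
    (hI : a ≤ 89 / 100 → I ≤ a * (1 / 3 - a / 5 + a ^ 2 / 7 - a ^ 3 / 9 * (100 / 189))) :
    2 * (W * φ0 * I) ≤ 3 / 4 * W ^ 2 := by
  have hπ := Real.pi_gt_d4
  set t := Real.sqrt S with ht
  have ht1 : 7745 / 100000 ≤ t := by
    rw [ht, hS]; exact Real.le_sqrt_of_sq_le (by norm_num)
  have hπt : 31415 / 10000 * (7745 / 100000) ≤ Real.pi * t :=
    mul_le_mul (by linarith) ht1 (by norm_num) Real.pi_pos.le
  have hπt0 : 0 < Real.pi * t := lt_of_lt_of_le (by norm_num) hπt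
  have ha0 : 0 ≤ a := by rw [ha]; positivity
  have hW2 : W ^ 2 = 2 * (Real.pi * t) * a / 9 := by
    have ht0 : t ≠ 0 := by linarith
    rw [ha]; field_simp; ring
  have ha1 : a ≤ 89 / 100 := by nlinarith
  have hI' := hI ha1
  set r := 1 / 3 - a / 5 + a ^ 2 / 7 - a ^ 3 / 9 * (100 / 189) with hr
  have hr0 : 0 ≤ r := by rw [hr]; nlinarith [mul_nonneg ha0 (sub_nonneg.2 ha1), sq_nonneg a]
  have hp := poly_le ha0 ha1
  have hsq : (2 * φ0 * (a * r)) ^ 2 ≤ (3 / 4 * W) ^ 2 := by
    have h2 : (2 * φ0 * (a * r)) ^ 2 = a * (4 * (a * r ^ 2)) / (2 * Real.pi) := by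
      rw [mul_pow, mul_pow, hφ]; ring
    rw [h2, mul_pow, hW2, div_le_iff₀ (by positivity)]
    have h3 : a * (a * r ^ 2) ≤ a * (466 / 10000) := mul_le_mul_of_nonneg_left hp ha0
    have h4 : 31415 / 10000 * (31415 / 10000 * (7745 / 100000)) ≤ Real.pi * (Real.pi * t) :=
      mul_le_mul (by linarith) hπt (by norm_num) Real.pi_pos.le
    nlinarith [mul_le_mul_of_nonneg_left h4 ha0]
  have h5 : 2 * φ0 * (a * r) ≤ 3 / 4 * W :=
    (pow_le_pow_iff_left₀ (by positivity) (by positivity) two_ne_zero).1 hsq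
  have h6 : 2 * φ0 * I ≤ 3 / 4 * W :=
    (mul_le_mul_of_nonneg_left hI' (by positivity)).trans h5
  linarith [mul_le_mul_of_nonneg_left h6 hW0]

end K3

open K3 in
/-- Excess of a scaled coordinate over the maximum of three linear forms with zero sum. -/
theorem excess_le {n : ℕ} (u : Fin 3 → Space n) (hu : ∑ b, u b = 0) (e : Space n) (he : ‖e‖ = 1)
    (W : ℝ) (hW0 : 0 ≤ W) (hW : W ^ 2 ≤ 48 / 1000)
    (hdet : (6:ℝ) / 1000 ≤ ‖orth e (u 0)‖ ^ 2 * ‖orth e (u 1)‖ ^ 2 -
      ⟪orth e (u 0), orth e (u 1)⟫ ^ 2) :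
    2 * ∫ x, max (W * ⟪e, x⟫ - maxOver (fun b => ⟪u b, x⟫)) 0 ∂(gauss n) ≤ 3 / 4 * W ^ 2 := by
  have hint : Integrable (fun x => max (W * ⟪e, x⟫ - maxOver (fun b => ⟪u b, x⟫)) 0) (gauss n) :=
    (((integrable_inner e).const_mul W).sub (integrable_maxInner u)).pos_part
  rw [integral_decomp' he hint]
  have hin : ∀ r y, ⟪e, r • e + orth e y⟫ = r := by
    intro r y
    rw [inner_add_right, real_inner_smul_right, real_inner_self_eq_norm_sq, he, inner_orth he]
    ring
  simp only [hin]
  set K := 9 / (4 * Real.pi * Real.sqrt (6 / 1000)) with hK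
  have hK0 : 0 ≤ K := by positivity
  have hpc : Continuous (profile W K) :=
    continuous_const.mul (intervalIntegral.continuous_parametric_intervalIntegral_of_continuous'
      (f := fun r u : ℝ => r * (1 - Real.exp (-(K * W ^ 2 * r ^ 2 * u ^ 2)))) (by fun_prop) 0 1)
  have hpb : ∀ r, |profile W K r| ≤ W * |r| := by
    intro r
    rw [profile, abs_mul, abs_of_nonneg hW0]
    refine mul_le_mul_of_nonneg_left ?_ hW0
    refine (intervalIntegral.norm_integral_le_of_norm_le_const (a := (0 : ℝ)) (b := 1)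
      (f := fun u : ℝ => r * (1 - Real.exp (-(K * W ^ 2 * r ^ 2 * u ^ 2))))
      (C := |r|) fun u _ => ?_).trans (by simp)
    rw [Real.norm_eq_abs, abs_mul]
    refine mul_le_of_le_one_right (abs_nonneg r) ?_
    have h1 : Real.exp (-(K * W ^ 2 * r ^ 2 * u ^ 2)) ≤ 1 :=
      Real.exp_le_one_iff.2 (neg_nonpos.2 (by positivity))
    rw [abs_le]
    constructor <;> linarith [Real.exp_pos (-(K * W ^ 2 * r ^ 2 * u ^ 2))]
  have hprof : Integrable (fun r => (Ioi (0 : ℝ)).indicator (profile W K) r) gauss1 :=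
    ((integrable_id1.norm.const_mul W).mono' hpc.aestronglyMeasurable
      (Eventually.of_forall fun r => by simpa using hpb r)).indicator measurableSet_Ioi
  have hle := integral_mono_of_nonneg
    (f := fun r => ∫ y, max (W * r - maxOver (fun b => ⟪u b, r • e + orth e y⟫)) 0 ∂(gauss n))
    (Eventually.of_forall fun r => integral_nonneg fun y => le_max_right _ _)
    hprof (Eventually.of_forall fun r => excess_slice hu hW0 (by norm_num) hdet r)
  refine (mul_le_mul_of_nonneg_left hle zero_le_two).trans ?_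
  have e1 : ∫ r, (Ioi (0 : ℝ)).indicator (profile W K) r ∂gauss1 =
      ∫ r in Ioi (0 : ℝ), phi r * profile W K r := by
    rw [integral_phi_smul, ← integral_indicator measurableSet_Ioi]
    refine integral_congr_ae (Eventually.of_forall fun r => ?_)
    exact (indicator_mul_right _ _ _).symm
  rw [e1, integral_profile hK0]
  refine final_bound hW0 hW rfl (a := 2 * K * W ^ 2) (by rw [hK]) phi_zero_sq (phi_nonneg 0)
    fun ha => ?_
  exact g_le (by positivity) ha

end Vale.Agent.P226
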