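import Vale.Agent.P226.Defs

/-!
Lower bound for the Gram quantity of the top three cells.
-/

namespace Vale.Agent.P226

private lemma sum_sq_le_box {x y z l u : ℝ} (hxy : y ≤ x) (hyz : z ≤ y) (hx : x ≤ u) (hz : l ≤ z) :
    x ^ 2 + y ^ 2 + z ^ 2 ≤ u ^ 2 + l ^ 2 + (x + y + z - u - l) ^ 2 := by
  nlinarith [mul_nonneg (sub_nonneg.2 hxy) (sub_nonneg.2 hx),
    mul_nonneg (sub_nonneg.2 hyz) (sub_nonneg.2 hz), sq_nonneg (u - x), sq_nonneg (z - l),
    sq_nonneg (x + y + z - u - l - y)]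

private lemma sum_sq_le_box' {x y z l u : ℝ} (hx : x ≤ u) (hy : y ≤ u) (hz : z ≤ u)
    (gx : l ≤ x) (gy : l ≤ y) (gz : l ≤ z) :
    x ^ 2 + y ^ 2 + z ^ 2 ≤ u ^ 2 + l ^ 2 + (x + y + z - u - l) ^ 2 := by
  rcases le_total x y with h1 | h1 <;> rcases le_total y z with h2 | h2 <;>
    rcases le_total x z with h3 | h3
  · have h := sum_sq_le_box h2 h1 hz gx
    ring_nf at h ⊢
    linarith
  · have h := sum_sq_le_box h2 h1 hz gx
    ring_nf at h ⊢
    linarith
  · have h := sum_sq_le_box h2 h3 hy gx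
    ring_nf at h ⊢
    linarith
  · have h := sum_sq_le_box h1 h3 hy gz
    ring_nf at h ⊢
    linarith
  · have h := sum_sq_le_box h3 h1 hz gy
    ring_nf at h ⊢
    linarith
  · have h := sum_sq_le_box h3 h2 hx gy
    ring_nf at h ⊢
    linarith
  · have h := sum_sq_le_box h1 h2 hx gz
    ring_nf at h ⊢
    linarith
  · have h := sum_sq_le_box h1 h2 hx gz
    ring_nf at h ⊢
    linarith

/-- Lower bound used for the Gram determinant of the top three cells. -/
lemma S_lower {R a b c : ℝ} (hR0 : 0 ≤ R) (hR : R ≤ 0.027)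
    (hsum : c2 - 2 * R ≤ a + b + c)
    (ha : a ≤ 0.163 - 1.3 * R) (hb : b ≤ 0.163 - 1.3 * R) (hc : c ≤ 0.163 - 1.3 * R)
    (hab : a + b ≤ 0.303 - 2 * R) (hac : a + c ≤ 0.303 - 2 * R) (hbc : b + c ≤ 0.303 - 2 * R)
    (ta : a ≤ b + c) (tb : b ≤ a + c) (tc : c ≤ a + b) :
    0.006 ≤ ((a + b + c) ^ 2 - 2 * (a ^ 2 + b ^ 2 + c ^ 2)) / 4 := by
  have hc2 : (0.35809 : ℝ) ≤ c2 := by
    rw [c2, le_div_iff₀ (by positivity)]
    nlinarith [Real.pi_lt_d4]
  set s := a + b + c with hs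
  set L : ℝ := 0.35809 - 2 * R with hL
  have hbox := sum_sq_le_box' (x := b + c - a) (y := a + c - b) (z := a + b - c)
    (l := s - 0.326 + 2.6 * R) (u := 0.606 - 4 * R - s)
    (by linarith) (by linarith) (by linarith) (by linarith) (by linarith) (by linarith)
  have hd : 0 ≤ s - L := by rw [hL]; linarith
  have hu : 0 ≤ 0.606 - 4 * R - s := by linarith
  have hu' : 0 ≤ 0.606 - 4 * R - L := by rw [hL]; linarith
  -- twice the target at the box vertex, as a function of the sum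
  set g : ℝ → ℝ := fun t => t ^ 2 - (0.606 - 4 * R - t) ^ 2 - (t - 0.326 + 2.6 * R) ^ 2
    - (t - (0.606 - 4 * R - t) - (t - 0.326 + 2.6 * R)) ^ 2 with hg
  have h1 : g s ≤ 2 * (s ^ 2 - 2 * (a ^ 2 + b ^ 2 + c ^ 2)) := by
    have e1 : (b + c - a) + (a + c - b) + (a + b - c) = s := by rw [hs]; ring
    have e2 : (b + c - a) ^ 2 + (a + c - b) ^ 2 + (a + b - c) ^ 2
        = 4 * (a ^ 2 + b ^ 2 + c ^ 2) - s ^ 2 := by rw [hs]; ring
    rw [e1, e2] at hbox
    simp only [hg]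
    linarith
  have h2 : g L ≤ g s := by
    have e : g s - g L = 2 * ((s - L) * ((0.606 - 4 * R - L) + (0.606 - 4 * R - s))) := by
      simp only [hg]; ring
    have : 0 ≤ (s - L) * ((0.606 - 4 * R - L) + (0.606 - 4 * R - s)) :=
      mul_nonneg hd (by linarith)
    linarith
  have h3 : 0.048 ≤ g L := by
    have hpr : 0 ≤ R * (0.027 - R) := mul_nonneg hR0 (sub_nonneg.2 hR)
    simp only [hg, hL]
    ring_nf at hpr ⊢
    linarith
  linarith

end Vale.Agent.P226
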