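import Vale.Agent.P226.Cells
import Vale.Agent.P226.K3Geom
import Vale.Agent.P226.SLower

/-!
The three large cells control all the others: a bad maximiser cannot have a small tail.
-/

open MeasureTheory ProbabilityTheory Filter Set Function
open scoped RealInnerProductSpace

namespace Vale.Agent.P226

variable {n k : ℕ} [NeZero k] {v : Fin k → Space n}

/-- A Gram determinant dominates the determinant of a smaller positive form. -/
lemma gram_det_ge {x y : Space n} {A B C : ℝ} (hA : 0 ≤ A) (hC : 0 ≤ C) (hB : B ^ 2 ≤ A * C)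
    (h : ∀ a b : ℝ, A * a ^ 2 + 2 * B * (a * b) + C * b ^ 2 ≤ ‖a • x + b • y‖ ^ 2) :
    A * C - B ^ 2 ≤ ‖x‖ ^ 2 * ‖y‖ ^ 2 - ⟪x, y⟫ ^ 2 := by
  have he : ∀ a b : ℝ, ‖a • x + b • y‖ ^ 2 =
      a ^ 2 * ‖x‖ ^ 2 + 2 * (a * b) * ⟪x, y⟫ + b ^ 2 * ‖y‖ ^ 2 := by
    intro a b
    rw [norm_add_sq_real, norm_smul, norm_smul, mul_pow, mul_pow, Real.norm_eq_abs, sq_abs,
      Real.norm_eq_abs, sq_abs, real_inner_smul_left, real_inner_smul_right]
    ring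
  set P := ‖x‖ ^ 2 - A with hP
  set Q := ⟪x, y⟫ - B with hQ
  set R := ‖y‖ ^ 2 - C with hR
  have hq : ∀ t : ℝ, 0 ≤ P * (t * t) + 2 * Q * t + R := by
    intro t
    have := h t 1
    rw [he] at this
    simp only [hP, hQ, hR]
    nlinarith
  have hd := discrim_le_zero hq
  have hP0 : 0 ≤ P := by
    have := h 1 0
    rw [he] at this
    simp only [hP]
    nlinarith
  have hR0 : 0 ≤ R := by
    have := hq 0
    linarith
  simp only [discrim] at hd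
  have h1 : (2 * Q * B) ^ 2 ≤ (P * C + R * A) ^ 2 := by
    nlinarith [mul_le_mul (show Q ^ 2 ≤ P * R by nlinarith) hB (sq_nonneg B) (by positivity),
      sq_nonneg (P * C - R * A)]
  have h2 : 2 * Q * B ≤ P * C + R * A := by
    nlinarith [abs_le_of_sq_le_sq' h1 (by positivity)]
  simp only [hP, hQ, hR] at h2 hd
  nlinarith

lemma sq_sum_three_le {g0 g1 g2 C0 C1 C2 N a b c : ℝ} (h0 : 0 ≤ g0) (h1 : 0 ≤ g1) (h2 : 0 ≤ g2)
    (e0 : g0 ≤ C0) (e1 : g1 ≤ C1) (e2 : g2 ≤ C2) (hN : g0 + g1 + g2 ≤ N) :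
    (a * g0 + b * g1 + c * g2) ^ 2 ≤ N * (C0 * a ^ 2 + C1 * b ^ 2 + C2 * c ^ 2) := by
  have h : (a * g0 + b * g1 + c * g2) ^ 2 ≤
      (g0 + g1 + g2) * (g0 * a ^ 2 + g1 * b ^ 2 + g2 * c ^ 2) := by
    nlinarith [mul_nonneg (mul_nonneg h0 h1) (sq_nonneg (a - b)),
      mul_nonneg (mul_nonneg h1 h2) (sq_nonneg (b - c)),
      mul_nonneg (mul_nonneg h0 h2) (sq_nonneg (a - c))]
  refine h.trans (mul_le_mul hN ?_ ?_ ?_)
  · nlinarith [mul_le_mul_of_nonneg_right e0 (sq_nonneg a),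
      mul_le_mul_of_nonneg_right e1 (sq_nonneg b), mul_le_mul_of_nonneg_right e2 (sq_nonneg c)]
  · positivity
  · linarith

lemma Bad.norm_sum_sq_le (hv : Bad v) (S : Finset (Fin k)) :
    ‖∑ i ∈ S, v i‖ ^ 2 ≤ ∑ i ∈ S, ‖v i‖ ^ 2 := by
  induction S using Finset.induction_on with
  | empty => simp
  | @insert a s ha ih =>
    rw [Finset.sum_insert ha, Finset.sum_insert ha, norm_add_sq_real, inner_sum]
    have : ∑ i ∈ s, ⟪v a, v i⟫ ≤ 0 :=
      Finset.sum_nonpos fun i hi => hv.inner_le_zero fun e => ha (e ▸ hi)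
    linarith

lemma Bad.sum_split (hv : Bad v) (S : Finset (Fin k)) :
    ∑ i ∈ S, v i = -∑ i ∈ Sᶜ, v i := by
  rw [eq_neg_iff_add_eq_zero, Finset.sum_add_sum_compl, hv.sum_eq_zero]

/-- The positive excess of a direction over three centred vectors, with a scale. -/
lemma excess_scaled (u : Fin 3 → Space n) (hu : ∑ b, u b = 0) (z : Space n) {c : ℝ} (hc : 0 < c)
    (hW : ‖z‖ ^ 2 ≤ 48 / 1000 * c ^ 2)
    (hdet : z ≠ 0 → (6:ℝ) / 1000 ≤ ‖orth (‖z‖⁻¹ • z) (u 0)‖ ^ 2 * ‖orth (‖z‖⁻¹ • z) (u 1)‖ ^ 2 -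
      ⟪orth (‖z‖⁻¹ • z) (u 0), orth (‖z‖⁻¹ • z) (u 1)⟫ ^ 2) :
    2 * ∫ x, max (⟪z, x⟫ - c * maxOver (fun b => ⟪u b, x⟫)) 0 ∂(gauss n)
      ≤ 3 / (4 * c) * ‖z‖ ^ 2 := by
  by_cases hz : z = 0
  · subst hz
    have : ∀ x : Space n, max (⟪(0:Space n), x⟫ - c * maxOver (fun b => ⟪u b, x⟫)) 0 = 0 := by
      intro x
      have h := avg_le_maxOver fun b => ⟪u b, x⟫
      rw [← sum_inner, hu, inner_zero_left, zero_div] at h
      rw [inner_zero_left, max_eq_right]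
      nlinarith
    simp only [this, integral_zero]
    simp
  have hn : 0 < ‖z‖ := norm_pos_iff.2 hz
  have he : ‖(‖z‖⁻¹ • z)‖ = 1 := by rw [norm_smul, norm_inv, norm_norm, inv_mul_cancel₀ hn.ne']
  have h := excess_le u hu (‖z‖⁻¹ • z) he (‖z‖ / c) (by positivity)
    (by rw [div_pow, div_le_iff₀ (by positivity)]; exact hW) (hdet hz)
  have e : ∀ x, max (⟪z, x⟫ - c * maxOver (fun b => ⟪u b, x⟫)) 0 =
      c * max (‖z‖ / c * ⟪‖z‖⁻¹ • z, x⟫ - maxOver (fun b => ⟪u b, x⟫)) 0 := by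
    intro x
    rw [mul_max_of_nonneg _ _ hc.le, mul_zero, real_inner_smul_left]
    congr 1
    field_simp
  simp only [e, integral_const_mul]
  calc 2 * (c * ∫ x, max (‖z‖ / c * ⟪‖z‖⁻¹ • z, x⟫ - maxOver fun b => ⟪u b, x⟫) 0 ∂gauss n)
      = c * (2 * ∫ x, max (‖z‖ / c * ⟪‖z‖⁻¹ • z, x⟫ - maxOver fun b => ⟪u b, x⟫) 0 ∂gauss n) := by
        ring
    _ ≤ c * (3 / 4 * (‖z‖ / c) ^ 2) := mul_le_mul_of_nonneg_left h hc.le
    _ = _ := by field_simp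

lemma gram_lower (w : Fin 3 → Space n) {z : Space n} (hz : z ≠ 0) {c01 c02 c12 : ℝ}
    (p01 : 0 ≤ c01) (p02 : 0 ≤ c02) (p12 : 0 ≤ c12) (e01 : ⟪w 0, w 1⟫ = -c01)
    (e02 : ⟪w 0, w 2⟫ = -c02) (e12 : ⟪w 1, w 2⟫ = -c12)
    (hadm : ∀ a b c : ℝ, (a * ⟪w 0, z⟫ + b * ⟪w 1, z⟫ + c * ⟪w 2, z⟫) ^ 2 ≤
      ‖z‖ ^ 2 * ((‖w 0‖ ^ 2 - c01 - c02) * a ^ 2 + (‖w 1‖ ^ 2 - c01 - c12) * b ^ 2 +
        (‖w 2‖ ^ 2 - c02 - c12) * c ^ 2)) :
    c01 * c02 + c01 * c12 + c02 * c12 ≤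
      ‖orth (‖z‖⁻¹ • z) (w 0 - (3 : ℝ)⁻¹ • ∑ b, w b)‖ ^ 2 *
        ‖orth (‖z‖⁻¹ • z) (w 1 - (3 : ℝ)⁻¹ • ∑ b, w b)‖ ^ 2 -
      ⟪orth (‖z‖⁻¹ • z) (w 0 - (3 : ℝ)⁻¹ • ∑ b, w b),
        orth (‖z‖⁻¹ • z) (w 1 - (3 : ℝ)⁻¹ • ∑ b, w b)⟫ ^ 2 := by
  have hn : 0 < ‖z‖ := norm_pos_iff.2 hz
  set e := ‖z‖⁻¹ • z with he
  have he1 : ‖e‖ = 1 := by rw [he, norm_smul, norm_inv, norm_norm, inv_mul_cancel₀ hn.ne']
  refine le_trans (le_of_eq ?_) (gram_det_ge (A := c01 + c02) (B := -c01)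
    (C := c01 + c12) (by linarith) (by linarith)
    (by nlinarith [mul_nonneg p01 p12, mul_nonneg p02 p01, mul_nonneg p02 p12]) ?_)
  · ring
  intro a b
  set α := a - (a + b) / 3 with hα
  set β := b - (a + b) / 3 with hβ
  set δ := -(a + b) / 3 with hδ
  set X := α • w 0 + β • w 1 + δ • w 2 with hX
  have hXu : a • orth e (w 0 - (3 : ℝ)⁻¹ • ∑ b, w b) + b • orth e (w 1 - (3 : ℝ)⁻¹ • ∑ b, w b) =
      orth e X := by
    have hX' : X = a • (w 0 - (3 : ℝ)⁻¹ • ∑ b, w b) + b • (w 1 - (3 : ℝ)⁻¹ • ∑ b, w b) := by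
      simp only [hX, hα, hβ, hδ, Fin.sum_univ_three]
      module
    rw [hX']
    simp only [orth, inner_add_right, real_inner_smul_right]
    module
  rw [hXu]
  have hn2 : ‖orth e X‖ ^ 2 = ‖X‖ ^ 2 - ⟪z, X⟫ ^ 2 / ‖z‖ ^ 2 := by
    rw [orth, norm_sub_sq_real, real_inner_smul_right, norm_smul, he1, mul_one, Real.norm_eq_abs,
      sq_abs, real_inner_comm e X, he, real_inner_smul_left]
    field_simp
    ring
  have hzX : ⟪z, X⟫ ^ 2 / ‖z‖ ^ 2 ≤ (‖w 0‖ ^ 2 - c01 - c02) * α ^ 2 +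
      (‖w 1‖ ^ 2 - c01 - c12) * β ^ 2 + (‖w 2‖ ^ 2 - c02 - c12) * δ ^ 2 := by
    rw [div_le_iff₀ (by positivity), mul_comm]
    refine le_trans (le_of_eq ?_) (hadm α β δ)
    simp only [hX, inner_add_right, real_inner_smul_right, real_inner_comm z]
  have hX2 : ‖X‖ ^ 2 = c01 * (α - β) ^ 2 + c02 * (α - δ) ^ 2 + c12 * (β - δ) ^ 2 +
      ((‖w 0‖ ^ 2 - c01 - c02) * α ^ 2 + (‖w 1‖ ^ 2 - c01 - c12) * β ^ 2 +
        (‖w 2‖ ^ 2 - c02 - c12) * δ ^ 2) := by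
    rw [← real_inner_self_eq_norm_sq, hX]
    simp only [inner_add_left, inner_add_right, real_inner_smul_left, real_inner_smul_right,
      real_inner_comm (w 0) (w 1), real_inner_comm (w 0) (w 2), real_inner_comm (w 1) (w 2),
      e01, e02, e12]
    simp only [real_inner_self_eq_norm_sq]
    ring
  rw [hn2, hX2]
  have d1 : α - β = a - b := by rw [hα, hβ]; ring
  have d2 : α - δ = a := by rw [hα, hδ]; ring
  have d3 : β - δ = b := by rw [hβ, hδ]; ring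
  rw [d1, d2, d3]
  linarith

omit [NeZero k] in
/-- Splitting the expected maximum into three main vectors and the excesses of the others. -/
lemma psi_split [Nonempty (Fin k)] (v : Fin k → Space n) (f : Fin 3 → Fin k) (u : Fin 3 → Space n)
    (m : Space n) (hu : ∑ b, u b = 0) (hum : ∀ b, u b = v (f b) - m) :
    psi v ≤ psi u +
      ∑ i ∈ (Finset.univ.image f)ᶜ,
        ∫ x, max (⟪v i, x⟫ - 3 / 4 * maxOver (fun b => ⟪u b, x⟫)) 0 ∂(gauss n) +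
      ∫ x, max (⟪-m, x⟫ - 1 / 4 * maxOver (fun b => ⟪u b, x⟫)) 0 ∂(gauss n) := by
  classical
  set S := (Finset.univ.image f)ᶜ with hS
  have hN0 : ∀ x, 0 ≤ maxOver (fun b => ⟪u b, x⟫) := by
    intro x
    have h := avg_le_maxOver fun b => ⟪u b, x⟫
    rwa [← sum_inner, hu, inner_zero_left, zero_div] at h
  have hpt : ∀ x, maxOver (fun j => ⟪v j, x⟫) ≤ ⟪m, x⟫ + maxOver (fun b => ⟪u b, x⟫) +
      ∑ i ∈ S, max (⟪v i, x⟫ - 3 / 4 * maxOver (fun b => ⟪u b, x⟫)) 0 +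
      max (⟪-m, x⟫ - 1 / 4 * maxOver (fun b => ⟪u b, x⟫)) 0 := by
    intro x
    refine maxOver_le fun j => ?_
    have hs0 : 0 ≤ ∑ i ∈ S, max (⟪v i, x⟫ - 3 / 4 * maxOver (fun b => ⟪u b, x⟫)) 0 :=
      Finset.sum_nonneg fun i _ => le_max_right _ _
    by_cases hj : j ∈ S
    · have := Finset.single_le_sum
        (f := fun i => max (⟪v i, x⟫ - 3 / 4 * maxOver (fun b => ⟪u b, x⟫)) 0)
        (fun i _ => le_max_right _ _) hj
      have h5 := le_max_left (⟪-m, x⟫ - 1 / 4 * maxOver (fun b => ⟪u b, x⟫)) 0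
      have h6 := le_max_left (⟪v j, x⟫ - 3 / 4 * maxOver (fun b => ⟪u b, x⟫)) 0
      rw [inner_neg_left] at h5 ⊢
      linarith
    · obtain ⟨b, rfl⟩ : ∃ b, f b = j := by simpa [hS] using hj
      have h5 : ⟪u b, x⟫ ≤ maxOver (fun b => ⟪u b, x⟫) := le_maxOver (fun b => ⟪u b, x⟫) b
      have h6 : ⟪u b, x⟫ = ⟪v (f b), x⟫ - ⟪m, x⟫ := by rw [hum b, inner_sub_left]
      have := le_max_right (⟪-m, x⟫ - 1 / 4 * maxOver (fun b => ⟪u b, x⟫)) 0
      linarith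
  have iN : Integrable (fun x => maxOver (fun b => ⟪u b, x⟫)) (gauss n) := integrable_maxInner u
  have iS : ∀ i ∈ S, Integrable
      (fun x => max (⟪v i, x⟫ - 3 / 4 * maxOver (fun b => ⟪u b, x⟫)) 0) (gauss n) := fun i _ =>
    ((integrable_inner (v i)).sub (iN.const_mul _)).pos_part
  have iM : Integrable (fun x => max (⟪-m, x⟫ - 1 / 4 * maxOver (fun b => ⟪u b, x⟫)) 0) (gauss n) :=
    ((integrable_inner (-m)).sub (iN.const_mul _)).pos_part
  have i1 : Integrable (fun x => ⟪m, x⟫ + maxOver (fun b => ⟪u b, x⟫)) (gauss n) :=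
    (integrable_inner m).add iN
  have i2 : Integrable (fun x => ⟪m, x⟫ + maxOver (fun b => ⟪u b, x⟫) +
      ∑ i ∈ S, max (⟪v i, x⟫ - 3 / 4 * maxOver (fun b => ⟪u b, x⟫)) 0) (gauss n) :=
    i1.add (integrable_finsetSum _ iS)
  refine (integral_mono (integrable_maxInner v) (i2.add iM) hpt).trans (le_of_eq ?_)
  simp only [Pi.add_apply]
  rw [integral_add i2 iM, integral_add i1 (integrable_finsetSum _ iS),
    integral_add (integrable_inner m) iN, integral_finsetSum _ iS, integral_inner_eq_zero,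
    zero_add]
  rfl

/-- No bad maximiser has three cells carrying almost everything. -/
theorem Bad.no_small_tail (hv : Bad v) (f : Fin 3 → Fin k) (hf : Injective f) {R : ℝ}
    (hR : ∑ i ∈ (Finset.univ.image f)ᶜ, ‖v i‖ ^ 2 = R) (hR1 : R ≤ 0.027)
    (hone : ∀ b, ‖v (f b)‖ ^ 2 ≤ 0.163 - 1.3 * R)
    (htwo : ∀ b c, b ≠ c → ‖v (f b)‖ ^ 2 + ‖v (f c)‖ ^ 2 ≤ 0.303 - 2 * R) : False := by
  classical
  set S := (Finset.univ.image f)ᶜ with hS
  have hR0 : 0 ≤ R := hR ▸ Finset.sum_nonneg fun i _ => sq_nonneg _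
  have himg : ∀ (g : Fin k → Space n), ∑ i ∈ Sᶜ, g i = ∑ b, g (f b) := fun g => by
    rw [hS, compl_compl, Finset.sum_image fun a _ b _ h => hf h]
  set V3 := ∑ b, v (f b) with hV
  have hVS : V3 = -∑ i ∈ S, v i := by
    rw [hV, ← himg v, hv.sum_split, compl_compl]
  have hVR : ‖V3‖ ^ 2 ≤ R := by
    rw [hVS, norm_neg, ← hR]
    exact hv.norm_sum_sq_le S
  set v0 := v (f 0) with h0
  set v1 := v (f 1) with h1
  set v2 := v (f 2) with h2
  have n01 : f 0 ≠ f 1 := hf.ne (by decide)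
  have n02 : f 0 ≠ f 2 := hf.ne (by decide)
  have n12 : f 1 ≠ f 2 := hf.ne (by decide)
  set c01 := -⟪v0, v1⟫ with hc01
  set c02 := -⟪v0, v2⟫ with hc02
  set c12 := -⟪v1, v2⟫ with hc12
  have c01nn : 0 ≤ c01 := neg_nonneg.2 (hv.inner_le_zero n01)
  have c02nn : 0 ≤ c02 := neg_nonneg.2 (hv.inner_le_zero n02)
  have c12nn : 0 ≤ c12 := neg_nonneg.2 (hv.inner_le_zero n12)
  set C0 := ‖v0‖ ^ 2 - c01 - c02 with hC0
  set C1 := ‖v1‖ ^ 2 - c01 - c12 with hC1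
  set C2 := ‖v2‖ ^ 2 - c02 - c12 with hC2
  have hC : ∀ b, ⟪v (f b), V3⟫ = ![C0, C1, C2] b := by
    intro b
    fin_cases b <;>
      simp [hV, Fin.sum_univ_three, inner_add_right, hC0, hC1, hC2, hc01, hc02, hc12, ← h0, ← h1,
        ← h2, real_inner_comm v1 v0, real_inner_comm v2 v0, real_inner_comm v2 v1] <;> ring
  have hnotmem : ∀ b, f b ∉ S := fun b => by simp [hS]
  -- the inner products with any tail vector are controlled by `C`
  have hCle : ∀ b, ∀ i ∈ S, -⟪v (f b), v i⟫ ≤ ![C0, C1, C2] b := by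
    intro b i hi
    rw [← hC b, hVS, inner_neg_right, inner_sum, ← Finset.sum_neg_distrib]
    exact Finset.single_le_sum (f := fun i => -⟪v (f b), v i⟫)
      (fun j hj => neg_nonneg.2 (hv.inner_le_zero fun e : f b = j => hnotmem b (e ▸ hj))) hi
  have hCnn : ∀ b, 0 ≤ ![C0, C1, C2] b := by
    intro b
    rw [← hC b, hVS, inner_neg_right, inner_sum, ← Finset.sum_neg_distrib]
    exact Finset.sum_nonneg fun j hj =>
      neg_nonneg.2 (hv.inner_le_zero fun e : f b = j => hnotmem b (e ▸ hj))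
  have C0nn : 0 ≤ C0 := by simpa using hCnn 0
  have C1nn : 0 ≤ C1 := by simpa using hCnn 1
  have C2nn : 0 ≤ C2 := by simpa using hCnn 2
  have hVC : ‖V3‖ ^ 2 = C0 + C1 + C2 := by
    rw [← real_inner_self_eq_norm_sq]
    rw [show ⟪V3, V3⟫ = ∑ b, ⟪v (f b), V3⟫ by rw [hV, sum_inner], Fin.sum_univ_three, hC, hC, hC]
    simp
  -- the lower bound on `S`
  have hsumT : ∑ b, ‖v (f b)‖ ^ 2 = sumSq v - R := by
    rw [sumSq, ← Finset.sum_add_sum_compl S, hR, hS, compl_compl,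
      Finset.sum_image fun a _ b _ h => hf h]
    ring
  rw [Fin.sum_univ_three] at hsumT
  have hSb : (6:ℝ) / 1000 ≤ c01 * c02 + c01 * c12 + c02 * c12 := by
    have o0 := hone 0
    have o1 := hone 1
    have o2 := hone 2
    have t01 := htwo 0 1 (by decide)
    have t02 := htwo 0 2 (by decide)
    have t12 := htwo 1 2 (by decide)
    simp only [← h0, ← h1, ← h2] at o0 o1 o2 t01 t02 t12 hsumT
    have hl := S_lower (R := R) (a := c01 + c02) (b := c01 + c12) (c := c02 + c12) hR0 hR1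
      (by linarith [hv.c2_lt, hVR, hVC, hC0, hC1, hC2]) (by linarith) (by linarith) (by linarith)
      (by linarith) (by linarith) (by linarith) (by linarith) (by linarith) (by linarith)
    have e : ((c01 + c02 + (c01 + c12) + (c02 + c12)) ^ 2 -
        2 * ((c01 + c02) ^ 2 + (c01 + c12) ^ 2 + (c02 + c12) ^ 2)) / 4 =
        c01 * c02 + c01 * c12 + c02 * c12 := by ring
    rw [e] at hl
    norm_num at hl ⊢
    exact hl
  -- centred vectors
  set m : Space n := (3 : ℝ)⁻¹ • V3 with hm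
  let u : Fin 3 → Space n := fun b => v (f b) - m
  have hu : ∑ b, u b = 0 := by
    simp only [u, Finset.sum_sub_distrib, Finset.sum_const, Finset.card_univ, Fintype.card_fin]
    rw [← hV, hm]
    module
  have hu2 : ∑ b, ‖v (f b)‖ ^ 2 = ∑ b, ‖u b‖ ^ 2 + 3 * ‖m‖ ^ 2 := by
    have e : ∀ b, ‖v (f b)‖ ^ 2 = ‖u b‖ ^ 2 + 2 * ⟪u b, m⟫ + ‖m‖ ^ 2 := fun b => by
      rw [← norm_add_sq_real]; simp [u]
    simp only [e, Finset.sum_add_distrib, ← Finset.mul_sum, ← sum_inner, hu, inner_zero_left]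
    simp
  -- Gram determinant, for an admissible direction
  have hgram : ∀ z : Space n, z ≠ 0 → (∀ a b c : ℝ, (a * ⟪v0, z⟫ + b * ⟪v1, z⟫ + c * ⟪v2, z⟫) ^ 2 ≤
      ‖z‖ ^ 2 * (C0 * a ^ 2 + C1 * b ^ 2 + C2 * c ^ 2)) →
      (6:ℝ) / 1000 ≤ ‖orth (‖z‖⁻¹ • z) (u 0)‖ ^ 2 * ‖orth (‖z‖⁻¹ • z) (u 1)‖ ^ 2 -
        ⟪orth (‖z‖⁻¹ • z) (u 0), orth (‖z‖⁻¹ • z) (u 1)⟫ ^ 2 := by
    intro z hz hadm
    refine hSb.trans (gram_lower (fun b => v (f b)) hz c01nn c02nn c12nn ?_ ?_ ?_ (fun a b c => ?_))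
    · simp [hc01, h0, h1]
    · simp [hc02, h0, h2]
    · simp [hc12, h1, h2]
    · exact hadm a b c
  -- tail vectors
  have hterm : ∀ i ∈ S, 2 * ∫ x, max (⟪v i, x⟫ - 3 / 4 * maxOver (fun b => ⟪u b, x⟫)) 0 ∂(gauss n)
      ≤ ‖v i‖ ^ 2 := by
    intro i hi
    have hsmall : ‖v i‖ ^ 2 ≤ R := hR ▸ Finset.single_le_sum (f := fun i => ‖v i‖ ^ 2)
      (fun _ _ => sq_nonneg _) hi
    refine (excess_scaled u hu (v i) (c := 3 / 4) (by norm_num) (by linarith)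
      fun hz => hgram _ hz fun a b c => ?_).trans (le_of_eq (by ring))
    have g : ∀ b, 0 ≤ -⟪v (f b), v i⟫ := fun b =>
      neg_nonneg.2 (hv.inner_le_zero fun e : f b = i => hnotmem b (e ▸ hi))
    have hN : -⟪v0, v i⟫ + -⟪v1, v i⟫ + -⟪v2, v i⟫ ≤ ‖v i‖ ^ 2 := by
      have hh : ⟪∑ j, v j, v i⟫ = (0:ℝ) := by rw [hv.sum_eq_zero, inner_zero_left]
      rw [← Finset.sum_add_sum_compl S, inner_add_left, himg v, sum_inner, sum_inner,
        Fin.sum_univ_three, ← Finset.add_sum_erase _ _ hi, real_inner_self_eq_norm_sq] at hh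
      have : ∑ j ∈ S.erase i, ⟪v j, v i⟫ ≤ 0 :=
        Finset.sum_nonpos fun j hj => hv.inner_le_zero (Finset.ne_of_mem_erase hj)
      simp only [← h0, ← h1, ← h2] at hh
      linarith
    have := sq_sum_three_le (a := a) (b := b) (c := c) (g 0) (g 1) (g 2)
      (by simpa using hCle 0 i hi) (by simpa using hCle 1 i hi) (by simpa using hCle 2 i hi) hN
    simp only [← h0, ← h1, ← h2] at this ⊢
    linarith
  have hmterm : 2 * ∫ x, max (⟪-m, x⟫ - 1 / 4 * maxOver (fun b => ⟪u b, x⟫)) 0 ∂(gauss n)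
      ≤ 3 * ‖m‖ ^ 2 := by
    have hm2 : ‖-m‖ ^ 2 = ‖V3‖ ^ 2 / 9 := by
      rw [norm_neg, hm, norm_smul, mul_pow, Real.norm_eq_abs, sq_abs]; ring
    refine (excess_scaled u hu (-m) (c := 1 / 4) (by norm_num) (by rw [hm2]; linarith)
      fun hz => hgram _ hz fun a b c => ?_).trans (le_of_eq (by rw [norm_neg]; ring))
    have hval : ∀ b, ⟪v (f b), -m⟫ = -(![C0, C1, C2] b / 3) := fun b => by
      rw [hm, inner_neg_right, real_inner_smul_right, hC]; ring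
    have v0m := hval 0
    have v1m := hval 1
    have v2m := hval 2
    simp only [← h0, ← h1, ← h2, Matrix.cons_val_zero, Matrix.cons_val_one, Matrix.cons_val] at v0m v1m v2m
    rw [v0m, v1m, v2m, hm2, hVC]
    have := sq_sum_three_le (a := a) (b := b) (c := c) C0nn C1nn C2nn le_rfl le_rfl le_rfl
      (le_refl (C0 + C1 + C2))
    have e : (a * -(C0 / 3) + b * -(C1 / 3) + c * -(C2 / 3)) ^ 2 =
        (a * C0 + b * C1 + c * C2) ^ 2 / 9 := by ring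
    rw [e, div_mul_eq_mul_div]
    linarith
  -- the pointwise bound
  have hψ := psi_split v f u m hu (fun b => rfl)
  have hJu := J_le_of_three u
  have hgt := hv.gt
  have hsum : ∑ i ∈ S, 2 * ∫ x, max (⟪v i, x⟫ - 3 / 4 * maxOver (fun b => ⟪u b, x⟫)) 0 ∂(gauss n)
      ≤ R := hR ▸ Finset.sum_le_sum hterm
  rw [← Finset.mul_sum] at hsum
  simp only [J] at hJu hgt
  have hF : ∑ i, ‖v i‖ ^ 2 = R + ∑ b, ‖v (f b)‖ ^ 2 := by
    rw [← Finset.sum_add_sum_compl S, hR, hS, compl_compl, Finset.sum_image fun a _ b _ h => hf h]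
  linarith

end Vale.Agent.P226
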