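import Vale.Agent.P226.K3
import Vale.Agent.P226.Cap
import Vale.Agent.P226.CertSound

/-!
The propeller inequality for any number of vectors, by induction.
-/

open MeasureTheory ProbabilityTheory Filter Set Function
open scoped RealInnerProductSpace

namespace Vale.Agent.P226

variable {n k : ℕ} [NeZero k] {v : Fin k → Space n}

/-- Four cells of a bad maximiser, against the cap bound. -/
lemma Bad.hybrid (hv : Bad v) (f : Fin 4 → Fin k) (hf : Injective f) :
    ∃ p' : Fin 4 → ℝ, (∀ b, cellMass v (f b) ≤ p' b) ∧ ∑ b, p' b = 1 ∧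
      sumSq v ≤ ∑ b, capBound (p' b) + 5 / 4 * ∑ i ∈ (Finset.univ.image f)ᶜ, ‖v i‖ ^ 2 := by
  classical
  set S := (Finset.univ.image f)ᶜ with hS
  have himg : ∀ {M : Type} [AddCommMonoid M] (g : Fin k → M), ∑ i ∈ Sᶜ, g i = ∑ b, g (f b) := by
    intro M _ g
    rw [hS, compl_compl, Finset.sum_image fun a _ b _ h => hf h]
  have hn : 3 ≤ n := by
    have hli : LinearIndependent ℝ (fun b : Fin 3 => v (f b.castSucc)) := by
      rw [Fintype.linearIndependent_iff]
      intro g hg b
      let c : Fin k → ℝ := fun i => ∑ b : Fin 3, if f b.castSucc = i then g b else 0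
      have hc : ∑ i, c i • v i = 0 := by
        simp only [c, Finset.sum_smul, ite_smul, zero_smul]
        rw [Finset.sum_comm]
        simpa using hg
      have e1 : c (f b.castSucc) = g b := by
        simp [c, hf.eq_iff]
      have e2 : c (f 3) = 0 := by
        refine Finset.sum_eq_zero fun d _ => if_neg fun h => ?_
        exact absurd (hf h) (Fin.castSucc_lt_last d).ne
      rw [← e1, hv.coeff_eq hc (f b.castSucc) (f 3), e2]
    simpa using hli.fintype_card_le_finrank
  set V := ∑ b, v (f b) with hV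
  set m : Space n := (4 : ℝ)⁻¹ • V with hm
  let u : Fin 4 → Space n := fun b => v (f b) - m
  have hu : ∑ b, u b = 0 := by
    simp only [u, Finset.sum_sub_distrib, Finset.sum_const, Finset.card_univ, Fintype.card_fin]
    rw [← hV, hm]
    module
  obtain ⟨p', hp0, hp1, hps, hJ⟩ := cap_four hn u hu
  have hsub : ∀ b, ∀ x ∈ strictCell v (f b), ∀ j, j ≠ b → ⟪u j, x⟫ < ⟪u b, x⟫ := by
    intro b x hx j hj
    simp only [u, inner_sub_left]
    linarith [hx (f j) (hf.ne hj)]
  refine ⟨p', fun b => hps b _ (measurableSet_strictCell v (f b)) (hsub b), hp1, ?_⟩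
  -- `∑ ‖u‖² ≤ ψ u`
  have hd : Pairwise (Disjoint on fun b => strictCell v (f b)) := by
    intro b c hbc
    rw [Function.onFun, Set.disjoint_left]
    intro x hb hc
    have h1 := hb (f c) (hf.ne hbc.symm)
    have h2 := hc (f b) (hf.ne hbc)
    linarith
  have hψ : ∑ b, ⟪u b, v (f b)⟫ ≤ psi u := by
    have e : ∀ b, ⟪u b, v (f b)⟫ = ∫ x in strictCell v (f b), ⟪u b, x⟫ ∂(gauss n) := by
      intro b
      haveI := hv.nonempty_others (f b)
      rw [← inner_moment, hv.moment_strictCell (f b)]
    simp only [e]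
    refine (Finset.sum_le_sum fun b _ => setIntegral_mono (integrable_inner _).integrableOn
      (integrable_maxInner u).integrableOn fun x => le_maxOver (fun j => ⟪u j, x⟫) b).trans ?_
    rw [← integral_iUnion_fintype (fun b => measurableSet_strictCell v (f b)) hd
      (fun b => (integrable_maxInner u).integrableOn)]
    refine setIntegral_le_integral (integrable_maxInner u) (Eventually.of_forall fun x => ?_)
    have h := avg_le_maxOver fun b => ⟪u b, x⟫
    rwa [← sum_inner, hu, inner_zero_left, zero_div] at h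
  have e2 : ∑ b, ⟪u b, v (f b)⟫ = ∑ b, ‖u b‖ ^ 2 := by
    have : ∀ b, ⟪u b, v (f b)⟫ = ‖u b‖ ^ 2 + ⟪u b, m⟫ := fun b => by
      rw [← real_inner_self_eq_norm_sq, ← inner_add_right]
      simp [u]
    simp only [this, Finset.sum_add_distrib, ← sum_inner, hu, inner_zero_left, add_zero]
  have e3 : ∑ b, ‖v (f b)‖ ^ 2 = ∑ b, ‖u b‖ ^ 2 + 4 * ‖m‖ ^ 2 := by
    have e : ∀ b, ‖v (f b)‖ ^ 2 = ‖u b‖ ^ 2 + 2 * ⟪u b, m⟫ + ‖m‖ ^ 2 := fun b => by
      rw [← norm_add_sq_real]; simp [u]
    simp only [e, Finset.sum_add_distrib, ← Finset.mul_sum, ← sum_inner, hu, inner_zero_left]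
    simp
  have e4 : 4 * ‖m‖ ^ 2 ≤ (∑ i ∈ S, ‖v i‖ ^ 2) / 4 := by
    have hVS : V = -∑ i ∈ S, v i := by
      rw [hV, ← himg v, hv.sum_split, compl_compl]
    have := hv.norm_sum_sq_le S
    rw [hm, norm_smul, mul_pow, Real.norm_eq_abs, sq_abs, hVS, norm_neg]
    linarith
  have e5 : sumSq v = (∑ i ∈ S, ‖v i‖ ^ 2) + ∑ b, ‖v (f b)‖ ^ 2 := by
    rw [sumSq, ← Finset.sum_add_sum_compl S, himg fun i => ‖v i‖ ^ 2]
  simp only [J] at hJ
  linarith

/-- There is no bad maximiser. -/
theorem Bad.false (hv : Bad v) : False := by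
  classical
  have hk := hv.four_le
  let e := Tuple.sort fun i => -cellMass v i
  have hmono : Monotone ((fun i => -cellMass v i) ∘ e) := Tuple.monotone_sort _
  let f : Fin 4 → Fin k := fun b => e (Fin.castLE hk b)
  have hf : Injective f := e.injective.comp (Fin.castLE_injective hk)
  have hord : Antitone (fun b => cellMass v (f b)) := by
    intro a b hab
    have := hmono (show Fin.castLE hk a ≤ Fin.castLE hk b from hab)
    simp only [Function.comp_apply, neg_le_neg_iff] at this
    exact this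
  set S := (Finset.univ.image f)ᶜ with hS
  have hle : ∀ i ∈ S, cellMass v i ≤ cellMass v (f 3) := by
    intro i hi
    obtain ⟨j, rfl⟩ := e.surjective i
    have hj : 4 ≤ (j : ℕ) := by
      by_contra h
      simp only [hS, Finset.mem_compl, Finset.mem_image, Finset.mem_univ, true_and] at hi
      exact hi ⟨⟨j, by omega⟩, rfl⟩
    have := hmono (show Fin.castLE hk 3 ≤ j by rw [Fin.le_def]; simp; omega)
    simp only [Function.comp_apply, neg_le_neg_iff] at this
    exact this
  obtain ⟨p', hp', hsum', hH⟩ := hv.hybrid f hf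
  have himg : ∀ g : Fin k → ℝ, ∑ b, g (f b) + ∑ i : S, g i = ∑ i, g i := by
    intro g
    rw [Finset.sum_coe_sort S g, ← Finset.sum_image (f := g) fun a _ b _ h => hf h, hS,
      Finset.sum_add_sum_compl]
  have hc := hv.c2_lt
  have hS2 := Finset.sum_coe_sort S fun i => ‖v i‖ ^ 2
  obtain ⟨hR, hone, htwo⟩ := propeller_certificate (fun b => cellMass v (f b))
    (fun b => ‖v (f b)‖ ^ 2) p' (fun i : S => cellMass v i) (fun i : S => ‖v i‖ ^ 2)
    (fun b => hv.cell (f b)) (fun i => hv.cell i) hord (fun i => hle i i.2)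
    (by rw [himg (cellMass v)]; exact hv.sum_cellMass) hp' hsum'
    (by rw [himg fun i => ‖v i‖ ^ 2]; exact hc)
    (by rw [himg fun i => ‖v i‖ ^ 2, hS2]; exact hH)
  refine hv.no_small_tail (fun b => f b.castSucc) (hf.comp (Fin.castSucc_injective 3))
    (R := ‖v (f 3)‖ ^ 2 + ∑ i : S, ‖v i‖ ^ 2) ?_ hR (fun b => ?_) (fun b c hbc => ?_)
  · rw [hS2, ← Finset.sum_insert (f := fun i => ‖v i‖ ^ 2) (show f 3 ∉ S by simp [hS])]
    refine Finset.sum_congr ?_ fun _ _ => rfl
    ext i
    simp only [hS, Finset.mem_compl, Finset.mem_image, Finset.mem_univ, true_and, Finset.mem_insert,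
      not_exists]
    constructor
    · intro h
      by_contra hc
      simp only [not_or, not_forall, not_not] at hc
      obtain ⟨hne, b, hb⟩ := hc
      rcases Fin.eq_castSucc_or_eq_last b with ⟨c, rfl⟩ | rfl
      · exact h c hb
      · exact hne hb.symm
    · rintro (rfl | h) c hc
      · exact absurd (hf hc) (Fin.castSucc_lt_last c).ne
      · exact h _ hc
  · have := hone b.castSucc (Fin.castSucc_lt_last b).ne
    linarith
  · have := htwo b.castSucc c.castSucc (fun h => hbc (Fin.castSucc_injective 3 h))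
      (Fin.castSucc_lt_last b).ne (Fin.castSucc_lt_last c).ne
    linarith

omit [NeZero k] in
/-- The propeller inequality for any number of vectors. -/
theorem J_le_c2 : ∀ (m : ℕ) (w : Fin (m + 1) → Space n), J w ≤ c2 := by
  intro m
  induction m using Nat.strong_induction_on with
  | _ m ih =>
    intro w
    by_contra hlt
    obtain ⟨v, hv⟩ := exists_max_J (n := n) (ι := Fin (m + 1))
    exact Bad.false ⟨hv, lt_of_lt_of_le (not_le.1 hlt) (hv w), fun j hj => ih j (by omega)⟩

end Vale.Agent.P226
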