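import Vale.Agent.P226.Decomp

/-!
Basic properties of `maxOver`, `psi` and `J`; the three-point case; argmax cells; maximisers.
-/

open MeasureTheory ProbabilityTheory Filter Set Function
open scoped RealInnerProductSpace Topology

namespace Vale.Agent.P226

variable {n : ℕ} {ι : Type*} [Fintype ι] [Nonempty ι]

lemma le_maxOver (f : ι → ℝ) (i : ι) : f i ≤ maxOver f :=
  Finset.le_sup' f (Finset.mem_univ i)

lemma maxOver_le {f : ι → ℝ} {a : ℝ} (h : ∀ i, f i ≤ a) : maxOver f ≤ a :=
  Finset.sup'_le _ _ fun i _ => h i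

lemma exists_eq_maxOver (f : ι → ℝ) : ∃ i, f i = maxOver f := by
  obtain ⟨i, -, hi⟩ := Finset.exists_mem_eq_sup' (Finset.univ_nonempty (α := ι)) f
  exact ⟨i, hi.symm⟩

lemma maxOver_add_const (f : ι → ℝ) (c : ℝ) : maxOver (fun i => f i + c) = maxOver f + c := by
  apply le_antisymm (maxOver_le fun i => by linarith [le_maxOver f i])
  obtain ⟨i, hi⟩ := exists_eq_maxOver f
  calc maxOver f + c = f i + c := by rw [hi]
    _ ≤ _ := le_maxOver (fun i => f i + c) i

lemma abs_maxOver_le (f : ι → ℝ) : |maxOver f| ≤ ∑ i, |f i| := by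
  obtain ⟨i, hi⟩ := exists_eq_maxOver f
  rw [← hi]
  exact Finset.single_le_sum (f := fun i => |f i|) (fun _ _ => abs_nonneg _) (Finset.mem_univ i)

lemma avg_le_maxOver (f : ι → ℝ) : (∑ i, f i) / Fintype.card ι ≤ maxOver f := by
  rw [div_le_iff₀ (by exact_mod_cast Fintype.card_pos)]
  calc ∑ i, f i ≤ ∑ _i : ι, maxOver f := Finset.sum_le_sum fun i _ => le_maxOver f i
    _ = maxOver f * Fintype.card ι := by simp [mul_comm]

lemma continuous_maxOver : Continuous (maxOver : (ι → ℝ) → ℝ) := by
  unfold maxOver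
  exact Continuous.finset_sup'_apply _ fun i _ => continuous_apply i

lemma continuous_maxInner (v : ι → Space n) :
    Continuous fun x => maxOver (fun i => ⟪v i, x⟫) :=
  continuous_maxOver.comp (continuous_pi fun i => continuous_const.inner continuous_id)

lemma integrable_maxInner (v : ι → Space n) :
    Integrable (fun x => maxOver (fun i => ⟪v i, x⟫)) (gauss n) := by
  refine (integrable_finsetSum (Finset.univ (α := ι)) fun i _ => (integrable_inner (v i)).abs).mono'
    (continuous_maxInner v).aestronglyMeasurable (Eventually.of_forall fun x => ?_)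
  exact abs_maxOver_le _

/-- Translating all vectors does not change the expected maximum. -/
lemma psi_sub (v : ι → Space n) (w : Space n) : psi (fun i => v i - w) = psi v := by
  have h : ∀ x : Space n, maxOver (fun i => ⟪v i - w, x⟫) =
      maxOver (fun i => ⟪v i, x⟫) + -⟪w, x⟫ := by
    intro x
    rw [← maxOver_add_const]
    congr 1
    funext i
    rw [inner_sub_left]
    ring
  have hn : Integrable (fun x => -⟪w, x⟫) (gauss n) := (integrable_inner w).neg
  simp only [psi, h]
  rw [integral_add (integrable_maxInner v) hn, integral_neg,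
    integral_inner_eq_zero, neg_zero, add_zero]

lemma abs_psi_sub_le (v w : ι → Space n) :
    |psi v - psi w| ≤ (∑ i, ‖v i - w i‖) * ∫ x, ‖x‖ ∂(gauss n) := by
  rw [psi, psi, ← integral_sub (integrable_maxInner v) (integrable_maxInner w),
    ← integral_const_mul]
  refine (abs_integral_le_integral_abs).trans (integral_mono
    ((integrable_maxInner v).sub (integrable_maxInner w)).abs
    (integrable_norm_gauss.const_mul _) fun x => ?_)
  obtain ⟨i, hi⟩ := exists_eq_maxOver fun i => ⟪v i, x⟫
  obtain ⟨j, hj⟩ := exists_eq_maxOver fun i => ⟪w i, x⟫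
  have h1 : ∀ l, |⟪v l, x⟫ - ⟪w l, x⟫| ≤ (∑ i, ‖v i - w i‖) * ‖x‖ := by
    intro l
    rw [← inner_sub_left]
    exact (abs_real_inner_le_norm _ _).trans (mul_le_mul_of_nonneg_right
      (Finset.single_le_sum (f := fun i => ‖v i - w i‖) (fun _ _ => norm_nonneg _)
        (Finset.mem_univ l)) (norm_nonneg _))
  have a1 := le_maxOver (fun i => ⟪w i, x⟫) i
  have a2 := le_maxOver (fun i => ⟪v i, x⟫) j
  have b1 := (abs_le.1 (h1 i)).2
  have b2 := (abs_le.1 (h1 j)).1
  rw [abs_le]
  simp only [Pi.sub_apply] at *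
  constructor <;> linarith

lemma psi_le_sum_norm (v : ι → Space n) :
    psi v ≤ (∑ i, ‖v i‖) * ∫ x, ‖x‖ ∂(gauss n) := by
  have h := abs_psi_sub_le v (fun _ => 0)
  have h0 : psi (fun _ : ι => (0 : Space n)) = 0 := by
    simp [psi, maxOver]
  rw [h0, sub_zero] at h
  simpa using (le_abs_self _).trans h

lemma continuous_psi : Continuous (psi : (ι → Space n) → ℝ) := by
  refine continuous_iff_continuousAt.2 fun v => ?_
  rw [ContinuousAt, tendsto_iff_norm_sub_tendsto_zero]
  have hc : Continuous fun w : ι → Space n => (∑ i, ‖w i - v i‖) * ∫ x, ‖x‖ ∂(gauss n) := by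
    fun_prop
  have ht := hc.tendsto v
  simp only [sub_self, norm_zero, Finset.sum_const_zero, zero_mul] at ht
  exact squeeze_zero (fun w => norm_nonneg _) (fun w => by
    rw [Real.norm_eq_abs]; exact abs_psi_sub_le w v) ht

lemma continuous_J : Continuous (J : (ι → Space n) → ℝ) := by
  have := continuous_psi (n := n) (ι := ι)
  unfold J
  fun_prop

/-- A maximiser of `J` exists. -/
lemma exists_max_J : ∃ v : ι → Space n, ∀ w : ι → Space n, J w ≤ J v := by
  set m := ∫ x, ‖x‖ ∂(gauss n) with hm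
  set K := Fintype.card ι * m with hK
  have hm0 : 0 ≤ m := integral_nonneg fun x => norm_nonneg _
  have hK0 : 0 ≤ K := by positivity
  have hdecay : ∀ w : ι → Space n, J w ≤ 2 * K * ‖w‖ - ‖w‖ ^ 2 := by
    intro w
    have h1 : psi w ≤ K * ‖w‖ := by
      refine (psi_le_sum_norm w).trans ?_
      calc (∑ i, ‖w i‖) * m ≤ (∑ _i : ι, ‖w‖) * m :=
            mul_le_mul_of_nonneg_right (Finset.sum_le_sum fun i _ => norm_le_pi_norm w i) hm0
        _ = K * ‖w‖ := by simp [hK]; ring
    have h2 : ‖w‖ ^ 2 ≤ ∑ i, ‖w i‖ ^ 2 := by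
      obtain ⟨i, hi⟩ : ∃ i, ‖w‖ ≤ ‖w i‖ := by
        by_contra! h
        exact lt_irrefl ‖w‖ ((pi_norm_lt_iff
          (lt_of_le_of_lt (norm_nonneg _) (h (Classical.arbitrary ι)))).2 h)
      refine (pow_le_pow_left₀ (norm_nonneg _) hi 2).trans ?_
      exact Finset.single_le_sum (f := fun i => ‖w i‖ ^ 2) (fun _ _ => sq_nonneg _)
        (Finset.mem_univ i)
    simp only [J]
    linarith
  obtain ⟨v, hv, hmax⟩ := (isCompact_closedBall (0 : ι → Space n) (2 * K + 1)).exists_isMaxOn
    ⟨0, by simp; positivity⟩ continuous_J.continuousOn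
  refine ⟨v, fun w => ?_⟩
  by_cases hw : ‖w‖ ≤ 2 * K + 1
  · exact hmax (by simpa [Metric.mem_closedBall] using hw)
  · push Not at hw
    have h0 : J (0 : ι → Space n) ≤ J v := hmax (by simp; positivity)
    have h00 : J (0 : ι → Space n) = 0 := by simp [J, psi, maxOver]
    have := hdecay w
    nlinarith

/-- Existence of a measurable partition into argmax cells. -/
lemma exists_argmax_cells (v : ι → Space n) :
    ∃ A : ι → Set (Space n), (∀ i, MeasurableSet (A i)) ∧ Pairwise (Disjoint on A) ∧
      (⋃ i, A i) = univ ∧ ∀ i, ∀ x ∈ A i, ⟪v i, x⟫ = maxOver (fun j => ⟪v j, x⟫) := by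
  classical
  let e := Fintype.equivFin ι
  let M : ι → Set (Space n) := fun i => {x | ⟪v i, x⟫ = maxOver (fun j => ⟪v j, x⟫)}
  have hM : ∀ i, MeasurableSet (M i) := fun i =>
    measurableSet_eq_fun (by fun_prop) (continuous_maxInner v).measurable
  refine ⟨fun i => M i \ ⋃ j, ⋃ (_ : e j < e i), M j, fun i => ?_, ?_, ?_, fun i x hx => hx.1⟩
  · exact (hM i).diff (MeasurableSet.iUnion fun j => MeasurableSet.iUnion fun _ => hM j)
  · intro i j hij
    rw [Function.onFun, Set.disjoint_left]
    intro x hi hj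
    rcases lt_trichotomy (e i) (e j) with h | h | h
    · exact hj.2 (mem_iUnion₂.2 ⟨i, h, hi.1⟩)
    · exact hij (e.injective h)
    · exact hi.2 (mem_iUnion₂.2 ⟨j, h, hj.1⟩)
  · refine eq_univ_of_forall fun x => ?_
    obtain ⟨i0, hi0⟩ := exists_eq_maxOver fun j => ⟪v j, x⟫
    obtain ⟨i, hi, hmin⟩ := (Finset.univ.filter fun i => x ∈ M i).exists_min_image e
      ⟨i0, Finset.mem_filter.2 ⟨Finset.mem_univ _, hi0⟩⟩
    refine mem_iUnion.2 ⟨i, (Finset.mem_filter.1 hi).2, ?_⟩
    simp only [mem_iUnion, not_exists]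
    intro j hj hx
    exact absurd hj (not_lt.2 (hmin j (Finset.mem_filter.2 ⟨Finset.mem_univ _, hx⟩)))

lemma integrable_indicator_inner {s : Set (Space n)} (hs : MeasurableSet s) (v : Space n) :
    Integrable (s.indicator fun x => ⟪v, x⟫) (gauss n) :=
  (integrable_inner v).indicator hs

/-- First moment of a set. -/
noncomputable def moment (s : Set (Space n)) : Space n := ∫ x in s, x ∂(gauss n)

lemma inner_moment (v : Space n) (s : Set (Space n)) :
    ⟪v, moment s⟫ = ∫ x in s, ⟪v, x⟫ ∂(gauss n) :=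
  (integral_inner (IsGaussian.integrable_id (μ := gauss n)).restrict v).symm

variable {κ : Type*} [Fintype κ]

/-- For a disjoint cover by cells, `∑ ⟪w i, z i⟫` is at most the expected maximum. -/
lemma sum_inner_moment_le (w : κ → ι) (v : ι → Space n) {A : κ → Set (Space n)}
    (hA : ∀ i, MeasurableSet (A i)) (hd : Pairwise (Disjoint on A)) (hu : (⋃ i, A i) = univ) :
    ∑ i, ⟪v (w i), moment (A i)⟫ ≤ psi v := by
  simp only [inner_moment]
  rw [psi, ← setIntegral_univ (μ := gauss n), ← hu,
    integral_iUnion_fintype hA hd (fun i => (integrable_maxInner v).integrableOn)]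
  exact Finset.sum_le_sum fun i _ => setIntegral_mono (integrable_inner _).integrableOn
    (integrable_maxInner v).integrableOn fun x => le_maxOver (fun j => ⟪v j, x⟫) (w i)

lemma sum_inner_moment_eq (v : ι → Space n) {A : ι → Set (Space n)}
    (hA : ∀ i, MeasurableSet (A i)) (hd : Pairwise (Disjoint on A)) (hu : (⋃ i, A i) = univ)
    (hmax : ∀ i, ∀ x ∈ A i, ⟪v i, x⟫ = maxOver (fun j => ⟪v j, x⟫)) :
    ∑ i, ⟪v i, moment (A i)⟫ = psi v := by
  simp only [inner_moment]
  rw [psi, ← setIntegral_univ (μ := gauss n), ← hu,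
    integral_iUnion_fintype hA hd (fun i => (integrable_maxInner v).integrableOn)]
  exact Finset.sum_congr rfl fun i _ => setIntegral_congr_fun (hA i) (hmax i)

/-- The sum of squared moments of a partition is at most `J` at the moments. -/
lemma sum_sq_moment_le_J {A : ι → Set (Space n)}
    (hA : ∀ i, MeasurableSet (A i)) (hd : Pairwise (Disjoint on A)) (hu : (⋃ i, A i) = univ) :
    ∑ i, ‖moment (A i)‖ ^ 2 ≤ J (fun i => moment (A i)) := by
  have h := sum_inner_moment_le id (fun i => moment (A i)) hA hd hu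
  simp only [id, real_inner_self_eq_norm_sq] at h
  simp only [J]
  linarith

end Vale.Agent.P226
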