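import Vale.Agent.P226.Psi

/-!
The propeller inequality for at most three points.
-/

open MeasureTheory ProbabilityTheory Filter Set Function
open scoped RealInnerProductSpace

namespace Vale.Agent.P226

variable {n : ℕ}

lemma integral_abs_gauss1 : ∫ y, |y| ∂gauss1 = 2 * phi 0 := by
  have h1 := integral_posPart_add 0
  have h2 : ∀ y : ℝ, |y| = 2 * max (y + 0) 0 - y := by
    intro y
    rcases le_total 0 y with h | h
    · rw [abs_of_nonneg h, add_zero, max_eq_left h]; ring
    · rw [abs_of_nonpos h, add_zero, max_eq_right h]; ring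
  simp only [h2]
  have hi : Integrable (fun y : ℝ => max (y + 0) 0) gauss1 := by
    simp only [add_zero]
    exact integrable_id1.pos_part
  rw [integral_sub (hi.const_mul 2) integrable_id1, integral_const_mul, h1,
    integral_id_gaussianReal, Lfun]
  ring

lemma integral_abs_inner (v : Space n) : ∫ x, |⟪v, x⟫| ∂(gauss n) = 2 * phi 0 * ‖v‖ := by
  rw [integral_comp_inner v continuous_abs]
  simp only [abs_mul, abs_norm, integral_const_mul, integral_abs_gauss1]
  ring

lemma gauss_map_neg : (gauss n).map (fun x => -x) = gauss n :=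
  stdGaussian_map (LinearIsometryEquiv.neg ℝ)

lemma psi_neg {ι : Type*} [Fintype ι] [Nonempty ι] (v : ι → Space n) :
    psi (fun i => -v i) = psi v := by
  show ∫ x, maxOver (fun i => ⟪-v i, x⟫) ∂(gauss n) = ∫ x, maxOver (fun i => ⟪v i, x⟫) ∂(gauss n)
  conv_rhs => rw [← gauss_map_neg]
  rw [integral_map (by fun_prop) (continuous_maxInner v).aestronglyMeasurable]
  simp [inner_neg_left, inner_neg_right]

lemma maxOver_three (f : Fin 3 → ℝ) : maxOver f = max (max (f 0) (f 1)) (f 2) := by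
  apply le_antisymm
  · refine maxOver_le fun i => ?_
    fin_cases i <;> simp
  · simp only [max_le_iff]
    exact ⟨⟨le_maxOver f 0, le_maxOver f 1⟩, le_maxOver f 2⟩

lemma maxOver_three_add (a b c : ℝ) :
    max (max a b) c + max (max (-a) (-b)) (-c) = (|a - b| + |b - c| + |c - a|) / 2 := by
  rcases le_total a b with h1 | h1 <;> rcases le_total b c with h2 | h2 <;>
    rcases le_total c a with h3 | h3 <;>
    simp [abs_of_nonneg, abs_of_nonpos, sub_nonneg.2, sub_nonpos.2, h1, h2, h3] <;> linarith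

lemma psi_three (v : Fin 3 → Space n) :
    2 * psi v = phi 0 * (‖v 0 - v 1‖ + ‖v 1 - v 2‖ + ‖v 2 - v 0‖) := by
  have h := psi_neg v
  have hsum : psi v + psi (fun i => -v i) =
      ∫ x, (|⟪v 0 - v 1, x⟫| + |⟪v 1 - v 2, x⟫| + |⟪v 2 - v 0, x⟫|) / 2 ∂(gauss n) := by
    rw [psi, psi, ← integral_add (integrable_maxInner v) (integrable_maxInner _)]
    refine integral_congr_ae (Eventually.of_forall fun x => ?_)
    simp only [maxOver_three, inner_neg_left, inner_sub_left]
    exact maxOver_three_add _ _ _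
  have i01 := (integrable_inner (v 0 - v 1)).abs
  have i12 := (integrable_inner (v 1 - v 2)).abs
  have i20 := (integrable_inner (v 2 - v 0)).abs
  have i2 : Integrable (fun x => |⟪v 0 - v 1, x⟫| + |⟪v 1 - v 2, x⟫|) (gauss n) := i01.add i12
  rw [h, integral_div, integral_add i2 i20, integral_add i01 i12,
    integral_abs_inner, integral_abs_inner, integral_abs_inner] at hsum
  linarith

lemma phi_zero_sq_c2 : 9 / 4 * phi 0 ^ 2 = c2 := by
  rw [phi_zero_sq, c2]
  ring

lemma psi_reindex {ι κ : Type*} [Fintype ι] [Nonempty ι] [Fintype κ] [Nonempty κ] (v : ι → Space n)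
    (e : κ → ι) (he : Surjective e) : psi (fun j => v (e j)) = psi v := by
  unfold psi
  congr 1
  funext x
  apply le_antisymm
  · exact maxOver_le fun j => le_maxOver (fun i => ⟪v i, x⟫) (e j)
  · refine maxOver_le fun i => ?_
    obtain ⟨j, rfl⟩ := he i
    exact le_maxOver (fun j => ⟪v (e j), x⟫) j

lemma J_le_of_three (v : Fin 3 → Space n) : J v ≤ c2 := by
  have h := psi_three v
  have hid : ‖v 0 - v 1‖ ^ 2 + ‖v 1 - v 2‖ ^ 2 + ‖v 2 - v 0‖ ^ 2 + ‖v 0 + v 1 + v 2‖ ^ 2
      = 3 * (‖v 0‖ ^ 2 + ‖v 1‖ ^ 2 + ‖v 2‖ ^ 2) := by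
    simp only [norm_sub_sq_real, norm_add_sq_real, inner_add_left, real_inner_comm (v 2) (v 0)]
    ring
  have hc := phi_zero_sq_c2
  simp only [J, Fin.sum_univ_three]
  nlinarith [sq_nonneg (‖v 0 - v 1‖ - 3 / 2 * phi 0), sq_nonneg (‖v 1 - v 2‖ - 3 / 2 * phi 0),
    sq_nonneg (‖v 2 - v 0‖ - 3 / 2 * phi 0), sq_nonneg ‖v 0 + v 1 + v 2‖]

lemma J_reindex {ι κ : Type*} [Fintype ι] [Nonempty ι] [Fintype κ] [Nonempty κ] (v : ι → Space n)
    (e : κ ≃ ι) : J (fun j => v (e j)) = J v := by
  simp only [J, psi_reindex v e e.surjective, e.sum_comp fun i => ‖v i‖ ^ 2]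

lemma J_le_of_card_le_three {ι : Type*} [Fintype ι] [Nonempty ι] (h : Fintype.card ι ≤ 3)
    (v : ι → Space n) : J v ≤ c2 := by
  have hc : 0 ≤ c2 := by unfold c2; positivity
  let e := Fintype.equivFin ι
  have hpos := Fintype.card_pos (α := ι)
  have hk : Fintype.card ι = 1 ∨ Fintype.card ι = 2 ∨ Fintype.card ι = 3 := by omega
  rcases hk with h1 | h2 | h3
  · let f : Fin 1 ≃ ι := ((Fintype.equivFinOfCardEq h1).symm)
    rw [← J_reindex v f]
    have : psi (fun j => v (f j)) = 0 := by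
      unfold psi
      refine Eq.trans (integral_congr_ae (Eventually.of_forall fun x => ?_))
        (integral_inner_eq_zero (v (f 0)))
      refine le_antisymm (maxOver_le fun j => ?_) (le_maxOver (fun j => ⟪v (f j), x⟫) 0)
      rw [Subsingleton.elim j 0]
    simp only [J, this]
    nlinarith [Finset.sum_nonneg (s := Finset.univ (α := Fin 1)) fun j _ => sq_nonneg ‖v (f j)‖]
  · let f : Fin 2 ≃ ι := ((Fintype.equivFinOfCardEq h2).symm)
    rw [← J_reindex v f]
    set a := v (f 0)
    set b := v (f 1)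
    have hp : psi (fun j => v (f j)) = psi ![a, b, b] := by
      have hs : Surjective (![0, 1, 1] : Fin 3 → Fin 2) := by decide
      rw [← psi_reindex (fun j => v (f j)) _ hs]
      congr 1
      funext j
      fin_cases j <;> rfl
    have h := psi_three ![a, b, b]
    simp only [Matrix.cons_val_zero, Matrix.cons_val_one, Matrix.cons_val, sub_self, norm_zero,
      add_zero, norm_sub_rev b a] at h
    have hid : ‖a - b‖ ^ 2 + ‖a + b‖ ^ 2 = 2 * (‖a‖ ^ 2 + ‖b‖ ^ 2) := by
      simp only [norm_sub_sq_real, norm_add_sq_real]; ring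
    have hc2 := phi_zero_sq_c2
    simp only [J, hp, Fin.sum_univ_two]
    change 2 * psi ![a, b, b] - (‖a‖ ^ 2 + ‖b‖ ^ 2) ≤ c2
    nlinarith [sq_nonneg (‖a - b‖ - 2 * phi 0), sq_nonneg ‖a + b‖, sq_nonneg (phi 0)]
  · let f : Fin 3 ≃ ι := ((Fintype.equivFinOfCardEq h3).symm)
    rw [← J_reindex v f]
    exact J_le_of_three _

end Vale.Agent.P226
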