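import Vale.Agent.P226.GaussNum
import Vale.Agent.P226.CertData

/-!
The table `certRows` majorizes the cell bounds and the cap bound.
-/

open Set

namespace Vale.Agent.P226

/-- What is known about a cell of mass `p` and squared first moment `x`. -/
def CellBound (p x : ℝ) : Prop :=
  0 ≤ x ∧ ∃ G, Phi G = p ∧ x ≤ phi G ^ 2 ∧ (phi G * Lfun G ≤ c2 → x ≤ removalBound G)

/-- Quantile interval `[g0, g1]`, tangent point `am`, chord slope `m`, and whether the removal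
bound is used. -/
structure RowPar where
  g0 : ℚ
  g1 : ℚ
  am : ℚ
  m : ℚ
  use : Bool

/-- Parameters of the middle rows of `certRows`. -/
def rowPars : List RowPar := [
  ⟨(-3), (-29 / 10), (-59 / 20), (773 / 2500), true⟩,
  ⟨(-29 / 10), (-14 / 5), (-57 / 20), (3183 / 10000), true⟩,
  ⟨(-14 / 5), (-27 / 10), (-11 / 4), (3279 / 10000), true⟩,
  ⟨(-27 / 10), (-13 / 5), (-53 / 20), (3381 / 10000), true⟩,
  ⟨(-13 / 5), (-5 / 2), (-51 / 20), (3489 / 10000), true⟩,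
  ⟨(-5 / 2), (-12 / 5), (-49 / 20), (3603 / 10000), true⟩,
  ⟨(-12 / 5), (-23 / 10), (-47 / 20), (149 / 400), true⟩,
  ⟨(-23 / 10), (-11 / 5), (-9 / 4), (1927 / 5000), true⟩,
  ⟨(-11 / 5), (-21 / 10), (-43 / 20), (499 / 1250), true⟩,
  ⟨(-21 / 10), (-2), (-41 / 20), (4139 / 10000), true⟩,
  ⟨(-2), (-197 / 100), (-397 / 200), (2119 / 5000), true⟩,
  ⟨(-197 / 100), (-97 / 50), (-391 / 200), (2143 / 5000), true⟩,
  ⟨(-97 / 50), (-191 / 100), (-77 / 40), (867 / 2000), true⟩,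
  ⟨(-191 / 100), (-47 / 25), (-379 / 200), (877 / 2000), true⟩,
  ⟨(-47 / 25), (-37 / 20), (-373 / 200), (1109 / 2500), true⟩,
  ⟨(-37 / 20), (-91 / 50), (-367 / 200), (4489 / 10000), true⟩,
  ⟨(-91 / 50), (-179 / 100), (-361 / 200), (2271 / 5000), true⟩,
  ⟨(-179 / 100), (-44 / 25), (-71 / 40), (4597 / 10000), true⟩,
  ⟨(-44 / 25), (-173 / 100), (-349 / 200), (4653 / 10000), true⟩,
  ⟨(-173 / 100), (-17 / 10), (-343 / 200), (471 / 1000), true⟩,
  ⟨(-17 / 10), (-167 / 100), (-337 / 200), (298 / 625), true⟩,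
  ⟨(-167 / 100), (-41 / 25), (-331 / 200), (1207 / 2500), true⟩,
  ⟨(-41 / 25), (-161 / 100), (-13 / 8), (4889 / 10000), true⟩,
  ⟨(-161 / 100), (-79 / 50), (-319 / 200), (4951 / 10000), true⟩,
  ⟨(-79 / 50), (-31 / 20), (-313 / 200), (1003 / 2000), true⟩,
  ⟨(-31 / 20), (-38 / 25), (-307 / 200), (127 / 250), true⟩,
  ⟨(-38 / 25), (-149 / 100), (-301 / 200), (5147 / 10000), true⟩,
  ⟨(-149 / 100), (-73 / 50), (-59 / 40), (326 / 625), true⟩,
  ⟨(-73 / 50), (-143 / 100), (-289 / 200), (2643 / 5000), true⟩,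
  ⟨(-143 / 100), (-7 / 5), (-283 / 200), (5357 / 10000), true⟩,
  ⟨(-7 / 5), (-137 / 100), (-277 / 200), (5431 / 10000), true⟩,
  ⟨(-137 / 100), (-67 / 50), (-271 / 200), (2753 / 5000), true⟩,
  ⟨(-67 / 50), (-131 / 100), (-53 / 40), (5583 / 10000), true⟩,
  ⟨(-131 / 100), (-32 / 25), (-259 / 200), (2831 / 5000), true⟩,
  ⟨(-32 / 25), (-5 / 4), (-253 / 200), (5743 / 10000), true⟩,
  ⟨(-5 / 4), (-61 / 50), (-247 / 200), (2913 / 5000), true⟩,
  ⟨(-61 / 50), (-119 / 100), (-241 / 200), (739 / 1250), true⟩,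
  ⟨(-119 / 100), (-29 / 25), (-47 / 40), (5999 / 10000), true⟩,
  ⟨(-29 / 25), (-113 / 100), (-229 / 200), (6089 / 10000), true⟩,
  ⟨(-113 / 100), (-11 / 10), (-223 / 200), (6181 / 10000), true⟩,
  ⟨(-11 / 10), (-107 / 100), (-217 / 200), (251 / 400), true⟩,
  ⟨(-107 / 100), (-26 / 25), (-211 / 200), (1593 / 2500), true⟩,
  ⟨(-26 / 25), (-101 / 100), (-41 / 40), (809 / 1250), true⟩,
  ⟨(-101 / 100), (-49 / 50), (-199 / 200), (3287 / 5000), true⟩,
  ⟨(-49 / 50), (-19 / 20), (-193 / 200), (167 / 250), true⟩,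
  ⟨(-19 / 20), (-23 / 25), (-187 / 200), (1697 / 2500), true⟩,
  ⟨(-23 / 25), (-89 / 100), (-181 / 200), (6899 / 10000), true⟩,
  ⟨(-89 / 100), (-43 / 50), (-7 / 8), (7013 / 10000), true⟩,
  ⟨(-43 / 50), (-83 / 100), (-169 / 200), (7131 / 10000), true⟩,
  ⟨(-83 / 100), (-4 / 5), (-163 / 200), (1813 / 2500), true⟩,
  ⟨(-4 / 5), (-77 / 100), (-157 / 200), (461 / 625), true⟩,
  ⟨(-77 / 100), (-37 / 50), (-151 / 200), (469 / 625), true⟩,
  ⟨(-37 / 50), (-71 / 100), (-29 / 40), (1909 / 2500), true⟩,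
  ⟨(-71 / 100), (-17 / 25), (-139 / 200), (1943 / 2500), true⟩,
  ⟨(-17 / 25), (-13 / 20), (-133 / 200), (989 / 1250), true⟩,
  ⟨(-13 / 20), (-31 / 50), (-127 / 200), (8057 / 10000), true⟩,
  ⟨(-31 / 50), (-59 / 100), (-121 / 200), (1641 / 2000), true⟩,
  ⟨(-59 / 100), (-14 / 25), (-23 / 40), (8359 / 10000), true⟩,
  ⟨(-14 / 25), (-53 / 100), (-109 / 200), (8517 / 10000), true⟩,
  ⟨(-53 / 100), (-517 / 1000), (-131 / 250), (8633 / 10000), true⟩,
  ⟨(-517 / 1000), (-1 / 2), (-127 / 250), (2179 / 2500), false⟩,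
  ⟨(-1 / 2), (-47 / 100), (-97 / 200), (8849 / 10000), false⟩,
  ⟨(-47 / 100), (-11 / 25), (-91 / 200), (9023 / 10000), false⟩,
  ⟨(-11 / 25), (-41 / 100), (-17 / 40), (9203 / 10000), false⟩,
  ⟨(-41 / 100), (-19 / 50), (-79 / 200), (2347 / 2500), false⟩,
  ⟨(-19 / 50), (-7 / 20), (-73 / 200), (479 / 500), false⟩,
  ⟨(-7 / 20), (-8 / 25), (-67 / 200), (9779 / 10000), false⟩,
  ⟨(-8 / 25), (-29 / 100), (-61 / 200), (624 / 625), false⟩,
  ⟨(-29 / 100), (-13 / 50), (-11 / 40), (2549 / 2500), false⟩,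
  ⟨(-13 / 50), (-23 / 100), (-49 / 200), (651 / 625), false⟩,
  ⟨(-23 / 100), (-1 / 5), (-43 / 200), (10643 / 10000), false⟩,
  ⟨(-1 / 5), (-17 / 100), (-37 / 200), (10879 / 10000), false⟩,
  ⟨(-17 / 100), (-7 / 50), (-31 / 200), (11123 / 10000), false⟩,
  ⟨(-7 / 50), (-11 / 100), (-1 / 8), (91 / 80), false⟩,
  ⟨(-11 / 100), (-2 / 25), (-19 / 200), (11637 / 10000), false⟩,
  ⟨(-2 / 25), (-1 / 20), (-13 / 200), (11909 / 10000), false⟩,
  ⟨(-1 / 20), (-1 / 50), (-7 / 200), (12191 / 10000), false⟩,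
  ⟨(-1 / 50), (1 / 100), (-1 / 200), (3121 / 2500), false⟩,
  ⟨(1 / 100), (1 / 25), (1 / 40), (3197 / 2500), false⟩,
  ⟨(1 / 25), (7 / 100), (11 / 200), (13103 / 10000), false⟩,
  ⟨(7 / 100), (1 / 10), (17 / 200), (13431 / 10000), false⟩,
  ⟨(1 / 10), (13 / 100), (23 / 200), (3443 / 2500), false⟩,
  ⟨(13 / 100), (4 / 25), (29 / 200), (7063 / 5000), false⟩,
  ⟨(4 / 25), (19 / 100), (7 / 40), (2899 / 2000), false⟩,
  ⟨(19 / 100), (11 / 50), (41 / 200), (14879 / 10000), false⟩,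
  ⟨(11 / 50), (1 / 4), (47 / 200), (7639 / 5000), false⟩,
  ⟨(1 / 4), (7 / 25), (53 / 200), (7847 / 5000), false⟩,
  ⟨(7 / 25), (31 / 100), (59 / 200), (1008 / 625), false⟩,
  ⟨(31 / 100), (17 / 50), (13 / 40), (829 / 500), false⟩,
  ⟨(17 / 50), (37 / 100), (71 / 200), (4263 / 2500), false⟩,
  ⟨(37 / 100), (2 / 5), (77 / 200), (2193 / 1250), false⟩,
  ⟨(2 / 5), (1 / 2), (9 / 20), (18689 / 10000), false⟩,
  ⟨(1 / 2), (3 / 5), (11 / 20), (20673 / 10000), false⟩,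
  ⟨(3 / 5), (7 / 10), (13 / 20), (11491 / 5000), false⟩,
  ⟨(7 / 10), (4 / 5), (3 / 4), (25683 / 10000), false⟩,
  ⟨(4 / 5), (1), (9 / 10), (30659 / 10000), false⟩]

/-- Number of double series steps used for the table. -/
def nSer : ℕ := 17

/-- Rational upper bound for `Lfun g`. -/
def LHiQ (g : ℚ) : ℚ := phiHiQ nSer g + max (g * PhiLoQ nSer g) (g * PhiHiQ nSer g)

/-- A rational lower bound for `π`. -/
def piLo : ℚ := 3141592 / 1000000

/-- Check one middle row. -/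
def rowOK (t : Row) (r : RowPar) : Bool :=
  let A : ℚ := t.a / 10000000
  let B : ℚ := t.b / 10000000
  let ca := LHiQ r.am
  let TA := ca - r.am * A
  let TB := ca - r.am * B
  let cc := max (LHiQ r.g0 - r.m * PhiLoQ nSer r.g0) (LHiQ r.g1 - r.m * PhiLoQ nSer r.g1)
  let e := max 0 (r.am * r.m) * (B - A) ^ 2 / 4
  let Qa := TA * (r.m * A + cc) + e
  let Qb := TB * (r.m * B + cc) + e
  let ic := 8 * piLo / 9
  let q0 := (Qa + Qb) / 2
  let M := (A + B) / 2
  let c := A ^ 2 + A * B + B ^ 2 - 2 * A - 2 * B + 1 - M ^ 2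
  let D := min 0 (min ((2 * M + A + B - 2) * A + c) ((2 * M + A + B - 2) * B + c))
  let ef := -D * (B - A) ^ 2 / 4
  decide (t.a < t.b) && decide (A ≤ PhiLoQ nSer r.g0) && decide (PhiHiQ nSer r.g1 ≤ B) &&
  (if r.use then decide (0 ≤ r.m) && decide (Qa * (8 * 3141593) ≤ 9 * 1000000) &&
      decide (Qb * (8 * 3141593) ≤ 9 * 1000000) && decide (0 ≤ 2 - 2 * q0 * ic) &&
      decide (((2 - 2 * q0 * ic) * Qa + q0 ^ 2 * ic) * 10000000 ≤ t.Ba) &&
      decide (((2 - 2 * q0 * ic) * Qb + q0 ^ 2 * ic) * 10000000 ≤ t.Bb)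
    else decide (TA ^ 2 * 10000000 ≤ t.Ba) && decide (TB ^ 2 * 10000000 ≤ t.Bb)) &&
  decide (8 / piLo * (A ^ 2 * (1 - A) ^ 2 + ef) * 10000000 ≤ t.Fa) &&
  decide (8 / piLo * (B ^ 2 * (1 - B) ^ 2 + ef) * 10000000 ≤ t.Fb)

/-- Check the first row, which covers all quantiles up to `g`. -/
def firstOK (t : Row) (g : ℚ) : Bool :=
  let B : ℚ := t.b / 10000000
  decide (t.a = 0) && decide (0 < t.b) && decide (PhiHiQ nSer g ≤ B) && decide (0 ≤ t.Ba) &&
  decide (2 * B * B * 10000000 ≤ t.Bb) && decide (B * B * (8 * 3141593) ≤ 9 * 1000000) &&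
  decide (0 ≤ t.Fa) && decide (8 / piLo * B ^ 2 * 10000000 ≤ t.Fb)

/-- Check the last row, which covers all quantiles from `g` on. -/
def lastOK (t : Row) (g : ℚ) : Bool :=
  let A : ℚ := t.a / 10000000
  decide (t.a < t.b) && decide (t.b = 10000000) && decide (A ≤ PhiLoQ nSer g) &&
  decide (1 / 2 ≤ A) && decide (phi0Hi ^ 2 * 10000000 ≤ t.Ba) &&
  decide (phi0Hi ^ 2 * 10000000 ≤ t.Bb) && decide (8 / piLo * (A * (1 - A)) ^ 2 * 10000000 ≤ t.Fa) &&
  decide (8 / piLo * (A * (1 - A)) ^ 2 * 10000000 ≤ t.Fb)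

/-- Check a chain of rows starting at quantile `g`. -/
def chainOK : ℚ → List RowPar → List Row → Bool
  | g, [], [t] => lastOK t g
  | g, r :: rs, t :: ts => decide (r.g0 = g) && rowOK t r && chainOK r.g1 rs ts
  | _, _, _ => false

/-- Check the whole table. -/
def tableOK : List Row → Bool
  | t :: ts => firstOK t (-3) && chainOK (-3) rowPars ts
  | [] => false

/-- `(p, x)` lies below the row `t`. -/
def Covers (t : Row) (p x : ℝ) : Prop :=
  t.a < t.b ∧ (t.a : ℝ) ≤ p * 10000000 ∧ p * 10000000 ≤ (t.b : ℝ) ∧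
    x * 10000000 * ((t.b : ℝ) - t.a) ≤
      (t.Ba : ℝ) * ((t.b : ℝ) - p * 10000000) + (t.Bb : ℝ) * (p * 10000000 - t.a) ∧
    capBound p * 10000000 * ((t.b : ℝ) - t.a) ≤
      (t.Fa : ℝ) * ((t.b : ℝ) - p * 10000000) + (t.Fb : ℝ) * (p * 10000000 - t.a)

lemma LHiQ_spec (g : ℚ) : Lfun (g : ℝ) ≤ (LHiQ g : ℝ) := by
  have h1 := (phi_bounds nSer g).2
  obtain ⟨h2, h3⟩ := Phi_bounds nSer g
  rw [Lfun, LHiQ]
  push_cast
  rcases le_total 0 (g : ℝ) with hg | hg
  · have := mul_le_mul_of_nonneg_left h3 hg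
    linarith [le_max_right ((g : ℝ) * PhiLoQ nSer g) ((g : ℝ) * PhiHiQ nSer g)]
  · have := mul_le_mul_of_nonpos_left h2 hg
    linarith [le_max_left ((g : ℝ) * PhiLoQ nSer g) ((g : ℝ) * PhiHiQ nSer g)]

lemma phi_le_line (am : ℚ) (G : ℝ) : phi G ≤ (LHiQ am : ℝ) - (am : ℝ) * Phi G := by
  have h1 := phi_tangent G (am : ℝ)
  have h2 := LHiQ_spec am
  simp only [Lfun] at h2
  linarith

/-- A monotone function bounded below by `-2/|y|` near `-∞` is nonnegative. -/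
lemma nonneg_of_monotone_of_ge {k : ℝ → ℝ} (hk : Monotone k)
    (hl : ∀ y : ℝ, y ≤ -1 → -2 / (-y) ≤ k y) (x : ℝ) : 0 ≤ k x := by
  by_contra h
  push Not at h
  have hy := hl (min x (min (-1) (4 / k x)))
    ((min_le_right _ _).trans (min_le_left _ _))
  have h1 : k (min x (min (-1) (4 / k x))) ≤ k x := hk (min_le_left _ _)
  have h2 : min x (min (-1) (4 / k x)) ≤ 4 / k x := (min_le_right _ _).trans (min_le_right _ _)
  have h3 : (0 : ℝ) < -min x (min (-1) (4 / k x)) := by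
    linarith [(min_le_right x (min (-1) (4 / k x))).trans (min_le_left _ _)]
  rw [div_le_iff₀ h3] at hy
  rw [le_div_iff_of_neg h] at h2
  nlinarith

lemma phi_le_inv_sq (y : ℝ) (hy : y ≠ 0) : phi y ≤ phi 0 * (2 / y ^ 2) := by
  rw [phi_eq_phi_zero_mul]
  refine mul_le_mul_of_nonneg_left ?_ (phi_nonneg 0)
  have h2 : 0 < y ^ 2 / 2 := by positivity
  rw [Real.exp_neg, show 2 / y ^ 2 = (y ^ 2 / 2)⁻¹ by rw [inv_div]]
  gcongr
  linarith [Real.add_one_le_exp (y ^ 2 / 2)]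

lemma phi_zero_lt : phi 0 < 1 / 2 := by
  have := phi_zero_bounds.2
  norm_num [phi0Hi] at this
  linarith

lemma Phi_add_mul_Lfun_nonneg (x : ℝ) : 0 ≤ Phi x + x * Lfun x := by
  refine nonneg_of_monotone_of_ge (k := fun y => Phi y + y * Lfun y) ?_ ?_ x
  · refine monotone_of_hasDerivAt_nonneg (f' := fun y => 2 * Lfun y)
      (fun y => ?_) fun y => ?_
    · exact ((hasDerivAt_Phi y).add ((hasDerivAt_id y).mul (hasDerivAt_Lfun y))).congr_deriv
        (by simp [Lfun]; ring)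
    · show (0 : ℝ) ≤ _
      linarith [Lfun_nonneg y]
  · intro y hy
    have hy0 : (0 : ℝ) < -y := by linarith
    have h1 := phi_le_inv_sq y (by linarith)
    have h2 : (-y) * phi y ≤ 2 / (-y) := by
      have h3 := mul_le_mul_of_nonneg_left h1 hy0.le
      have e : (-y) * (phi 0 * (2 / y ^ 2)) = phi 0 * (2 / (-y)) := by
        field_simp
      rw [e] at h3
      have h4 : phi 0 * (2 / (-y)) ≤ 1 * (2 / (-y)) :=
        mul_le_mul_of_nonneg_right (by linarith [phi_zero_lt]) (by positivity)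
      linarith
    have h5 : 0 ≤ Phi y * (1 + y ^ 2) := mul_nonneg (Phi_pos y).le (by positivity)
    simp only [Lfun]
    rw [neg_div]
    nlinarith

lemma phi_mul_Lfun_le_sq (x : ℝ) : phi x * Lfun x ≤ Phi x ^ 2 := by
  have h := nonneg_of_monotone_of_ge (k := fun y => Phi y ^ 2 - phi y * Lfun y) ?_ ?_ x
  · simpa [sub_nonneg] using h
  · refine monotone_of_hasDerivAt_nonneg
      (f' := fun y => phi y * (Phi y + y * Lfun y)) (fun y => ?_) fun y => ?_
    · exact (((hasDerivAt_Phi y).pow 2).sub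
        ((hasDerivAt_phi y).mul (hasDerivAt_Lfun y))).congr_deriv (by push_cast; ring)
    · show (0 : ℝ) ≤ _
      exact mul_nonneg (phi_nonneg y) (Phi_add_mul_Lfun_nonneg y)
  · intro y hy
    have hy0 : (0 : ℝ) < -y := by linarith
    have h1 := phi_le_inv_sq y (by linarith)
    have h0 := phi_zero_lt
    have hL : Lfun y ≤ phi 0 := by
      have := Lfun_strictMono.monotone (show y ≤ 0 by linarith)
      simpa [Lfun, Phi_zero] using this
    have h2 : phi y * Lfun y ≤ phi 0 * (2 / y ^ 2) * phi 0 :=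
      mul_le_mul h1 hL (Lfun_nonneg y) (mul_nonneg (phi_nonneg 0) (by positivity))
    have h3 : 2 / y ^ 2 ≤ 2 / (-y) := by
      apply div_le_div_of_nonneg_left (by norm_num) hy0
      nlinarith
    have h4 : phi 0 * (2 / y ^ 2) * phi 0 ≤ 2 / (-y) := by
      have hp := phi_nonneg 0
      have hd : 0 ≤ 2 / y ^ 2 := by positivity
      have := mul_le_mul_of_nonneg_left (show phi 0 * phi 0 ≤ 1 by nlinarith) hd
      nlinarith
    rw [neg_div]
    nlinarith [sq_nonneg (Phi y)]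

lemma removalBound_le (G u : ℝ) {ic : ℝ} (h0 : 0 ≤ ic) (hic : ic ≤ 8 * Real.pi / 9) :
    removalBound G ≤ (2 - 2 * u * ic) * (phi G * Lfun G) + u ^ 2 * ic := by
  have e : removalBound G = 2 * (phi G * Lfun G) - (phi G * Lfun G) ^ 2 * (8 * Real.pi / 9) := by
    rw [removalBound, c2]
    field_simp
  rw [e]
  nlinarith [mul_le_mul_of_nonneg_left hic (sq_nonneg (phi G * Lfun G)),
    mul_nonneg h0 (sq_nonneg (phi G * Lfun G - u))]

lemma Lfun_le_line {g0 g1 m c : ℝ} (h0 : Lfun g0 - m * Phi g0 ≤ c)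
    (h1 : Lfun g1 - m * Phi g1 ≤ c) {G : ℝ} (hG : G ∈ Icc g0 g1) :
    Lfun G - m * Phi G ≤ c := by
  let k : ℝ → ℝ := fun y => Phi y / phi y
  have hk : Monotone k := by
    refine monotone_of_hasDerivAt_nonneg (f' := fun y => Lfun y / phi y)
      (fun y => ?_) fun y => ?_
    · refine ((hasDerivAt_Phi y).div (hasDerivAt_phi y) (phi_pos y).ne').congr_deriv ?_
      have := (phi_pos y).ne'
      simp only [Lfun]
      field_simp
      ring
    · show (0 : ℝ) ≤ _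
      exact div_nonneg (Lfun_nonneg y) (phi_nonneg y)
  let h : ℝ → ℝ := fun y => Lfun y - m * Phi y
  have hd : ∀ y, HasDerivAt h (phi y * (k y - m)) y := fun y =>
    ((hasDerivAt_Lfun y).sub ((hasDerivAt_Phi y).const_mul m)).congr_deriv (by
      have := (phi_pos y).ne'
      simp only [k]
      field_simp)
  have hc : Continuous h := continuous_iff_continuousAt.2 fun y => (hd y).continuousAt
  rcases le_total (k G) m with hm | hm
  · have ha : AntitoneOn h (Iic G) := by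
      refine antitoneOn_of_hasDerivWithinAt_nonpos (convex_Iic G) hc.continuousOn
        (fun y _ => (hd y).hasDerivWithinAt) fun y hy => ?_
      rw [interior_Iic] at hy
      exact mul_nonpos_of_nonneg_of_nonpos (phi_nonneg y) (by linarith [hk (mem_Iio.1 hy).le])
    exact (ha (mem_Iic.2 hG.1) self_mem_Iic hG.1).trans h0
  · have ha : MonotoneOn h (Ici G) := by
      refine monotoneOn_of_hasDerivWithinAt_nonneg (convex_Ici G) hc.continuousOn
        (fun y _ => (hd y).hasDerivWithinAt) fun y hy => ?_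
      rw [interior_Ici] at hy
      exact mul_nonneg (phi_nonneg y) (by linarith [hk (mem_Ioi.1 hy).le])
    exact (ha self_mem_Ici (mem_Ici.2 hG.2) hG.2).trans h1

lemma eight_div_pi_le : 8 / Real.pi ≤ 8 / (piLo : ℝ) := by
  refine div_le_div_of_nonneg_left (by norm_num) (by norm_num [piLo]) ?_
  have := Real.pi_gt_d6
  norm_num [piLo] at this ⊢
  linarith

/-- Compare with a chord, in the scaled form used by the rows. -/
lemma le_interp {y A B u v : ℝ} {a b cu cv : ℤ} {p : ℝ} (ha : A = (a : ℝ) / 10000000)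
    (hb : B = (b : ℝ) / 10000000) (hA : A ≤ p) (hB : p ≤ B)
    (hy : y * (B - A) ≤ u * (B - p) + v * (p - A))
    (hu : u * 10000000 ≤ (cu : ℝ)) (hv : v * 10000000 ≤ (cv : ℝ)) :
    y * 10000000 * ((b : ℝ) - a) ≤
      (cu : ℝ) * ((b : ℝ) - p * 10000000) + (cv : ℝ) * (p * 10000000 - a) := by
  have ea : (a : ℝ) = A * 10000000 := by rw [ha]; ring
  have eb : (b : ℝ) = B * 10000000 := by rw [hb]; ring
  rw [ea, eb]
  have h1 := mul_le_mul_of_nonneg_right hu (sub_nonneg.2 hB)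
  have h2 := mul_le_mul_of_nonneg_right hv (sub_nonneg.2 hA)
  linarith

lemma sq_chord {A B p x a c phG : ℝ} (hAB : A ≤ B) (hA : A ≤ p) (hB : p ≤ B)
    (h0 : 0 ≤ phG) (hT : phG ≤ c - a * p) (hx : x ≤ phG ^ 2) :
    x * (B - A) ≤ (c - a * A) ^ 2 * (B - p) + (c - a * B) ^ 2 * (p - A) := by
  have hx' := mul_le_mul_of_nonneg_right (hx.trans (pow_le_pow_left₀ h0 hT 2)) (sub_nonneg.2 hAB)
  have h1 : 0 ≤ a ^ 2 * ((B - A) * ((p - A) * (B - p))) :=
    mul_nonneg (sq_nonneg a)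
      (mul_nonneg (sub_nonneg.2 hAB) (mul_nonneg (sub_nonneg.2 hA) (sub_nonneg.2 hB)))
  linear_combination hx' + h1

lemma prod_chord {A B p U a c m d : ℝ} (hAB : A ≤ B) (hA : A ≤ p) (hB : p ≤ B)
    (hU : U ≤ (c - a * p) * (m * p + d)) :
    U * (B - A) ≤ ((c - a * A) * (m * A + d) + max 0 (a * m) * (B - A) ^ 2 / 4) * (B - p) +
      ((c - a * B) * (m * B + d) + max 0 (a * m) * (B - A) ^ 2 / 4) * (p - A) := by
  have h3 : (p - A) * (B - p) ≤ (B - A) ^ 2 / 4 := by nlinarith [sq_nonneg (2 * p - A - B)]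
  have h4 := mul_le_mul_of_nonneg_right (le_max_right 0 (a * m))
    (mul_nonneg (sub_nonneg.2 hA) (sub_nonneg.2 hB))
  have h5 := mul_le_mul_of_nonneg_left h3 (le_max_left 0 (a * m))
  have h6 := mul_le_mul_of_nonneg_right (h4.trans h5) (sub_nonneg.2 hAB)
  have h7 := mul_le_mul_of_nonneg_right hU (sub_nonneg.2 hAB)
  linear_combination h6 + h7

lemma le_c2_of_chord {A B p U Qa Qb : ℝ} (hAB : A < B) (hA : A ≤ p) (hB : p ≤ B) (hU0 : 0 ≤ U)
    (hU : U * (B - A) ≤ Qa * (B - p) + Qb * (p - A)) (ha : Qa * (8 * 3141593) ≤ 9 * 1000000)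
    (hb : Qb * (8 * 3141593) ≤ 9 * 1000000) : U ≤ c2 := by
  have h1 : U * (B - A) * (8 * 3141593) ≤ 9 * 1000000 * (B - A) := by
    linear_combination (8 * 3141593) * hU + mul_le_mul_of_nonneg_right ha (sub_nonneg.2 hB) +
      mul_le_mul_of_nonneg_right hb (sub_nonneg.2 hA)
  have h2 : U * (8 * 3141593) ≤ 9 * 1000000 :=
    le_of_mul_le_mul_right (by linarith) (sub_pos.2 hAB)
  have hpi := mul_le_mul_of_nonneg_left Real.pi_lt_d6.le hU0
  rw [c2, le_div_iff₀ (by positivity)]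
  linarith

lemma tangent_chord {A B p U x Qa Qb co k : ℝ} (hAB : A ≤ B) (hco : 0 ≤ co)
    (hU : U * (B - A) ≤ Qa * (B - p) + Qb * (p - A)) (hx : x ≤ co * U + k) :
    x * (B - A) ≤ (co * Qa + k) * (B - p) + (co * Qb + k) * (p - A) := by
  linear_combination mul_le_mul_of_nonneg_right hx (sub_nonneg.2 hAB) +
    mul_le_mul_of_nonneg_left hU hco

lemma cap_chord {A B p M D k : ℝ} (hAB : A ≤ B) (hA : A ≤ p) (hB : p ≤ B) (hk : 8 / Real.pi ≤ k)
    (hD0 : D ≤ 0)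
    (hDA : D ≤ (2 * M + A + B - 2) * A + (A ^ 2 + A * B + B ^ 2 - 2 * A - 2 * B + 1 - M ^ 2))
    (hDB : D ≤ (2 * M + A + B - 2) * B + (A ^ 2 + A * B + B ^ 2 - 2 * A - 2 * B + 1 - M ^ 2)) :
    capBound p * (B - A) ≤ k * (A ^ 2 * (1 - A) ^ 2 + -D * (B - A) ^ 2 / 4) * (B - p) +
      k * (B ^ 2 * (1 - B) ^ 2 + -D * (B - A) ^ 2 / 4) * (p - A) := by
  have hk0 : 0 ≤ k := le_trans (by positivity) hk
  have hcap : capBound p ≤ k * (p ^ 2 * (1 - p) ^ 2) := by
    rw [capBound, mul_assoc]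
    exact mul_le_mul_of_nonneg_right hk (by positivity)
  have hDp : D ≤ (2 * M + A + B - 2) * p +
      (A ^ 2 + A * B + B ^ 2 - 2 * A - 2 * B + 1 - M ^ 2) := by
    rcases le_total 0 (2 * M + A + B - 2) with hs | hs
    · linarith [mul_le_mul_of_nonneg_left hA hs]
    · linarith [mul_le_mul_of_nonpos_left hB hs]
  have hDE : D ≤ p ^ 2 + (A + B - 2) * p + (A ^ 2 + A * B + B ^ 2 - 2 * A - 2 * B + 1) := by
    linear_combination hDp + sq_nonneg (p - M)
  have hr : 0 ≤ (p - A) * (B - p) := mul_nonneg (sub_nonneg.2 hA) (sub_nonneg.2 hB)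
  have hr4 : (p - A) * (B - p) ≤ (B - A) ^ 2 / 4 := by nlinarith [sq_nonneg (2 * p - A - B)]
  have h3 : -(p ^ 2 + (A + B - 2) * p + (A ^ 2 + A * B + B ^ 2 - 2 * A - 2 * B + 1)) *
      ((p - A) * (B - p)) ≤ -D * ((B - A) ^ 2 / 4) :=
    (mul_le_mul_of_nonneg_right (neg_le_neg hDE) hr).trans
      (mul_le_mul_of_nonneg_left hr4 (neg_nonneg.2 hD0))
  have hg : p ^ 2 * (1 - p) ^ 2 * (B - A) ≤
      (A ^ 2 * (1 - A) ^ 2 + -D * (B - A) ^ 2 / 4) * (B - p) +
      (B ^ 2 * (1 - B) ^ 2 + -D * (B - A) ^ 2 / 4) * (p - A) := by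
    linear_combination mul_le_mul_of_nonneg_right h3 (sub_nonneg.2 hAB)
  linear_combination mul_le_mul_of_nonneg_right hcap (sub_nonneg.2 hAB) +
    mul_le_mul_of_nonneg_left hg hk0

lemma rowOK_sound {t : Row} {r : RowPar} (h : rowOK t r = true) {p x G : ℝ} (hp : Phi G = p)
    (hG : G ∈ Icc (r.g0 : ℝ) r.g1) (hsq : x ≤ phi G ^ 2)
    (hrem : phi G * Lfun G ≤ c2 → x ≤ removalBound G) : Covers t p x := by
  simp only [rowOK, Bool.and_eq_true, decide_eq_true_eq] at h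
  obtain ⟨⟨⟨⟨⟨hab, hA⟩, hB⟩, hbr⟩, hFa⟩, hFb⟩ := h
  set A : ℝ := (t.a : ℝ) / 10000000 with hAd
  set B : ℝ := (t.b : ℝ) / 10000000 with hBd
  have hab' : (t.a : ℝ) < t.b := Int.cast_lt.2 hab
  have hAB : A < B := by rw [hAd, hBd]; linarith
  have hAp : A ≤ p := by
    have h1 : (((t.a : ℚ) / 10000000 : ℚ) : ℝ) ≤ (PhiLoQ nSer r.g0 : ℝ) := Rat.cast_le.2 hA
    push_cast at h1
    have h2 := (Phi_bounds nSer r.g0).1
    have h3 := Phi_strictMono.monotone hG.1
    rw [hp] at h3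
    linarith
  have hpB : p ≤ B := by
    have h1 : (PhiHiQ nSer r.g1 : ℝ) ≤ (((t.b : ℚ) / 10000000 : ℚ) : ℝ) := Rat.cast_le.2 hB
    push_cast at h1
    have h2 := (Phi_bounds nSer r.g1).2
    have h3 := Phi_strictMono.monotone hG.2
    rw [hp] at h3
    linarith
  refine ⟨hab, ?_, ?_, ?_, ?_⟩
  · rw [hAd, div_le_iff₀ (by norm_num)] at hAp; exact hAp
  · rw [hBd, le_div_iff₀ (by norm_num)] at hpB; exact hpB
  · have hT := phi_le_line r.am G
    rw [hp] at hT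
    have hphi := phi_nonneg G
    cases hu : r.use
    · simp only [hu, Bool.false_eq_true, if_false, Bool.and_eq_true, decide_eq_true_eq] at hbr
      have h1 := (Rat.cast_le (K := ℝ)).2 hbr.1
      have h2 := (Rat.cast_le (K := ℝ)).2 hbr.2
      push_cast at h1 h2
      exact le_interp hAd hBd hAp hpB (sq_chord hAB.le hAp hpB hphi hT hsq) h1 h2
    · simp only [hu, if_true, Bool.and_eq_true, decide_eq_true_eq] at hbr
      obtain ⟨⟨⟨⟨⟨hm, hQa⟩, hQb⟩, hco⟩, h1⟩, h2⟩ := hbr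
      replace hm := (Rat.cast_le (K := ℝ)).2 hm
      replace hQa := (Rat.cast_le (K := ℝ)).2 hQa
      replace hQb := (Rat.cast_le (K := ℝ)).2 hQb
      replace hco := (Rat.cast_le (K := ℝ)).2 hco
      replace h1 := (Rat.cast_le (K := ℝ)).2 h1
      replace h2 := (Rat.cast_le (K := ℝ)).2 h2
      push_cast at hm hQa hQb hco h1 h2
      have hend : ∀ g : ℚ, Lfun (g : ℝ) - (r.m : ℝ) * Phi (g : ℝ) ≤
          (LHiQ g : ℝ) - (r.m : ℝ) * (PhiLoQ nSer g : ℝ) := fun g => by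
        have := mul_le_mul_of_nonneg_left (Phi_bounds nSer g).1 hm
        linarith [LHiQ_spec g]
      have hL := Lfun_le_line ((hend r.g0).trans (le_max_left _ _))
        ((hend r.g1).trans (le_max_right _ _)) hG
      rw [hp] at hL
      have hU := mul_le_mul hT (sub_le_iff_le_add'.1 hL) (Lfun_nonneg G) (hphi.trans hT)
      have hUQ := prod_chord hAB.le hAp hpB hU
      have hUc := le_c2_of_chord hAB hAp hpB (mul_nonneg hphi (Lfun_nonneg G)) hUQ hQa hQb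
      have hic : 8 * (piLo : ℝ) / 9 ≤ 8 * Real.pi / 9 := by
        have := Real.pi_gt_d6
        norm_num [piLo] at this ⊢
        linarith
      refine le_interp hAd hBd hAp hpB ?_ h1 h2
      exact tangent_chord hAB.le hco hUQ
        ((hrem hUc).trans (removalBound_le G _ (by norm_num [piLo]) hic))
  · replace hFa := (Rat.cast_le (K := ℝ)).2 hFa
    replace hFb := (Rat.cast_le (K := ℝ)).2 hFb
    push_cast at hFa hFb
    exact le_interp hAd hBd hAp hpB
      (cap_chord hAB.le hAp hpB eight_div_pi_le (min_le_left _ _)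
        ((min_le_right _ _).trans (min_le_left _ _)) ((min_le_right _ _).trans (min_le_right _ _)))
      hFa hFb

lemma firstOK_sound {t : Row} {g : ℚ} (h : firstOK t g = true) {p x G : ℝ} (hp : Phi G = p)
    (hG : G ≤ (g : ℝ)) (hrem : phi G * Lfun G ≤ c2 → x ≤ removalBound G) : Covers t p x := by
  simp only [firstOK, Bool.and_eq_true, decide_eq_true_eq] at h
  obtain ⟨⟨⟨⟨⟨⟨⟨ha, hb⟩, hB⟩, hBa⟩, hBb⟩, hc⟩, hFa⟩, hFb⟩ := h
  replace hB := (Rat.cast_le (K := ℝ)).2 hB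
  replace hBb := (Rat.cast_le (K := ℝ)).2 hBb
  replace hc := (Rat.cast_le (K := ℝ)).2 hc
  replace hFb := (Rat.cast_le (K := ℝ)).2 hFb
  push_cast at hB hBb hc hFb
  set B : ℝ := (t.b : ℝ) / 10000000 with hBd
  have hbR : (0 : ℝ) < (t.b : ℝ) := Int.cast_pos.2 hb
  have haR : (t.a : ℝ) = 0 := by rw [ha]; simp
  have hp0 : 0 ≤ p := by rw [← hp]; exact (Phi_pos G).le
  have hpB : p ≤ B := by
    have := Phi_strictMono.monotone hG
    rw [hp] at this
    linarith [(Phi_bounds nSer g).2]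
  have hA : (0 : ℝ) = (t.a : ℝ) / 10000000 := by rw [haR]; simp
  have hB0 : 0 ≤ B := hp0.trans hpB
  refine ⟨by omega, by rw [haR]; positivity, ?_, ?_, ?_⟩
  · rw [hBd, le_div_iff₀ (by norm_num)] at hpB; exact hpB
  · have hU : phi G * Lfun G ≤ p ^ 2 := by rw [← hp]; exact phi_mul_Lfun_le_sq G
    have hU0 : 0 ≤ phi G * Lfun G := mul_nonneg (phi_nonneg G) (Lfun_nonneg G)
    have hUc : phi G * Lfun G ≤ c2 := by
      rw [c2, le_div_iff₀ (by positivity)]
      have := Real.pi_lt_d6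
      nlinarith [mul_le_mul_of_nonneg_left this.le hU0, pow_le_pow_left₀ hp0 hpB 2]
    have hx : x ≤ 2 * (B * p) := by
      have := removalBound_le G 0 (ic := 0) le_rfl (by positivity)
      nlinarith [hrem hUc, mul_le_mul_of_nonneg_right hpB hp0]
    refine le_interp hA hBd hp0 hpB (u := 0) (v := 2 * B * B) ?_ ?_ hBb
    · nlinarith [mul_le_mul_of_nonneg_right hx hB0]
    · simpa using hBa
  · refine le_interp hA hBd hp0 hpB (u := 0) (v := 8 / (piLo : ℝ) * B ^ 2) ?_ ?_ hFb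
    · have hp1 : p ≤ 1 := by rw [← hp]; exact (Phi_lt_one G).le
      have h1 : (1 - p) ^ 2 ≤ 1 := pow_le_one₀ (by linarith) (by linarith)
      have h2 : capBound p ≤ 8 / (piLo : ℝ) * (B * p) := by
        rw [capBound, mul_assoc]
        refine mul_le_mul eight_div_pi_le ?_ (by positivity) (by norm_num [piLo])
        nlinarith [mul_le_mul_of_nonneg_left h1 (sq_nonneg p), mul_le_mul_of_nonneg_right hpB hp0]
      nlinarith [mul_le_mul_of_nonneg_right h2 hB0]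
    · simpa using hFa

lemma lastOK_sound {t : Row} {g : ℚ} (h : lastOK t g = true) {p x G : ℝ} (hp : Phi G = p)
    (hG : (g : ℝ) ≤ G) (hsq : x ≤ phi G ^ 2) : Covers t p x := by
  simp only [lastOK, Bool.and_eq_true, decide_eq_true_eq] at h
  obtain ⟨⟨⟨⟨⟨⟨⟨hab, hb⟩, hA⟩, hhalf⟩, hBa⟩, hBb⟩, hFa⟩, hFb⟩ := h
  replace hA := (Rat.cast_le (K := ℝ)).2 hA
  replace hhalf := (Rat.cast_le (K := ℝ)).2 hhalf
  replace hBa := (Rat.cast_le (K := ℝ)).2 hBa
  replace hBb := (Rat.cast_le (K := ℝ)).2 hBb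
  replace hFa := (Rat.cast_le (K := ℝ)).2 hFa
  replace hFb := (Rat.cast_le (K := ℝ)).2 hFb
  push_cast at hA hhalf hBa hBb hFa hFb
  set A : ℝ := (t.a : ℝ) / 10000000 with hAd
  set B : ℝ := (t.b : ℝ) / 10000000 with hBd
  have hB1 : B = 1 := by rw [hBd, hb]; norm_num
  have hAp : A ≤ p := by
    have := Phi_strictMono.monotone hG
    rw [hp] at this
    linarith [(Phi_bounds nSer g).1]
  have hpB : p ≤ B := by rw [hB1, ← hp]; exact (Phi_lt_one G).le
  refine ⟨hab, ?_, ?_, ?_, ?_⟩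
  · rw [hAd, div_le_iff₀ (by norm_num)] at hAp; exact hAp
  · rw [hBd, le_div_iff₀ (by norm_num)] at hpB; exact hpB
  · refine le_interp hAd hBd hAp hpB (u := (phi0Hi : ℝ) ^ 2) (v := (phi0Hi : ℝ) ^ 2) ?_ hBa hBb
    have hx : x ≤ (phi0Hi : ℝ) ^ 2 :=
      hsq.trans (pow_le_pow_left₀ (phi_nonneg G)
        ((phi_le_phi_zero G).trans phi_zero_bounds.2) 2)
    nlinarith [mul_le_mul_of_nonneg_right hx (show (0:ℝ) ≤ B - A by linarith)]
  · refine le_interp hAd hBd hAp hpB (u := 8 / (piLo : ℝ) * (A * (1 - A)) ^ 2)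
      (v := 8 / (piLo : ℝ) * (A * (1 - A)) ^ 2) ?_ hFa hFb
    have hw : p * (1 - p) ≤ A * (1 - A) := by nlinarith
    have hc : capBound p ≤ 8 / (piLo : ℝ) * (A * (1 - A)) ^ 2 := by
      rw [capBound, mul_assoc, ← mul_pow]
      exact mul_le_mul eight_div_pi_le
        (pow_le_pow_left₀ (mul_nonneg (by linarith) (by linarith)) hw 2) (sq_nonneg _)
        (by norm_num [piLo])
    nlinarith [mul_le_mul_of_nonneg_right hc (show (0:ℝ) ≤ B - A by linarith)]

lemma chainOK_sound : ∀ (rs : List RowPar) (ts : List Row) (g : ℚ), chainOK g rs ts = true →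
    ∀ {p x G : ℝ}, Phi G = p → (g : ℝ) ≤ G → x ≤ phi G ^ 2 →
      (phi G * Lfun G ≤ c2 → x ≤ removalBound G) → ∃ t ∈ ts, Covers t p x
  | [], [t], g, h, p, x, G, hp, hG, hsq, _ =>
    ⟨t, List.mem_singleton_self t, lastOK_sound (by simpa [chainOK] using h) hp hG hsq⟩
  | [], [], g, h, p, x, G, hp, hG, hsq, hrem => by simp [chainOK] at h
  | [], _ :: _ :: _, g, h, p, x, G, hp, hG, hsq, hrem => by simp [chainOK] at h
  | _ :: _, [], g, h, p, x, G, hp, hG, hsq, hrem => by simp [chainOK] at h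
  | r :: rs, t :: ts, g, h, p, x, G, hp, hG, hsq, hrem => by
    simp only [chainOK, Bool.and_eq_true, decide_eq_true_eq] at h
    obtain ⟨⟨hg, hr⟩, hc⟩ := h
    rw [← hg] at hG
    rcases le_total G (r.g1 : ℝ) with h1 | h1
    · exact ⟨t, List.mem_cons_self, rowOK_sound hr hp ⟨hG, h1⟩ hsq hrem⟩
    · obtain ⟨t', ht', hc'⟩ := chainOK_sound rs ts r.g1 hc hp h1 hsq hrem
      exact ⟨t', List.mem_cons_of_mem t ht', hc'⟩

theorem certRows_ok : tableOK certRows = true := by decide +kernel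

/-- The table covers every cell. -/
theorem table_covers {p x : ℝ} (h : CellBound p x) : ∃ t ∈ certRows, Covers t p x := by
  obtain ⟨-, G, hp, hsq, hrem⟩ := h
  have hok := certRows_ok
  revert hok
  cases certRows with
  | nil => simp [tableOK]
  | cons t ts =>
    intro hok
    simp only [tableOK, Bool.and_eq_true] at hok
    rcases le_total G (((-3 : ℚ)) : ℝ) with h1 | h1
    · exact ⟨t, List.mem_cons_self, firstOK_sound hok.1 hp h1 hrem⟩
    · obtain ⟨t', ht', hc'⟩ := chainOK_sound rowPars ts (-3) hok.2 hp h1 hsq hrem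
      exact ⟨t', List.mem_cons_of_mem t ht', hc'⟩

end Vale.Agent.P226
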